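import Mathlib

open MeasureTheory ProbabilityTheory

namespace P047X

theorem gauss_density (x : ℝ) :
    gaussianPDFReal 0 1 x = (Real.sqrt (2 * Real.pi))⁻¹ * Real.exp (-x ^ 2 / 2) := by
  simp [gaussianPDFReal_def]

theorem gauss_neg (f : ℝ → ℝ) :
    ∫ z, f (-z) ∂(gaussianReal 0 1) = ∫ z, f z ∂(gaussianReal 0 1) := by
  rw [integral_gaussianReal_eq_integral_smul one_ne_zero,
    integral_gaussianReal_eq_integral_smul one_ne_zero,
    ← integral_neg_eq_self (fun x => gaussianPDFReal 0 1 x • f x)]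
  congr 1
  ext x
  rw [gauss_density, gauss_density]
  simp

theorem gauss_sq_integrable : Integrable (fun z : ℝ => z ^ 2) (gaussianReal 0 1) := by
  have h := (memLp_id_gaussianReal (μ := 0) (v := 1) 2).integrable_sq
  simpa using h

theorem gauss_point (a : ℝ) (ha : 0 < a) (x : ℝ) :
    gaussianPDFReal 0 1 x * (max (x - a) 0) ^ 2 ≤
      (8 / a ^ 2) * (gaussianPDFReal 0 1 ((1 / 2) * x + a / 2) *
        (if a < (1 / 2) * x + a / 2 then (1 : ℝ) else 0)) := by
  by_cases hx : a < x
  · have h1 : a < (1 / 2) * x + a / 2 := by linarith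
    rw [if_pos h1, mul_one, max_eq_left (by linarith), gauss_density, gauss_density]
    obtain ⟨t, ht, rfl⟩ : ∃ t : ℝ, 0 < t ∧ x = a + t := ⟨x - a, by linarith, by ring⟩
    have h2 : Real.exp (-((1 / 2) * (a + t) + a / 2) ^ 2 / 2) =
        Real.exp (-(a + t) ^ 2 / 2) * Real.exp (a * t / 2 + 3 * t ^ 2 / 8) := by
      rw [← Real.exp_add]
      congr 1
      ring
    rw [h2]
    have h3 : (a * t / 2) ^ 2 / 2 ≤ Real.exp (a * t / 2 + 3 * t ^ 2 / 8) := by
      have hat : 0 ≤ a * t / 2 := by positivity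
      have h4 := Real.quadratic_le_exp_of_nonneg hat
      have h5 : Real.exp (a * t / 2) ≤ Real.exp (a * t / 2 + 3 * t ^ 2 / 8) :=
        Real.exp_le_exp.mpr (by nlinarith [sq_nonneg t])
      linarith
    have h6 : t ^ 2 ≤ 8 / a ^ 2 * Real.exp (a * t / 2 + 3 * t ^ 2 / 8) := by
      have : t ^ 2 = 8 / a ^ 2 * ((a * t / 2) ^ 2 / 2) := by
        field_simp
        ring
      calc t ^ 2 = 8 / a ^ 2 * ((a * t / 2) ^ 2 / 2) := this
        _ ≤ _ := mul_le_mul_of_nonneg_left h3 (by positivity)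
    have h7 : a + t - a = t := by ring
    rw [h7]
    calc (Real.sqrt (2 * Real.pi))⁻¹ * Real.exp (-(a + t) ^ 2 / 2) * t ^ 2
        ≤ (Real.sqrt (2 * Real.pi))⁻¹ * Real.exp (-(a + t) ^ 2 / 2) *
          (8 / a ^ 2 * Real.exp (a * t / 2 + 3 * t ^ 2 / 8)) :=
          mul_le_mul_of_nonneg_left h6 (by positivity)
      _ = _ := by ring
  · have hx' : x ≤ a := not_lt.mp hx
    rw [max_eq_right (by linarith)]
    have : ¬ (a < (1 / 2) * x + a / 2) := by
      intro h
      linarith
    rw [if_neg this]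
    simp

theorem gauss_tail_one (a : ℝ) (ha : 0 < a) :
    ∫ z, (max (z - a) 0) ^ 2 ∂(gaussianReal 0 1) ≤
      (16 / a ^ 2) * ∫ z, (if a < z then (1 : ℝ) else 0) ∂(gaussianReal 0 1) := by
  rw [integral_gaussianReal_eq_integral_smul one_ne_zero,
    integral_gaussianReal_eq_integral_smul one_ne_zero]
  simp only [smul_eq_mul]
  set G : ℝ → ℝ := fun y => gaussianPDFReal 0 1 y * (if a < y then (1 : ℝ) else 0) with hG
  have hGint : Integrable G := by
    have h1 : G = Set.indicator (Set.Ioi a) (gaussianPDFReal 0 1) := by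
      ext y
      by_cases hy : a < y
      · simp [hG, hy]
      · simp [hG, hy]
    rw [h1]
    exact (integrable_gaussianPDFReal 0 1).indicator measurableSet_Ioi
  have hGc : Integrable (fun x : ℝ => G ((1 / 2) * x + a / 2)) := by
    have h1 : Integrable (fun x : ℝ => G (x + a / 2)) := hGint.comp_add_right (a / 2)
    exact h1.comp_mul_left' (R := (1 / 2 : ℝ)) (by norm_num)
  have hval : ∫ x : ℝ, G ((1 / 2) * x + a / 2) = 2 * ∫ x : ℝ, G x := by
    have h1 := Measure.integral_comp_mul_left (fun x : ℝ => G (x + a / 2)) (1 / 2 : ℝ)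
    rw [h1, integral_add_right_eq_self]
    norm_num
  have h8 : ∫ x : ℝ, gaussianPDFReal 0 1 x * (max (x - a) 0) ^ 2 ≤
      ∫ x : ℝ, (8 / a ^ 2) * G ((1 / 2) * x + a / 2) := by
    apply integral_mono_of_nonneg
    · exact Filter.Eventually.of_forall fun x =>
        mul_nonneg (gaussianPDFReal_nonneg 0 1 x) (sq_nonneg _)
    · exact hGc.const_mul _
    · exact Filter.Eventually.of_forall fun x => gauss_point a ha x
  rw [integral_const_mul, hval] at h8
  calc _ ≤ _ := h8
    _ = _ := by ring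

theorem gauss_tail_all (a : ℝ) (ha : 0 < a) :
    ∀ᵉ (s ∈ ({1, -1} : Set ℝ)),
      ∫ z, (max (s * z - a) 0) ^ 2 ∂(gaussianReal 0 1) ≤
        (16 / a ^ 2) * ∫ z, (if a < s * z then (1 : ℝ) else 0) ∂(gaussianReal 0 1) := by
  intro s hs
  rcases hs with rfl | hs
  · simpa using gauss_tail_one a ha
  · rw [Set.mem_singleton_iff] at hs
    subst hs
    have h1 := gauss_neg (fun z => (max (z - a) 0) ^ 2)
    have h2 := gauss_neg (fun z => if a < z then (1 : ℝ) else 0)
    have h3 := gauss_tail_one a ha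
    rw [← h1, ← h2] at h3
    simpa [neg_mul, one_mul] using h3

theorem gauss_tail (ε : ℝ) (hε : 0 < ε) :
    ∃ a : ℝ, 0 < a ∧ ∀ᵉ (s ∈ ({1, -1} : Set ℝ)),
      ∫ z, (max (s * z - a) 0) ^ 2 ∂(gaussianReal 0 1) ≤ ε * ∫ z, (if a < s * z then (1 : ℝ) else 0) ∂(gaussianReal 0 1) := by
  refine ⟨4 / Real.sqrt ε, by positivity, fun s hs => ?_⟩
  have h := gauss_tail_all (4 / Real.sqrt ε) (by positivity) s hs
  have h2 : (16 : ℝ) / (4 / Real.sqrt ε) ^ 2 = ε := by
    rw [div_pow, Real.sq_sqrt hε.le]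
    field_simp
    norm_num
  rwa [h2] at h

theorem gauss_clip (ε : ℝ) (hε : 0 < ε) :
    ∃ κ : ℝ, 0 < κ ∧ ∫ z, (z - κ * max (-1) (min 1 (z / κ))) ^ 2 ∂(gaussianReal 0 1) ≤ ε := by
  obtain ⟨κ, hκ, h⟩ := gauss_tail (ε / 2) (by positivity)
  refine ⟨κ, hκ, ?_⟩
  have hp := h 1 (by simp)
  have hm := h (-1) (by simp)
  have hid : ∀ z : ℝ, (z - κ * max (-1) (min 1 (z / κ))) ^ 2 =
      (max (1 * z - κ) 0) ^ 2 + (max (-1 * z - κ) 0) ^ 2 := by
    intro z
    rcases le_total z (-κ) with h1 | h1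
    · have h2 : z / κ ≤ -1 := by
        rw [div_le_iff₀ hκ]; linarith
      rw [min_eq_right (by linarith), max_eq_left h2, max_eq_right (by linarith),
        max_eq_left (by linarith)]
      ring
    · rcases le_total z κ with h2 | h2
      · have h3 : -1 ≤ z / κ := by
          rw [le_div_iff₀ hκ]; linarith
        have h4 : z / κ ≤ 1 := by
          rw [div_le_iff₀ hκ]; linarith
        rw [min_eq_right h4, max_eq_right h3, max_eq_right (by linarith),
          max_eq_right (by linarith), mul_div_cancel₀ _ hκ.ne']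
        ring
      · have h3 : 1 ≤ z / κ := by
          rw [le_div_iff₀ hκ]; linarith
        rw [min_eq_left h3, max_eq_right (by norm_num), max_eq_left (by linarith),
          max_eq_right (by linarith)]
        ring
  have hint : ∀ s : ℝ, s ^ 2 = 1 →
      Integrable (fun z : ℝ => (max (s * z - κ) 0) ^ 2) (gaussianReal 0 1) := by
    intro s hs
    refine Integrable.mono' gauss_sq_integrable ?_ ?_
    · exact (by fun_prop : Continuous fun z : ℝ => (max (s * z - κ) 0) ^ 2).aestronglyMeasurable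
    · refine Filter.Eventually.of_forall fun z => ?_
      rw [Real.norm_of_nonneg (sq_nonneg _)]
      have h5 : z ^ 2 = (s * z) ^ 2 := by rw [mul_pow, hs, one_mul]
      rw [h5]
      rcases le_total (s * z - κ) 0 with h6 | h6
      · rw [max_eq_right h6]
        nlinarith [sq_nonneg (s * z)]
      · rw [max_eq_left h6]
        nlinarith
  have hle : ∀ s : ℝ, ∫ z, (if κ < s * z then (1 : ℝ) else 0) ∂(gaussianReal 0 1) ≤ 1 := by
    intro s
    have h1 : ∫ z, (if κ < s * z then (1 : ℝ) else 0) ∂(gaussianReal 0 1) ≤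
        ∫ _z : ℝ, (1 : ℝ) ∂(gaussianReal 0 1) := by
      apply integral_mono_of_nonneg
      · exact Filter.Eventually.of_forall fun z => by
          simp only [Pi.zero_apply]
          split_ifs <;> norm_num
      · exact integrable_const _
      · exact Filter.Eventually.of_forall fun z => by
          simp only
          split_ifs <;> norm_num
    simpa using h1
  simp_rw [hid]
  rw [integral_add (hint 1 (by norm_num)) (hint (-1) (by norm_num))]
  have h7 := mul_le_mul_of_nonneg_left (hle 1) (by positivity : (0 : ℝ) ≤ ε / 2)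
  have h8 := mul_le_mul_of_nonneg_left (hle (-1)) (by positivity : (0 : ℝ) ≤ ε / 2)
  linarith

/-- a nonnegative continuous bounded function that is positive somewhere has positive integral -/
theorem gauss_pos (g : ℝ → ℝ) (hg : Continuous g) (h0 : ∀ z, 0 ≤ g z) (C : ℝ) (hC : ∀ z, g z ≤ C) (z0 : ℝ) (hz : 0 < g z0) :
    0 < ∫ z, g z ∂(gaussianReal 0 1) := by
  have hint : Integrable g (gaussianReal 0 1) := by
    refine Integrable.mono' (integrable_const C) hg.aestronglyMeasurable ?_
    refine Filter.Eventually.of_forall fun z => ?_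
    rw [Real.norm_of_nonneg (h0 z)]
    exact hC z
  rw [integral_pos_iff_support_of_nonneg h0 hint]
  rw [pos_iff_ne_zero]
  intro hzero
  have h1 : (volume : Measure ℝ) (Function.support g) = 0 :=
    gaussianReal_absolutelyContinuous' 0 one_ne_zero hzero
  have h2 : IsOpen (Function.support g) := hg.isOpen_support
  have h3 := h2.measure_pos (volume : Measure ℝ) ⟨z0, by simpa using hz.ne'⟩
  exact absurd h1 h3.ne'

theorem gauss_abs : 1 / 2 < ∫ z, |z| ∂(gaussianReal 0 1) := by
  rw [integral_gaussianReal_eq_integral_smul one_ne_zero]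
  set F : ℝ → ℝ :=
    fun y : ℝ => (Real.sqrt (2 * Real.pi))⁻¹ * (y * Real.exp (-(1 / 2) * y ^ (2 : ℝ))) with hF
  have h1 : ∀ x : ℝ, gaussianPDFReal 0 1 x • |x| = F |x| := by
    intro x
    rw [hF]
    rw [gauss_density, smul_eq_mul]
    simp only [Real.rpow_two, sq_abs]
    have : -x ^ 2 / 2 = -(1 / 2) * x ^ 2 := by ring
    rw [this]
    ring
  rw [integral_congr_ae (Filter.Eventually.of_forall h1), integral_comp_abs (f := F), hF,
    integral_const_mul]
  have h2 : ∫ x in Set.Ioi (0 : ℝ), x * Real.exp (-(1 / 2) * x ^ (2 : ℝ)) = 1 := by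
    have h3 := integral_rpow_mul_exp_neg_mul_rpow (p := 2) (q := 1) (b := 1 / 2)
      (by norm_num) (by norm_num) (by norm_num)
    simp only [Real.rpow_one] at h3
    rw [h3]
    norm_num
  rw [h2]
  have h4 : Real.sqrt (2 * Real.pi) < 4 := by
    rw [Real.sqrt_lt' (by norm_num)]
    have := Real.pi_lt_four
    linarith
  have h5 : 0 < Real.sqrt (2 * Real.pi) := by positivity
  have h6 : (4 : ℝ)⁻¹ < (Real.sqrt (2 * Real.pi))⁻¹ := by
    rw [inv_lt_inv₀ (by norm_num) h5]
    exact h4
  linarith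

end P047X
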