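import Vale.Agent.P047X.Ker

/-!
Module RND: dyadic rounding of the kernel, as functions of `G` group variables.
Take `p_y` from `ker n`, `φ_y(z) = (1-δ') p_y(u) + δ'/N`, `u = (∑ z_g)/G`, `|z_g| ≤ 1`.
A polynomial `P` of degree `≤ n` in `∑_g z_g` is `∑_{A, |A| ≤ n} h_A(z)`; here the monomials are grouped by support.
Round: `H_{y,A} = ⌊2^b h_{y,A}⌋`, `Φ_y = ∑_A H_{y,A}` for `y ≠ last`, `Φ_last = 2^b - ∑ others`. Error of each `Φ_y/2^b` is in `[-2^G/2^b, 0]` for
`y ≠ last` and in `[0, N 2^G/2^b]` for the last one. `b` large. (Here the last index is `0`.)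
-/

open scoped BigOperators
open Finset

namespace P047X

/-- part of `q ((∑ z)/G)` with support `A` -/
noncomputable def rndH (G : ℕ) (q : Polynomial ℝ) (A : Finset (Fin G)) (z : Fin G → ℝ) : ℝ :=
  ∑ j ∈ Finset.range (q.natDegree + 1), q.coeff j * ((G : ℝ)⁻¹) ^ j *
    ∑ f ∈ (Finset.univ : Finset (Fin j → Fin G)).filter (fun f => Finset.univ.image f = A),
      ∏ i, z (f i)

theorem rndH_congr (G : ℕ) (q : Polynomial ℝ) (A : Finset (Fin G)) (z z' : Fin G → ℝ)
    (h : ∀ g ∈ A, z g = z' g) : rndH G q A z = rndH G q A z' := by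
  unfold rndH
  refine Finset.sum_congr rfl fun j _ => ?_
  congr 1
  refine Finset.sum_congr rfl fun f hf => ?_
  refine Finset.prod_congr rfl fun i _ => ?_
  apply h
  rw [← (Finset.mem_filter.1 hf).2]
  exact Finset.mem_image_of_mem f (Finset.mem_univ i)

theorem rndH_sum (n G : ℕ) (q : Polynomial ℝ) (hq : q.natDegree ≤ n) (z : Fin G → ℝ) :
    q.eval ((∑ g, z g) / (G : ℝ)) =
      ∑ A ∈ Finset.univ.filter (fun A : Finset (Fin G) => A.card ≤ n), rndH G q A z := by
  unfold rndH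
  rw [Finset.sum_comm, Polynomial.eval_eq_sum_range]
  refine Finset.sum_congr rfl fun j hj => ?_
  rw [← Finset.mul_sum, Finset.sum_fiberwise_of_maps_to]
  · rw [← Fintype.sum_pow, div_eq_mul_inv, mul_pow]
    ring
  · intro f _
    refine Finset.mem_filter.2 ⟨Finset.mem_univ _, ?_⟩
    have h1 : (Finset.univ.image f).card ≤ j := by
      refine Finset.card_image_le.trans ?_
      simp
    have h2 : j < q.natDegree + 1 := Finset.mem_range.1 hj
    omega

theorem rnd (n G : ℕ) (hG : 1 ≤ G) (ε : ℝ) (hε : 0 < ε) :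
    ∃ (b N : ℕ) (c : Fin N → ℝ) (Φ : Fin N → (Fin G → ℝ) → ℕ), 1 ≤ b ∧ 1 ≤ N ∧
      (∀ y, |c y| ≤ 1) ∧
      (∀ z : Fin G → ℝ, (∀ g, |z g| ≤ 1) → ∑ y, Φ y z = 2 ^ b) ∧
      (∀ z : Fin G → ℝ, (∀ g, |z g| ≤ 1) →
        ∑ y, ((Φ y z : ℝ) / 2 ^ b) * ((∑ g, z g) / (G : ℝ) - c y) ^ 2 ≤ 10 / ((n : ℝ) + 1) ^ 2 + ε) ∧
      (∀ y, ∃ H : Finset (Fin G) → (Fin G → ℝ) → ℝ,
        (∀ (A : Finset (Fin G)) (z z' : Fin G → ℝ), (∀ g ∈ A, z g = z' g) → H A z = H A z') ∧
        ∀ z : Fin G → ℝ, (∀ g, |z g| ≤ 1) →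
          (Φ y z : ℝ) = ∑ A ∈ Finset.univ.filter (fun A : Finset (Fin G) => A.card ≤ n), H A z) := by
  obtain ⟨N, c, p, hN, hc, hdeg, hp⟩ := ker n
  have hNR : (0 : ℝ) < N := by exact_mod_cast hN
  set δ : ℝ := min (1 / 2) (ε / 8) with hδ
  have hδ0 : 0 < δ := lt_min (by norm_num) (by positivity)
  have hδ1 : δ ≤ 1 / 2 := min_le_left _ _
  have hδ2 : δ ≤ ε / 8 := min_le_right _ _
  -- choose b
  obtain ⟨b0, hb0⟩ := pow_unbounded_of_one_lt (max (2 ^ G * N / δ) (8 * N * 2 ^ G / ε)) (one_lt_two : (1:ℝ) < 2)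
  set b : ℕ := b0 + 1 with hb
  have hbb : max ((2:ℝ) ^ G * N / δ) (8 * N * 2 ^ G / ε) ≤ 2 ^ b := by
    refine hb0.le.trans ?_
    rw [hb]
    exact pow_le_pow_right₀ (by norm_num) (by omega)
  have hb1 : (2:ℝ) ^ G * N / δ ≤ 2 ^ b := (le_max_left _ _).trans hbb
  have hb2 : 8 * (N:ℝ) * 2 ^ G / ε ≤ 2 ^ b := (le_max_right _ _).trans hbb
  have hB0 : (0:ℝ) < 2 ^ b := by positivity
  -- the index `0`
  set y0 : Fin N := ⟨0, hN⟩ with hy0
  -- mixed polynomials
  set q : Fin N → Polynomial ℝ := fun y => Polynomial.C (1 - δ) * p y + Polynomial.C (δ / N) with hqdef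
  have hqdeg : ∀ y, (q y).natDegree ≤ n := by
    intro y
    refine (Polynomial.natDegree_add_le _ _).trans (max_le ?_ ?_)
    · exact (Polynomial.natDegree_C_mul_le _ _).trans (hdeg y)
    · simp
  have hqeval : ∀ y u, (q y).eval u = (1 - δ) * (p y).eval u + δ / N := by
    intro y u
    simp [hqdef]
  set S : Finset (Finset (Fin G)) := Finset.univ.filter (fun A : Finset (Fin G) => A.card ≤ n) with hS
  have hScard : (S.card : ℝ) ≤ 2 ^ G := by
    have h1 : S.card ≤ Fintype.card (Finset (Fin G)) := Finset.card_le_univ _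
    have h2 : Fintype.card (Finset (Fin G)) = 2 ^ G := by simp
    rw [h2] at h1
    exact_mod_cast h1
  set Z : Fin N → (Fin G → ℝ) → ℤ := fun y z =>
    if y = y0 then 2 ^ b - ∑ y' ∈ Finset.univ.erase y0, ∑ A ∈ S, ⌊2 ^ b * rndH G (q y') A z⌋
    else ∑ A ∈ S, ⌊2 ^ b * rndH G (q y) A z⌋ with hZ
  have hZ0 : ∀ z, Z y0 z = 2 ^ b - ∑ y' ∈ Finset.univ.erase y0, Z y' z := by
    intro z
    have h1 : Z y0 z = 2 ^ b - ∑ y' ∈ Finset.univ.erase y0, ∑ A ∈ S, ⌊2 ^ b * rndH G (q y') A z⌋ := by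
      simp [hZ]
    rw [h1]
    congr 1
    refine Finset.sum_congr rfl fun y' hy' => ?_
    have : y' ≠ y0 := Finset.ne_of_mem_erase hy'
    simp [hZ, this]
  have hZsum : ∀ z, ∑ y, Z y z = 2 ^ b := by
    intro z
    rw [← Finset.add_sum_erase _ _ (Finset.mem_univ y0), hZ0 z]
    ring
  -- estimates
  have hu : ∀ z : Fin G → ℝ, (∀ g, |z g| ≤ 1) → |(∑ g, z g) / (G : ℝ)| ≤ 1 := by
    intro z hz
    have hGR : (0:ℝ) < G := by exact_mod_cast hG
    rw [abs_div, abs_of_pos hGR, div_le_one hGR]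
    calc |∑ g, z g| ≤ ∑ g, |z g| := Finset.abs_sum_le_sum_abs _ _
      _ ≤ ∑ _g : Fin G, (1:ℝ) := Finset.sum_le_sum fun g _ => hz g
      _ = G := by simp
  have hup : ∀ y, y ≠ y0 → ∀ z, (Z y z : ℝ) ≤ 2 ^ b * (q y).eval ((∑ g, z g) / (G : ℝ)) := by
    intro y hy z
    have h1 : Z y z = ∑ A ∈ S, ⌊2 ^ b * rndH G (q y) A z⌋ := by simp [hZ, hy]
    rw [h1, rndH_sum n G (q y) (hqdeg y) z, Finset.mul_sum]
    push_cast
    exact Finset.sum_le_sum fun A _ => Int.floor_le _
  have hlo : ∀ y, y ≠ y0 → ∀ z, 2 ^ b * (q y).eval ((∑ g, z g) / (G : ℝ)) - 2 ^ G ≤ (Z y z : ℝ) := by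
    intro y hy z
    have h1 : Z y z = ∑ A ∈ S, ⌊2 ^ b * rndH G (q y) A z⌋ := by simp [hZ, hy]
    rw [h1, rndH_sum n G (q y) (hqdeg y) z, Finset.mul_sum]
    push_cast
    have h2 : ∑ A ∈ S, (2 ^ b * rndH G (q y) A z - 1) ≤ ∑ A ∈ S, ((⌊2 ^ b * rndH G (q y) A z⌋ : ℤ) : ℝ) :=
      Finset.sum_le_sum fun A _ => (Int.sub_one_lt_floor _).le
    rw [Finset.sum_sub_distrib] at h2
    simp only [Finset.sum_const, nsmul_eq_mul, mul_one] at h2
    linarith
  have hqpos : ∀ (y : Fin N) (z : Fin G → ℝ), (∀ g, |z g| ≤ 1) → δ / N ≤ (q y).eval ((∑ g, z g) / (G : ℝ)) := by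
    intro y z hz
    rw [hqeval]
    have := (hp _ (hu z hz)).1 y
    nlinarith
  have hqsum : ∀ z : Fin G → ℝ, (∀ g, |z g| ≤ 1) → ∑ y, (q y).eval ((∑ g, z g) / (G : ℝ)) = 1 := by
    intro z hz
    simp only [hqeval]
    rw [Finset.sum_add_distrib, ← Finset.mul_sum, (hp _ (hu z hz)).2.1]
    simp
    field_simp
    ring
  have hnn : ∀ (y : Fin N) (z : Fin G → ℝ), (∀ g, |z g| ≤ 1) → 0 ≤ Z y z := by
    intro y z hz
    by_cases hy : y = y0
    · subst hy
      rw [hZ0 z]
      have h1 : (∑ y' ∈ Finset.univ.erase y0, Z y' z : ℤ) ≤ 2 ^ b := by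
        have h2 : ((∑ y' ∈ Finset.univ.erase y0, Z y' z : ℤ) : ℝ) ≤ 2 ^ b := by
          push_cast
          calc ∑ y' ∈ Finset.univ.erase y0, (Z y' z : ℝ)
              ≤ ∑ y' ∈ Finset.univ.erase y0, 2 ^ b * (q y').eval ((∑ g, z g) / (G : ℝ)) :=
                Finset.sum_le_sum fun y' hy' => hup y' (Finset.ne_of_mem_erase hy') z
            _ ≤ ∑ y', 2 ^ b * (q y').eval ((∑ g, z g) / (G : ℝ)) := by
                refine Finset.sum_le_sum_of_subset_of_nonneg (Finset.subset_univ _) ?_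
                intro y' _ _
                have := hqpos y' z hz
                have h3 : (0:ℝ) ≤ δ / N := by positivity
                exact mul_nonneg hB0.le (h3.trans this)
            _ = 2 ^ b := by rw [← Finset.mul_sum, hqsum z hz, mul_one]
        exact_mod_cast h2
      linarith
    · have h1 := hlo y hy z
      have h2 := hqpos y z hz
      have h3 : (2:ℝ) ^ G ≤ 2 ^ b * (δ / N) := by
        rw [div_le_iff₀ hδ0] at hb1
        rw [← mul_div_assoc, le_div_iff₀ hNR]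
        exact hb1
      have h4 : (0:ℝ) ≤ Z y z := by
        have := mul_le_mul_of_nonneg_left h2 hB0.le
        linarith
      exact_mod_cast h4
  refine ⟨b, N, c, fun y z => (Z y z).toNat, by omega, hN, hc, ?_, ?_, ?_⟩
  · intro z hz
    have h1 : ((∑ y, (Z y z).toNat : ℕ) : ℤ) = 2 ^ b := by
      push_cast
      rw [← hZsum z]
      exact Finset.sum_congr rfl fun y _ => Int.toNat_of_nonneg (hnn y z hz)
    exact_mod_cast h1
  · intro z hz
    have hcast : ∀ y, (((Z y z).toNat : ℕ) : ℝ) = (Z y z : ℝ) := by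
      intro y
      have : (((Z y z).toNat : ℕ) : ℤ) = Z y z := Int.toNat_of_nonneg (hnn y z hz)
      exact_mod_cast this
    set u : ℝ := (∑ g, z g) / (G : ℝ) with hudef
    have hu1 : |u| ≤ 1 := hu z hz
    have hsq : ∀ y, (u - c y) ^ 2 ≤ 4 := by
      intro y
      have h1 := abs_le.1 hu1
      have h2 := abs_le.1 (hc y)
      nlinarith [h1.1, h1.2, h2.1, h2.2]
    have hsq0 : ∀ y, 0 ≤ (u - c y) ^ 2 := fun y => sq_nonneg _
    have hbound : ∀ y, (Z y z : ℝ) / 2 ^ b ≤ (q y).eval u + (if y = y0 then (N:ℝ) * 2 ^ G / 2 ^ b else (0:ℝ)) := by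
      intro y
      by_cases hy : y = y0
      · subst hy
        rw [if_pos rfl, hZ0 z, div_le_iff₀ hB0]
        push_cast
        have h1 : ∑ y' ∈ Finset.univ.erase y0, (2 ^ b * (q y').eval u - 2 ^ G) ≤
            ∑ y' ∈ Finset.univ.erase y0, (Z y' z : ℝ) :=
          Finset.sum_le_sum fun y' hy' => hlo y' (Finset.ne_of_mem_erase hy') z
        rw [Finset.sum_sub_distrib, ← Finset.mul_sum] at h1
        have h2 : ∑ y' ∈ Finset.univ.erase y0, (q y').eval u = 1 - (q y0).eval u := by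
          have := hqsum z hz
          rw [← Finset.add_sum_erase _ _ (Finset.mem_univ y0)] at this
          linarith
        rw [h2] at h1
        have h3 : ∑ _y' ∈ Finset.univ.erase y0, (2:ℝ) ^ G ≤ N * 2 ^ G := by
          rw [Finset.sum_const, nsmul_eq_mul]
          refine mul_le_mul_of_nonneg_right ?_ (by positivity)
          have : (Finset.univ.erase y0).card ≤ N := by
            refine (Finset.card_le_univ _).trans ?_
            simp
          exact_mod_cast this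
        have h4 : ((q y0).eval u + N * 2 ^ G / 2 ^ b) * 2 ^ b = 2 ^ b * (q y0).eval u + N * 2 ^ G := by
          field_simp
        rw [h4]
        linarith
      · rw [if_neg hy, add_zero, div_le_iff₀ hB0]
        have := hup y hy z
        linarith
    calc ∑ y, (((Z y z).toNat : ℕ) : ℝ) / 2 ^ b * (u - c y) ^ 2
        = ∑ y, ((Z y z : ℝ) / 2 ^ b) * (u - c y) ^ 2 := by
          refine Finset.sum_congr rfl fun y _ => ?_
          rw [hcast y]
      _ ≤ ∑ y, ((q y).eval u + (if y = y0 then (N:ℝ) * 2 ^ G / 2 ^ b else (0:ℝ))) * (u - c y) ^ 2 :=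
          Finset.sum_le_sum fun y _ => mul_le_mul_of_nonneg_right (hbound y) (hsq0 y)
      _ = (1 - δ) * ∑ y, (p y).eval u * (u - c y) ^ 2 + δ / N * ∑ y, (u - c y) ^ 2
            + N * 2 ^ G / 2 ^ b * (u - c y0) ^ 2 := by
          have h1 : ∀ y, ((q y).eval u + (if y = y0 then (N:ℝ) * 2 ^ G / 2 ^ b else (0:ℝ))) * (u - c y) ^ 2 =
              (1 - δ) * ((p y).eval u * (u - c y) ^ 2) + δ / N * (u - c y) ^ 2 +
                (if y = y0 then (N:ℝ) * 2 ^ G / 2 ^ b * (u - c y0) ^ 2 else (0:ℝ)) := by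
            intro y
            rw [hqeval]
            by_cases hy : y = y0
            · subst hy
              simp only [if_true]
              ring
            · simp only [if_neg hy]
              ring
          simp only [h1]
          rw [Finset.sum_add_distrib, Finset.sum_add_distrib, ← Finset.mul_sum, ← Finset.mul_sum]
          simp
      _ ≤ (1 - δ) * (10 / ((n : ℝ) + 1) ^ 2) + 4 * δ + ε / 2 := by
          have h1 := (hp u hu1).2.2
          have h2 : (1 - δ) * ∑ y, (p y).eval u * (u - c y) ^ 2 ≤ (1 - δ) * (10 / ((n : ℝ) + 1) ^ 2) :=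
            mul_le_mul_of_nonneg_left h1 (by linarith)
          have h3 : ∑ y, (u - c y) ^ 2 ≤ 4 * N := by
            calc ∑ y, (u - c y) ^ 2 ≤ ∑ _y : Fin N, (4:ℝ) := Finset.sum_le_sum fun y _ => hsq y
              _ = 4 * N := by simp [mul_comm]
          have h4 : δ / N * ∑ y, (u - c y) ^ 2 ≤ 4 * δ := by
            calc δ / N * ∑ y, (u - c y) ^ 2 ≤ δ / N * (4 * N) :=
                  mul_le_mul_of_nonneg_left h3 (by positivity)
              _ = 4 * δ := by field_simp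
          have h5 : (N:ℝ) * 2 ^ G / 2 ^ b ≤ ε / 8 := by
            rw [div_le_iff₀ hε] at hb2
            rw [div_le_iff₀ hB0]
            linarith
          have h6 : (N:ℝ) * 2 ^ G / 2 ^ b * (u - c y0) ^ 2 ≤ ε / 2 := by
            calc (N:ℝ) * 2 ^ G / 2 ^ b * (u - c y0) ^ 2 ≤ ε / 8 * 4 :=
                  mul_le_mul h5 (hsq y0) (hsq0 y0) (by positivity)
              _ = ε / 2 := by ring
          linarith
      _ ≤ 10 / ((n : ℝ) + 1) ^ 2 + ε := by
          have h1 : (0:ℝ) ≤ 10 / ((n : ℝ) + 1) ^ 2 := by positivity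
          nlinarith
  · intro y
    by_cases hy : y = y0
    · refine ⟨fun A z => (if A = ∅ then (2:ℝ) ^ b else 0) -
          ∑ y' ∈ Finset.univ.erase y0, ((⌊2 ^ b * rndH G (q y') A z⌋ : ℤ) : ℝ), ?_, ?_⟩
      · intro A z z' h
        simp only
        congr 1
        refine Finset.sum_congr rfl fun y' _ => ?_
        rw [rndH_congr G (q y') A z z' h]
      · intro z hz
        have hcast : (((Z y z).toNat : ℕ) : ℝ) = (Z y z : ℝ) := by
          have : (((Z y z).toNat : ℕ) : ℤ) = Z y z := Int.toNat_of_nonneg (hnn y z hz)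
          exact_mod_cast this
        simp only
        rw [hcast, hy]
        have h1 : Z y0 z = 2 ^ b - ∑ y' ∈ Finset.univ.erase y0, ∑ A ∈ S, ⌊2 ^ b * rndH G (q y') A z⌋ := by
          simp [hZ]
        rw [h1, Finset.sum_sub_distrib]
        push_cast
        congr 1
        · rw [Finset.sum_ite_eq' S ∅]
          rw [if_pos]
          rw [hS]
          simp
        · rw [Finset.sum_comm]
    · refine ⟨fun A z => ((⌊2 ^ b * rndH G (q y) A z⌋ : ℤ) : ℝ), ?_, ?_⟩
      · intro A z z' h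
        simp only
        rw [rndH_congr G (q y) A z z' h]
      · intro z hz
        have hcast : (((Z y z).toNat : ℕ) : ℝ) = (Z y z : ℝ) := by
          have : (((Z y z).toNat : ℕ) : ℤ) = Z y z := Int.toNat_of_nonneg (hnn y z hz)
          exact_mod_cast this
        simp only
        rw [hcast]
        have h1 : Z y z = ∑ A ∈ S, ⌊2 ^ b * rndH G (q y) A z⌋ := by simp [hZ, hy]
        rw [h1]
        push_cast
        rfl

end P047X
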