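import Vale.Agent.P047X.AsmCore
import Vale.Agent.P047X.Rnd
import Vale.Agent.P047X.Gauss

/-!
Module ASM: section 4 of the notes. Parameters: `ε`; `κ` from `gauss_clip`; `n`, `G = 2n` large (`κ² G · 10/(n+1)² ` small);
`ε'` for `rnd`; `b, N, c, Φ` from `rnd`; then `r → ∞`. The assembled scheme itself is `asm_core`.
-/

open scoped BigOperators
open Finset Filter Topology

namespace P047X

theorem assemble {ι Y : Type} [Fintype ι] [Fintype Y] (D : SScheme ι Y) (hW : 0 < D.W) (ε : ℝ) (hε : 0 < ε) :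
    ∃ (ι' Y' : Type) (_ : Fintype ι') (_ : Fintype Y') (S : Scheme ι' Y') (T : ℕ), 1 ≤ T ∧
      S.δ = 2 * T * D.Δ - T * D.δ ∧ (1 - ε) * (2 * T * D.W) ≤ S.V := by
  obtain ⟨κ, hκ, hI⟩ := gauss_clip (ε / 16) (by positivity)
  have hI' := lt_of_le_of_lt hI (show ε / 16 < ε / 8 by linarith)
  have hlim := clip_lim D hW κ hκ (ε / 8) hI'
  -- the degree parameter
  obtain ⟨n0, hn0⟩ := exists_nat_ge (160 * κ ^ 2 / ε)
  set n : ℕ := n0 + 1 with hn
  set G : ℕ := 2 * n with hG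
  have hn1 : 1 ≤ n := by omega
  have hG1 : 1 ≤ G := by omega
  have hnpos : (0 : ℝ) < n := by exact_mod_cast hn1
  have hGpos : (0 : ℝ) < G := by exact_mod_cast hG1
  have hGn : (G : ℝ) = 2 * n := by rw [hG]; push_cast; ring
  have hnk : 160 * κ ^ 2 ≤ ε * (n + 1) := by
    have h1 : (n0 : ℝ) ≤ n + 1 := by rw [hn]; push_cast; linarith
    have h2 := hn0.trans h1
    rw [div_le_iff₀ hε] at h2
    linarith
  have hmain : 2 * G * κ ^ 2 * (10 / ((n : ℝ) + 1) ^ 2) ≤ ε / 4 := by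
    rw [hGn, ← mul_div_assoc, div_le_iff₀ (by positivity)]
    have h3 : κ ^ 2 * n ≤ κ ^ 2 * (n + 1) := mul_le_mul_of_nonneg_left (by linarith) (sq_nonneg κ)
    have h4 : 160 * κ ^ 2 * (n + 1) ≤ ε * (n + 1) * (n + 1) := mul_le_mul_of_nonneg_right hnk (by positivity)
    nlinarith
  set ε' : ℝ := ε / (8 * G * κ ^ 2) with hε'
  have hε'pos : 0 < ε' := by positivity
  have hsmall : 2 * G * κ ^ 2 * ε' = ε / 4 := by
    rw [hε']
    have : κ ^ 2 ≠ 0 := by positivity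
    field_simp
    norm_num
  obtain ⟨b, N, c, Φ, hb, hN, hc, hΦ, hcost, hH⟩ := rnd n G hG1 ε' hε'pos
  -- the number of copies
  have hη : Tendsto (fun r : ℕ => 2 * (G : ℝ) * κ ^ 2 * (2 ^ b * 4 * D.η ^ r)) atTop (𝓝 0) := by
    have h1 := tendsto_pow_atTop_nhds_zero_of_lt_one D.hη0 D.hη1
    have h2 := (h1.const_mul (2 ^ b * 4 : ℝ)).const_mul (2 * (G : ℝ) * κ ^ 2)
    simpa using h2
  have hm : Tendsto (fun r : ℕ => 2 ^ b * r) atTop atTop := by
    refine tendsto_atTop_mono (fun r => ?_) tendsto_id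
    exact Nat.le_mul_of_pos_left r (by positivity)
  obtain ⟨r, hr1, hr2, hr3⟩ := ((hm.eventually hlim).and ((hη.eventually (gt_mem_nhds (show (0 : ℝ) < ε / 4 by positivity))).and
    (eventually_ge_atTop 1))).exists
  have hclip := hr1 ((Fin b → Bool) × Fin r) (by
    simp [Fintype.card_prod, Fintype.card_fin])
  obtain ⟨S, hS1, hS2⟩ := asm_core D hW G b r n N hG1 hb hr3 (le_of_eq hG.symm) hN c Φ hc hΦ _ hcost hH κ hκ (ε / 8) hclip
  set T : ℕ := G * 2 ^ (b - 1) * r with hT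
  have hT1 : 1 ≤ T := Nat.one_le_iff_ne_zero.2 (by positivity)
  refine ⟨_, _, inferInstance, inferInstance, S, T, hT1, hS1, le_trans ?_ hS2⟩
  have hTpos : (0 : ℝ) < T := by exact_mod_cast hT1
  have hrT : r ≤ T := by
    rw [hT]
    exact Nat.le_mul_of_pos_left r (by positivity)
  have hηT : D.η ^ T ≤ D.η ^ r := pow_le_pow_of_le_one D.hη0 D.hη1.le hrT
  have h5 : 2 * (G : ℝ) * κ ^ 2 * (2 ^ b * 4 * D.η ^ T) ≤ ε / 4 := by
    refine le_trans ?_ hr2.le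
    gcongr
  have h6 : 2 * (G : ℝ) * κ ^ 2 * (10 / ((n : ℝ) + 1) ^ 2 + ε' + 2 ^ b * 4 * D.η ^ T) ≤ 3 * (ε / 4) := by
    have : 2 * (G : ℝ) * κ ^ 2 * (10 / ((n : ℝ) + 1) ^ 2 + ε' + 2 ^ b * 4 * D.η ^ T) =
        2 * G * κ ^ 2 * (10 / ((n : ℝ) + 1) ^ 2) + 2 * G * κ ^ 2 * ε' + 2 * G * κ ^ 2 * (2 ^ b * 4 * D.η ^ T) := by
      ring
    rw [this]
    linarith
  calc (1 - ε) * (2 * T * D.W) = 2 * T * D.W * (1 - ε) := by ring
    _ ≤ _ := mul_le_mul_of_nonneg_left (by linarith) (by positivity)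

end P047X
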