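import Vale.Agent.P047X.Base

/-!
Module ASMALG (Facts A, B, C of section 4). Copies indexed by `BB G b r = Fin G × (Fin b → Bool) × Fin r`.
`ep x j = ∏_{β : β.2.1 j} E_β`. For `u ≠ ∅`: `∏_{j∈u} val (ep x j) = ∏_β (if ⟨u, β⟩ odd then val E_β else 1)` and exactly
`T = G 2^(b-1) r` copies `β` have `⟨u,β⟩ = #{j ∈ u | β.2.1 j}` odd.
Walsh expansion `h v e = ∑_u wc (h v) u ∏_{j∈u} val (e j)`, `wc (h v) ∅ = ex (h v)`.
A: expand `wc (h ·) u` in products of indicators of `σ_β`; B: `|ex (∏ ..)| ≤ max|F| ∏_{β odd} ∑_y |ex(ind(σ=y) E)|`; C: `cal`, `calE`.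
-/

open scoped BigOperators
open Finset

namespace P047X

noncomputable section

/-- index set of the copies -/
abbrev BB (G b r : ℕ) : Type := Fin G × (Fin b → Bool) × Fin r

variable {ι Y : Type} [Fintype ι] [Fintype Y] {G b r : ℕ}

/-- statistics of all copies -/
def sg (D : SScheme ι Y) (x : BB G b r × ι → ℤˣ) : BB G b r → Y := fun β => D.σ (sl x β)

/-- the `b` pseudo-random bits -/
def ep (D : SScheme ι Y) (x : BB G b r × ι → ℤˣ) : Fin b → ℤˣ :=
  fun j => ∏ β : BB G b r, if β.2.1 j then D.E (sl x β) else 1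

/-! ### signs -/

private theorem aa_val_mul (a b : ℤˣ) : val (a * b) = val a * val b := by
  simp [val]

private theorem aa_val_one : val 1 = 1 := by
  simp [val]

private theorem aa_val_prod {κ : Type*} (s : Finset κ) (f : κ → ℤˣ) :
    val (∏ k ∈ s, f k) = ∏ k ∈ s, val (f k) := by
  classical
  induction s using Finset.induction_on with
  | empty => simp [aa_val_one]
  | insert a s ha ih => rw [Finset.prod_insert ha, Finset.prod_insert ha, aa_val_mul, ih]

private theorem aa_val_sq (a : ℤˣ) : val a * val a = 1 := by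
  rw [← aa_val_mul, Int.units_mul_self, aa_val_one]

private theorem aa_abs_val (a : ℤˣ) : |val a| = 1 := by
  rcases Int.units_eq_one_or a with h | h <;> simp [val, h]

private theorem aa_val_pow (a : ℤˣ) (n : ℕ) : val a ^ n = if Odd n then val a else 1 := by
  by_cases h : Odd n
  · obtain ⟨k, rfl⟩ := h
    rw [if_pos ⟨k, rfl⟩, pow_succ, pow_mul, pow_two, aa_val_sq, one_pow, one_mul]
  · rw [if_neg h]
    rw [Nat.not_odd_iff_even] at h
    obtain ⟨k, rfl⟩ := h
    rw [← two_mul, pow_mul, pow_two, aa_val_sq, one_pow]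

/-! ### Walsh expansion on the bits -/

/-- character -/
private def aach (u : Finset (Fin b)) (e : Fin b → ℤˣ) : ℝ := ∏ j ∈ u, val (e j)

private theorem aach_abs (u : Finset (Fin b)) (e : Fin b → ℤˣ) : |aach u e| = 1 := by
  unfold aach
  rw [Finset.abs_prod]
  exact Finset.prod_eq_one (fun j _ => aa_abs_val _)

/-- Walsh coefficient -/
private def aawc (F : (Fin b → ℤˣ) → ℝ) (u : Finset (Fin b)) : ℝ := ex (fun e => F e * aach u e)

private theorem aawc_empty (F : (Fin b → ℤˣ) → ℝ) : aawc F ∅ = ex F := by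
  unfold aawc aach
  simp

private theorem aawc_abs (F : (Fin b → ℤˣ) → ℝ) (u : Finset (Fin b)) (C : ℝ) (hC : ∀ e, |F e| ≤ C) :
    |aawc F u| ≤ C := by
  refine abs_ex_le (fun e => ?_)
  rw [abs_mul, aach_abs, mul_one]
  exact hC e

private theorem aa_kernel (e e' : Fin b → ℤˣ) :
    ∑ u : Finset (Fin b), aach u e' * aach u e = if e' = e then (2 : ℝ) ^ b else 0 := by
  have h1 : ∑ u : Finset (Fin b), aach u e' * aach u e = ∏ j : Fin b, (1 + val (e' j) * val (e j)) := by
    rw [Finset.prod_one_add, Finset.powerset_univ]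
    refine Finset.sum_congr rfl (fun u _ => ?_)
    unfold aach
    rw [Finset.prod_mul_distrib]
  rw [h1]
  by_cases h : e' = e
  · subst h
    rw [if_pos rfl]
    have : ∀ j : Fin b, 1 + val (e' j) * val (e' j) = 2 := fun j => by
      rw [aa_val_sq]
      norm_num
    rw [Finset.prod_congr rfl (fun j _ => this j), Finset.prod_const, Finset.card_univ, Fintype.card_fin]
  · rw [if_neg h]
    obtain ⟨j, hj⟩ := Function.ne_iff.mp h
    refine Finset.prod_eq_zero (Finset.mem_univ j) ?_
    rcases Int.units_eq_one_or (e' j) with h1 | h1 <;> rcases Int.units_eq_one_or (e j) with h2 | h2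
    · exact absurd (h1.trans h2.symm) hj
    · rw [h1, h2]
      simp [val]
    · rw [h1, h2]
      simp [val]
    · exact absurd (h1.trans h2.symm) hj

private theorem aa_card_signs : Fintype.card (Fin b → ℤˣ) = 2 ^ b := by
  rw [Fintype.card_fun, Fintype.card_fin]
  rfl

private theorem aa_walsh (F : (Fin b → ℤˣ) → ℝ) (e : Fin b → ℤˣ) :
    F e = ∑ u : Finset (Fin b), aawc F u * aach u e := by
  have h1 : ∑ u : Finset (Fin b), aawc F u * aach u e =
      (∑ e' : Fin b → ℤˣ, F e' * ∑ u : Finset (Fin b), aach u e' * aach u e) / (2 : ℝ) ^ b := by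
    unfold aawc
    simp only [ex_eq, aa_card_signs]
    rw [Finset.sum_div]
    simp only [Finset.mul_sum, Finset.sum_div, Finset.sum_mul]
    rw [Finset.sum_comm]
    refine Finset.sum_congr rfl (fun e' _ => Finset.sum_congr rfl (fun u _ => ?_))
    push_cast
    ring
  rw [h1]
  simp only [aa_kernel, mul_ite, mul_zero, Finset.sum_ite_eq', Finset.mem_univ, if_true]
  have : (2 : ℝ) ^ b ≠ 0 := by positivity
  field_simp

/-! ### the parity set -/

/-- the copies entering the character `u` -/
private abbrev aaod (u : Finset (Fin b)) (v : Fin b → Bool) : Prop := Odd (u.filter (fun j => v j = true)).card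

private theorem aa_ch (D : SScheme ι Y) (u : Finset (Fin b)) (x : BB G b r × ι → ℤˣ) :
    aach u (ep D x) = ∏ β : BB G b r, if aaod u β.2.1 then val (D.E (sl x β)) else 1 := by
  unfold aach ep
  have h1 : ∀ j : Fin b, val (∏ β : BB G b r, if β.2.1 j then D.E (sl x β) else 1) =
      ∏ β : BB G b r, if β.2.1 j = true then val (D.E (sl x β)) else 1 := by
    intro j
    rw [aa_val_prod]
    refine Finset.prod_congr rfl (fun β _ => ?_)
    by_cases hj : β.2.1 j = true
    · rw [if_pos hj, if_pos hj]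
    · rw [if_neg hj, if_neg hj, aa_val_one]
  simp only [h1]
  rw [Finset.prod_comm]
  refine Finset.prod_congr rfl (fun β _ => ?_)
  rw [Finset.prod_ite, Finset.prod_const_one, mul_one, Finset.prod_const, aa_val_pow]

private theorem aa_flip (u : Finset (Fin b)) (j : Fin b) (hj : j ∈ u) (v : Fin b → Bool) :
    aaod u (Function.update v j (!v j)) ↔ ¬ aaod u v := by
  unfold aaod
  have hs : ∀ w : Fin b → Bool, (u.filter (fun i => w i = true)).card =
      ((u.erase j).filter (fun i => w i = true)).card + (if w j = true then 1 else 0) := by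
    intro w
    conv_lhs => rw [← Finset.insert_erase hj]
    rw [Finset.filter_insert]
    by_cases hw : w j = true
    · rw [if_pos hw, if_pos hw, Finset.card_insert_of_notMem (by simp)]
    · rw [if_neg hw, if_neg hw, add_zero]
  have he : ((u.erase j).filter (fun i => Function.update v j (!v j) i = true)) =
      ((u.erase j).filter (fun i => v i = true)) := by
    refine Finset.filter_congr (fun i hi => ?_)
    have hij : i ≠ j := Finset.ne_of_mem_erase hi
    rw [Function.update_of_ne hij]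
  rw [hs (Function.update v j (!v j)), hs v, he, Function.update_self]
  by_cases hv : v j = true
  · simp [hv, Nat.odd_add_one]
  · simp [hv, Nat.odd_add_one]

private theorem aa_count (u : Finset (Fin b)) (hu : u.Nonempty) :
    (Finset.univ.filter (fun v : Fin b → Bool => aaod u v)).card = 2 ^ (b - 1) ∧ 1 ≤ b := by
  obtain ⟨j, hj⟩ := hu
  have hb : 1 ≤ b := by
    have := j.2
    omega
  refine ⟨?_, hb⟩
  have h1 : (Finset.univ.filter (fun v : Fin b → Bool => aaod u v)).card =
      (Finset.univ.filter (fun v : Fin b → Bool => ¬ aaod u v)).card := by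
    refine Finset.card_bij' (fun v _ => Function.update v j (!v j)) (fun v _ => Function.update v j (!v j)) ?_ ?_ ?_ ?_
    · intro v hv
      rw [Finset.mem_filter] at hv ⊢
      refine ⟨Finset.mem_univ _, ?_⟩
      rw [aa_flip u j hj, not_not]
      exact hv.2
    · intro v hv
      rw [Finset.mem_filter] at hv ⊢
      refine ⟨Finset.mem_univ _, ?_⟩
      rw [aa_flip u j hj]
      exact hv.2
    · intro v _
      simp
    · intro v _
      simp
  have h2 := Finset.card_filter_add_card_filter_not (s := (Finset.univ : Finset (Fin b → Bool))) (fun v => aaod u v)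
  rw [Finset.card_univ, Fintype.card_fun, Fintype.card_fin, Fintype.card_bool] at h2
  have h3 : 2 ^ b = 2 * 2 ^ (b - 1) := by
    conv_lhs => rw [← Nat.sub_add_cancel hb, pow_succ]
    ring
  omega

private theorem aa_countB (u : Finset (Fin b)) (hu : u.Nonempty) :
    (Finset.univ.filter (fun β : BB G b r => aaod u β.2.1)).card = G * 2 ^ (b - 1) * r := by
  have h1 : (Finset.univ.filter (fun β : BB G b r => aaod u β.2.1)) =
      (Finset.univ : Finset (Fin G)) ×ˢ ((Finset.univ.filter (fun v : Fin b → Bool => aaod u v)) ×ˢ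
        (Finset.univ : Finset (Fin r))) := by
    ext β
    simp
  rw [h1, Finset.card_product, Finset.card_product, (aa_count u hu).1, Finset.card_univ, Fintype.card_fin,
    Finset.card_univ, Fintype.card_fin]
  ring

private theorem aa_cardB (hb : 1 ≤ b) : Fintype.card (BB G b r) = 2 * (G * 2 ^ (b - 1) * r) := by
  rw [Fintype.card_prod, Fintype.card_prod, Fintype.card_fun, Fintype.card_fin, Fintype.card_fin, Fintype.card_fin,
    Fintype.card_bool]
  have h3 : 2 ^ b = 2 * 2 ^ (b - 1) := by
    conv_lhs => rw [← Nat.sub_add_cancel hb, pow_succ]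
    ring
  rw [h3]
  ring

private theorem aa_countB' (hb : 1 ≤ b) (u : Finset (Fin b)) (hu : u.Nonempty) :
    (Finset.univ.filter (fun β : BB G b r => ¬ aaod u β.2.1)).card = G * 2 ^ (b - 1) * r := by
  have h2 := Finset.card_filter_add_card_filter_not (s := (Finset.univ : Finset (BB G b r))) (fun β => aaod u β.2.1)
  rw [Finset.card_univ, aa_cardB hb, aa_countB u hu] at h2
  omega

/-! ### the factor of one copy -/

private def aafac (D : SScheme ι Y) (u : Finset (Fin b)) (w : BB G b r → Y) (β : BB G b r) (y : ι → ℤˣ) : ℝ :=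
  ind (D.σ y = w β) * (if aaod u β.2.1 then val (D.E y) else 1)

/-- complete expansion of the `u`-part -/
private theorem aa_part (D : SScheme ι Y) (u : Finset (Fin b)) (F : (BB G b r → Y) → ℝ) (x : BB G b r × ι → ℤˣ) :
    F (sg D x) * aach u (ep D x) = ∑ w : BB G b r → Y, F w * ∏ β, aafac D u w β (sl x β) := by
  rw [expand_ind F (sg D x), aa_ch, Finset.sum_mul]
  refine Finset.sum_congr rfl (fun w _ => ?_)
  rw [mul_assoc, ← Finset.prod_mul_distrib]
  rfl

private theorem aafac_deg (D : SScheme ι Y) (u : Finset (Fin b)) (w : BB G b r → Y) (β : BB G b r) :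
    Deg (if aaod u β.2.1 then D.Δ - D.δ else D.Δ) (aafac D u w β) := by
  unfold aafac
  by_cases h : aaod u β.2.1
  · simp only [if_pos h]
    exact D.degE (fun y => ind (y = w β))
  · simp only [if_neg h, mul_one]
    exact D.degc (fun y => ind (y = w β))

private theorem aa_split (D : SScheme ι Y) (h : (BB G b r → Y) → (Fin b → ℤˣ) → ℝ) (x : BB G b r × ι → ℤˣ) :
    h (sg D x) (ep D x) = ∑ u : Finset (Fin b), (fun v => aawc (h v) u) (sg D x) * aach u (ep D x) :=
  aa_walsh (h (sg D x)) (ep D x)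

private theorem aa_split' (D : SScheme ι Y) (h : (BB G b r → Y) → (Fin b → ℤˣ) → ℝ) (x : BB G b r × ι → ℤˣ) :
    h (sg D x) (ep D x) = ex (fun e => h (sg D x) e) +
      ∑ u ∈ (Finset.univ : Finset (Finset (Fin b))).erase ∅, (fun v => aawc (h v) u) (sg D x) * aach u (ep D x) := by
  rw [aa_split D h x, ← Finset.add_sum_erase _ _ (Finset.mem_univ (∅ : Finset (Fin b)))]
  congr 1
  simp only [aawc_empty]
  unfold aach
  rw [Finset.prod_empty, mul_one]

theorem asm_deg (D : SScheme ι Y) (hb : 1 ≤ b) (h : (BB G b r → Y) → (Fin b → ℤˣ) → ℝ)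
    (havg : Deg (2 * (G * 2 ^ (b - 1) * r) * D.Δ - (G * 2 ^ (b - 1) * r) * D.δ)
      (fun x : BB G b r × ι → ℤˣ => ex (fun e => h (sg D x) e))) :
    Deg (2 * (G * 2 ^ (b - 1) * r) * D.Δ - (G * 2 ^ (b - 1) * r) * D.δ)
      (fun x : BB G b r × ι → ℤˣ => h (sg D x) (ep D x)) := by
  have h0 : (fun x : BB G b r × ι → ℤˣ => h (sg D x) (ep D x)) = fun x => ex (fun e => h (sg D x) e) +
      ∑ u ∈ (Finset.univ : Finset (Finset (Fin b))).erase ∅, (fun v => aawc (h v) u) (sg D x) * aach u (ep D x) := by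
    funext x
    exact aa_split' D h x
  rw [h0]
  refine Deg.add havg (Deg.sum _ (fun u hu => ?_))
  have hun : u.Nonempty := Finset.nonempty_iff_ne_empty.mpr (Finset.ne_of_mem_erase hu)
  have h1 : (fun x : BB G b r × ι → ℤˣ => (fun v => aawc (h v) u) (sg D x) * aach u (ep D x)) =
      fun x => ∑ w : BB G b r → Y, (fun v => aawc (h v) u) w * ∏ β, aafac D u w β (sl x β) := by
    funext x
    exact aa_part D u (fun v => aawc (h v) u) x
  rw [h1]
  refine Deg.sum _ (fun w _ => Deg.smul _ ?_)
  refine Deg.mono ?_ (Deg.prod_sl (fun β => aafac_deg D u w β))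
  rw [Finset.sum_ite, Finset.sum_const, Finset.sum_const, aa_countB u hun, aa_countB' hb u hun, smul_eq_mul,
    smul_eq_mul]
  obtain ⟨k, hk⟩ := Nat.exists_eq_add_of_le D.hδ
  rw [hk]
  have e1 : D.δ + k - D.δ = k := by omega
  rw [e1]
  set T := G * 2 ^ (b - 1) * r
  have e2 : 2 * T * (D.δ + k) = (T * k + T * (D.δ + k)) + T * D.δ := by ring
  rw [e2, Nat.add_sub_cancel]

private theorem aafac_sum (D : SScheme ι Y) (u : Finset (Fin b)) (β : BB G b r) :
    ∑ y : Y, |ex (fun z => ind (D.σ z = y) * (if aaod u β.2.1 then val (D.E z) else 1))| ≤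
      if aaod u β.2.1 then D.η else 1 := by
  by_cases h : aaod u β.2.1
  · simp only [if_pos h]
    exact D.bal
  · simp only [if_neg h]
    have h1 : ∀ y : Y, |ex (fun z => ind (D.σ z = y) * (1 : ℝ))| = ex (fun z => ind (D.σ z = y) * (1 : ℝ)) := by
      intro y
      refine abs_of_nonneg (ex_nonneg (fun z => ?_))
      unfold ind
      split_ifs <;> norm_num
    rw [Finset.sum_congr rfl (fun y _ => h1 y), ← ex_fiber D.σ (fun _ => (1 : ℝ)), ex_const]

private theorem aa_part_ex (D : SScheme ι Y) (u : Finset (Fin b)) (hu : u.Nonempty)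
    (F : (BB G b r → Y) → ℝ) (C : ℝ) (hC0 : 0 ≤ C) (hC : ∀ v, |F v| ≤ C) :
    |ex (fun x : BB G b r × ι → ℤˣ => F (sg D x) * aach u (ep D x))| ≤ C * D.η ^ (G * 2 ^ (b - 1) * r) := by
  have h1 : ex (fun x : BB G b r × ι → ℤˣ => F (sg D x) * aach u (ep D x)) =
      ∑ w : BB G b r → Y, F w * ∏ β, ex (aafac D u w β) := by
    rw [show (fun x : BB G b r × ι → ℤˣ => F (sg D x) * aach u (ep D x)) =
      fun x => ∑ w : BB G b r → Y, F w * ∏ β, aafac D u w β (sl x β) from funext (fun x => aa_part D u F x)]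
    rw [ex_sum]
    refine Finset.sum_congr rfl (fun w _ => ?_)
    rw [ex_mul_left, ex_prod_sl]
  rw [h1]
  calc |∑ w : BB G b r → Y, F w * ∏ β, ex (aafac D u w β)|
      ≤ ∑ w : BB G b r → Y, |F w * ∏ β, ex (aafac D u w β)| := Finset.abs_sum_le_sum_abs _ _
    _ ≤ ∑ w : BB G b r → Y, C * ∏ β, |ex (fun z => ind (D.σ z = w β) * (if aaod u β.2.1 then val (D.E z) else 1))| := by
        refine Finset.sum_le_sum (fun w _ => ?_)
        rw [abs_mul, Finset.abs_prod]
        exact mul_le_mul_of_nonneg_right (hC w) (Finset.prod_nonneg (fun _ _ => abs_nonneg _))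
    _ = C * ∏ β : BB G b r, ∑ y : Y, |ex (fun z => ind (D.σ z = y) * (if aaod u β.2.1 then val (D.E z) else 1))| := by
        rw [← Finset.mul_sum, Finset.prod_univ_sum, Fintype.piFinset_univ]
    _ ≤ C * ∏ β : BB G b r, (if aaod u β.2.1 then D.η else 1) := by
        refine mul_le_mul_of_nonneg_left ?_ hC0
        refine Finset.prod_le_prod (fun β _ => Finset.sum_nonneg (fun _ _ => abs_nonneg _)) (fun β _ => aafac_sum D u β)
    _ = C * D.η ^ (G * 2 ^ (b - 1) * r) := by
        rw [Finset.prod_ite, Finset.prod_const_one, mul_one, Finset.prod_const, aa_countB u hu]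

theorem asm_ex (D : SScheme ι Y) (_hb : 1 ≤ b) (h : (BB G b r → Y) → (Fin b → ℤˣ) → ℝ) (C : ℝ)
    (hC : ∀ v e, |h v e| ≤ C) :
    |ex (fun x : BB G b r × ι → ℤˣ => h (sg D x) (ep D x)) -
      ex (fun x : BB G b r × ι → ℤˣ => ex (fun e => h (sg D x) e))| ≤
      2 ^ b * C * D.η ^ (G * 2 ^ (b - 1) * r) := by
  have hC0 : 0 ≤ C := (abs_nonneg _).trans (hC (sg D (fun _ => 1)) (fun _ => 1))
  have h0 : (fun x : BB G b r × ι → ℤˣ => h (sg D x) (ep D x)) = fun x => ex (fun e => h (sg D x) e) +
      ∑ u ∈ (Finset.univ : Finset (Finset (Fin b))).erase ∅, (fun v => aawc (h v) u) (sg D x) * aach u (ep D x) := by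
    funext x
    exact aa_split' D h x
  rw [h0, ex_add, add_sub_cancel_left, ex_sum]
  calc |∑ u ∈ (Finset.univ : Finset (Finset (Fin b))).erase ∅,
        ex (fun x : BB G b r × ι → ℤˣ => (fun v => aawc (h v) u) (sg D x) * aach u (ep D x))|
      ≤ ∑ u ∈ (Finset.univ : Finset (Finset (Fin b))).erase ∅,
        |ex (fun x : BB G b r × ι → ℤˣ => (fun v => aawc (h v) u) (sg D x) * aach u (ep D x))| :=
        Finset.abs_sum_le_sum_abs _ _
    _ ≤ ∑ u ∈ (Finset.univ : Finset (Finset (Fin b))).erase ∅, C * D.η ^ (G * 2 ^ (b - 1) * r) := by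
        refine Finset.sum_le_sum (fun u hu => ?_)
        exact aa_part_ex D u (Finset.nonempty_iff_ne_empty.mpr (Finset.ne_of_mem_erase hu))
          (fun v => aawc (h v) u) C hC0 (fun v => aawc_abs _ _ _ (hC v))
    _ ≤ ∑ u : Finset (Fin b), C * D.η ^ (G * 2 ^ (b - 1) * r) := by
        refine Finset.sum_le_sum_of_subset_of_nonneg (Finset.erase_subset _ _) (fun _ _ _ => ?_)
        exact mul_nonneg hC0 (pow_nonneg D.hη0 _)
    _ = 2 ^ b * C * D.η ^ (G * 2 ^ (b - 1) * r) := by
        rw [Finset.sum_const, Finset.card_univ, Fintype.card_finset, Fintype.card_fin, nsmul_eq_mul]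
        push_cast
        ring

theorem asm_cal (D : SScheme ι Y) (h : (BB G b r → Y) → (Fin b → ℤˣ) → ℝ) :
    ex (fun x : BB G b r × ι → ℤˣ => (sm x - ∑ β, D.R (sg D x β)) * h (sg D x) (ep D x)) = 0 := by
  have h0 : (fun x : BB G b r × ι → ℤˣ => (sm x - ∑ β, D.R (sg D x β)) * h (sg D x) (ep D x)) =
      fun x => ∑ β : BB G b r, ∑ u : Finset (Fin b), ∑ w : BB G b r → Y, aawc (h w) u *
        ∏ γ, (if γ = β then (sm (sl x γ) - D.R (D.σ (sl x γ))) * aafac D u w γ (sl x γ) else aafac D u w γ (sl x γ)) := by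
    funext x
    have e1 : sm x - ∑ β, D.R (sg D x β) = ∑ β : BB G b r, (sm (sl x β) - D.R (D.σ (sl x β))) := by
      rw [Finset.sum_sub_distrib, sm_sl]
      rfl
    rw [e1, Finset.sum_mul]
    refine Finset.sum_congr rfl (fun β _ => ?_)
    rw [aa_split D h x, Finset.mul_sum]
    refine Finset.sum_congr rfl (fun u _ => ?_)
    rw [aa_part D u (fun v => aawc (h v) u) x, Finset.mul_sum]
    refine Finset.sum_congr rfl (fun w _ => ?_)
    have e2 : ∏ γ, (if γ = β then (sm (sl x γ) - D.R (D.σ (sl x γ))) * aafac D u w γ (sl x γ)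
        else aafac D u w γ (sl x γ)) = (sm (sl x β) - D.R (D.σ (sl x β))) * ∏ γ, aafac D u w γ (sl x γ) := by
      rw [← Finset.mul_prod_erase _ _ (Finset.mem_univ β), ← Finset.mul_prod_erase Finset.univ
        (fun γ => aafac D u w γ (sl x γ)) (Finset.mem_univ β), if_pos rfl, mul_assoc]
      congr 2
      refine Finset.prod_congr rfl (fun γ hγ => ?_)
      rw [if_neg (Finset.ne_of_mem_erase hγ)]
    rw [e2]
    ring
  rw [h0, ex_sum]
  refine Finset.sum_eq_zero (fun β _ => ?_)
  rw [ex_sum]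
  refine Finset.sum_eq_zero (fun u _ => ?_)
  rw [ex_sum]
  refine Finset.sum_eq_zero (fun w _ => ?_)
  rw [ex_mul_left]
  have h2 := ex_prod_sl (fun (γ : BB G b r) (y : ι → ℤˣ) =>
    if γ = β then (sm y - D.R (D.σ y)) * aafac D u w γ y else aafac D u w γ y)
  rw [h2]
  have h3 : ex (fun y : ι → ℤˣ => if β = β then (sm y - D.R (D.σ y)) * aafac D u w β y else aafac D u w β y) = 0 := by
    simp only [if_true]
    unfold aafac
    by_cases h : aaod u β.2.1
    · simp only [if_pos h]
      exact D.calE (fun y => ind (y = w β))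
    · simp only [if_neg h, mul_one]
      exact D.cal (fun y => ind (y = w β))
  rw [Finset.prod_eq_zero (Finset.mem_univ β) h3, mul_zero]

/-- functions of the statistics of the copies in a set `A` of groups -/
theorem deg_groups (D : SScheme ι Y) (A : Finset (Fin G)) (F : (BB G b r → Y) → ℝ)
    (hF : ∀ v v' : BB G b r → Y, (∀ β : BB G b r, β.1 ∈ A → v β = v' β) → F v = F v') :
    Deg (A.card * (2 ^ b * r) * D.Δ) (fun x : BB G b r × ι → ℤˣ => F (sg D x)) := by
  have y0 : Y := D.σ (fun _ => 1)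
  have h0 : (fun x : BB G b r × ι → ℤˣ => F (sg D x)) = fun x => ∑ w : BB G b r → Y, F w *
      ∏ β : BB G b r, (fun y : ι → ℤˣ => if β.1 ∈ A then ind (D.σ y = w β) else ind (y0 = w β)) (sl x β) := by
    funext x
    have e1 : F (sg D x) = F (fun β => if β.1 ∈ A then sg D x β else y0) := by
      refine hF _ _ (fun β hβ => ?_)
      show sg D x β = if β.1 ∈ A then sg D x β else y0
      rw [if_pos hβ]
    rw [e1, expand_ind F]
    refine Finset.sum_congr rfl (fun w _ => ?_)
    congr 1
    refine Finset.prod_congr rfl (fun β _ => ?_)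
    by_cases hβ : β.1 ∈ A
    · simp only [if_pos hβ]
      rfl
    · simp only [if_neg hβ]
  rw [h0]
  refine Deg.sum _ (fun w _ => Deg.smul _ ?_)
  have h1 : ∀ β : BB G b r, Deg (if β.1 ∈ A then D.Δ else 0)
      (fun y : ι → ℤˣ => if β.1 ∈ A then ind (D.σ y = w β) else ind (y0 = w β)) := by
    intro β
    by_cases hβ : β.1 ∈ A
    · simp only [if_pos hβ]
      exact D.degc (fun y => ind (y = w β))
    · simp only [if_neg hβ]
      exact Deg.const _ _
  refine Deg.mono ?_ (Deg.prod_sl h1)
  rw [Finset.sum_ite, Finset.sum_const, Finset.sum_const_zero, add_zero, smul_eq_mul]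
  refine le_of_eq ?_
  congr 1
  have h2 : (Finset.univ.filter (fun β : BB G b r => β.1 ∈ A)) =
      A ×ˢ ((Finset.univ : Finset (Fin b → Bool)) ×ˢ (Finset.univ : Finset (Fin r))) := by
    ext β
    simp
  rw [h2, Finset.card_product, Finset.card_product, Finset.card_univ, Finset.card_univ, Fintype.card_fun,
    Fintype.card_fin, Fintype.card_fin, Fintype.card_bool]

end

end P047X
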