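import Vale.Agent.P047X.Base

/-!
Module ASMSEL: selection of the output symbol by the pseudo-random bits with prescribed fibre sizes.
-/

open scoped BigOperators
open Finset

namespace P047X

theorem sel (b N : ℕ) (Φ : Fin N → ℕ) (h : ∑ y, Φ y = 2 ^ b) :
    ∃ Yz : (Fin b → ℤˣ) → Fin N, ∀ F : Fin N → ℝ,
      ex (fun e => F (Yz e)) = ∑ y, ((Φ y : ℝ) / 2 ^ b) * F y := by
  classical
  have hcard : Fintype.card (Fin b → ℤˣ) = Fintype.card (Σ y : Fin N, Fin (Φ y)) := by
    rw [Fintype.card_sigma]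
    simp only [Fintype.card_fin]
    rw [h, Fintype.card_fun, Fintype.card_fin]
    rfl
  let e := Fintype.equivOfCardEq hcard
  refine ⟨fun u => (e u).1, fun F => ?_⟩
  rw [ex_eq, Equiv.sum_comp e (fun s => F s.1), Fintype.sum_sigma]
  simp only [Finset.sum_const, Finset.card_univ, Fintype.card_fin]
  rw [show Fintype.card (Fin b → ℤˣ) = 2 ^ b by rw [Fintype.card_fun, Fintype.card_fin]; rfl]
  rw [Finset.sum_div]
  refine Finset.sum_congr rfl fun y _ => ?_
  push_cast
  rw [nsmul_eq_mul]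
  ring

end P047X
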