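import Vale.Agent.P047X.Clt

/-!
Module ASMVAR: variance of the clipping error of a group sum.
-/

open scoped BigOperators
open Finset Filter MeasureTheory ProbabilityTheory Topology

namespace P047X

/-- clipping to `[-1,1]` -/
noncomputable def clp (z : ℝ) : ℝ := max (-1) (min 1 z)

theorem abs_clp_le (z : ℝ) : |clp z| ≤ 1 := by
  unfold clp
  rw [abs_le]
  constructor
  · exact le_max_left _ _
  · exact max_le (by norm_num) (min_le_left _ _)

theorem clp_err_sq (κ : ℝ) (hκ : 0 < κ) (z : ℝ) : (z - κ * clp (z / κ)) ^ 2 ≤ z ^ 2 := by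
  unfold clp
  rcases le_total (z / κ) (-1) with h | h
  · have h1 : z ≤ -κ := by
      rw [div_le_iff₀ hκ] at h; linarith
    rw [min_eq_right (by linarith), max_eq_left h]
    nlinarith
  · rcases le_total (z / κ) 1 with h' | h'
    · rw [min_eq_right h', max_eq_right h, mul_div_cancel₀ _ hκ.ne']
      simp [sq_nonneg]
    · have h1 : κ ≤ z := by
        rw [le_div_iff₀ hκ] at h'; linarith
      rw [min_eq_left h', max_eq_right (by norm_num)]
      nlinarith

variable {ι Y : Type} [Fintype ι] [Fintype Y]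

theorem ss_mean (D : SScheme ι Y) : ex (fun x => D.R (D.σ x)) = 0 := by
  have h1 := D.cal (fun _ => 1)
  simp only [mul_one] at h1
  rw [ex_sub, ex_sm] at h1
  linarith

theorem clip_lim (D : SScheme ι Y) (hW : 0 < D.W) (κ : ℝ) (hκ : 0 < κ) (ε1 : ℝ)
    (hI : ∫ z, (z - κ * max (-1) (min 1 (z / κ))) ^ 2 ∂(gaussianReal 0 1) < ε1) :
    ∀ᶠ m : ℕ in atTop, ∀ (Q : Type) [Fintype Q], Fintype.card Q = m →
      ex (fun y : Q → (ι → ℤˣ) => ((∑ q, D.R (D.σ (y q))) -
        (κ * Real.sqrt (m * D.W)) * clp ((∑ q, D.R (D.σ (y q))) / (κ * Real.sqrt (m * D.W)))) ^ 2) ≤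
        ε1 * (m * D.W) := by
  classical
  set X : (ι → ℤˣ) → ℝ := fun ω => D.R (D.σ ω) / Real.sqrt D.W with hX
  have hs : 0 < Real.sqrt D.W := Real.sqrt_pos.2 hW
  have hX1 : ex X = 0 := by
    rw [hX]
    simp only [div_eq_mul_inv]
    rw [ex_mul_right, ss_mean, zero_mul]
  have hX2 : ex (fun ω => (X ω) ^ 2) = 1 := by
    have : (fun ω => (X ω) ^ 2) = fun ω => (D.R (D.σ ω)) ^ 2 * (D.W)⁻¹ := by
      funext ω
      rw [hX]
      simp only
      rw [div_pow, Real.sq_sqrt hW.le, div_eq_mul_inv]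
    rw [this, ex_mul_right]
    exact mul_inv_cancel₀ hW.ne'
  have hcont : Continuous (fun z : ℝ => (z - κ * clp (z / κ)) ^ 2) := by
    unfold clp
    fun_prop
  have hclt := clt X hX1 hX2 (fun z => (z - κ * clp (z / κ)) ^ 2) hcont 1 (by
    intro z
    rw [abs_of_nonneg (sq_nonneg _)]
    have := clp_err_sq κ hκ z
    linarith)
  have hI' : ∫ z, (z - κ * clp (z / κ)) ^ 2 ∂(gaussianReal 0 1) < ε1 := hI
  filter_upwards [hclt.eventually (gt_mem_nhds hI'), eventually_ge_atTop 1] with m hm hm1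
  intro Q _ hQ
  have hmpos : (0 : ℝ) < m := by exact_mod_cast hm1
  have hsm : 0 < Real.sqrt m := Real.sqrt_pos.2 hmpos
  -- transport to `Fin m`
  let e : Fin m ≃ Q := (Fintype.equivFinOfCardEq hQ).symm
  let E : (Q → (ι → ℤˣ)) ≃ (Fin m → (ι → ℤˣ)) := e.symm.arrowCongr (Equiv.refl _)
  have hE : ∀ y j, E y j = y (e j) := fun y j => rfl
  have hsum : ∀ y : Q → (ι → ℤˣ), ∑ q, D.R (D.σ (y q)) = Real.sqrt (m * D.W) * zn X m (E y) := by
    intro y
    unfold zn
    have h1 : ∑ j, X (E y j) = (∑ q, D.R (D.σ (y q))) / Real.sqrt D.W := by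
      rw [Finset.sum_div, ← Equiv.sum_comp e]
      refine Finset.sum_congr rfl fun j _ => ?_
      rw [hE]
    rw [h1, Real.sqrt_mul hmpos.le]
    field_simp
  have hκm : κ * Real.sqrt (m * D.W) ≠ 0 := by
    have : 0 < Real.sqrt (m * D.W) := Real.sqrt_pos.2 (by positivity)
    positivity
  have hsq : 0 < Real.sqrt (m * D.W) := Real.sqrt_pos.2 (by positivity)
  have hfun : (fun y : Q → (ι → ℤˣ) => ((∑ q, D.R (D.σ (y q))) -
        (κ * Real.sqrt (m * D.W)) * clp ((∑ q, D.R (D.σ (y q))) / (κ * Real.sqrt (m * D.W)))) ^ 2) =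
      fun y => (m * D.W) * (fun u : Fin m → (ι → ℤˣ) => (zn X m u - κ * clp (zn X m u / κ)) ^ 2) (E y) := by
    funext y
    rw [hsum y]
    have h2 : Real.sqrt (m * D.W) * zn X m (E y) / (κ * Real.sqrt (m * D.W)) = zn X m (E y) / κ := by
      field_simp
    rw [h2]
    have h3 : Real.sqrt (m * D.W) ^ 2 = m * D.W := Real.sq_sqrt (by positivity)
    simp only
    calc (Real.sqrt (m * D.W) * zn X m (E y) - κ * Real.sqrt (m * D.W) * clp (zn X m (E y) / κ)) ^ 2
        = (Real.sqrt (m * D.W)) ^ 2 * (zn X m (E y) - κ * clp (zn X m (E y) / κ)) ^ 2 := by ring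
      _ = _ := by rw [h3]
  rw [hfun, ex_mul_left, ex_equiv E (fun u : Fin m → (ι → ℤˣ) => (zn X m u - κ * clp (zn X m u / κ)) ^ 2)]
  calc (m * D.W) * ex (fun u : Fin m → (ι → ℤˣ) => (zn X m u - κ * clp (zn X m u / κ)) ^ 2)
      ≤ (m * D.W) * ε1 := mul_le_mul_of_nonneg_left hm.le (by positivity)
    _ = ε1 * (m * D.W) := by ring

end P047X
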