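import Vale.Agent.P047X.Base

/-!
Module CALIB: calibrate a partition. `μ y = ex (sm · ind (Ψ = y)) / ex (ind (Ψ = y))` (0 if the denominator is 0).
`V = ∑_y N_y²/P_y ≥ ∑_y (2 t_y N_y - t_y² P_y)`, `N_y = ex (sm · ind(Ψ=y))`.
-/

open scoped BigOperators
open Finset

namespace P047X

private theorem calib_ind_sum {Ω Y : Type*} [Fintype Y] (Ψ : Ω → Y) (F : Y → ℝ) (x : Ω) :
    F (Ψ x) = ∑ y, F y * ind (Ψ x = y) := by
  classical
  have h : ∀ y, F y * ind (Ψ x = y) = if Ψ x = y then F y else 0 := by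
    intro y
    unfold ind
    split_ifs <;> simp
  simp only [h]
  rw [Finset.sum_ite_eq]
  simp

private theorem calib_ex {Ω Y : Type*} [Finite Ω] [Fintype Y] (Ψ : Ω → Y) (g : Ω → ℝ) (F : Y → ℝ) :
    ex (fun x => g x * F (Ψ x)) = ∑ y, F y * ex (fun x => g x * ind (Ψ x = y)) := by
  have h : (fun x => g x * F (Ψ x)) = fun x => ∑ y, F y * (g x * ind (Ψ x = y)) := by
    funext x
    rw [calib_ind_sum Ψ F x, Finset.mul_sum]
    refine Finset.sum_congr rfl fun y _ => ?_
    ring
  rw [h, ex_sum]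
  refine Finset.sum_congr rfl fun y _ => ?_
  rw [ex_mul_left]

private theorem calib_ex1 {Ω Y : Type*} [Finite Ω] [Fintype Y] (Ψ : Ω → Y) (F : Y → ℝ) :
    ex (fun x => F (Ψ x)) = ∑ y, F y * ex (fun x => ind (Ψ x = y)) := by
  have h := calib_ex Ψ (fun _ => 1) F
  simpa only [one_mul] using h

private theorem calib_ind_nonneg (p : Prop) : 0 ≤ ind p := by
  unfold ind
  split_ifs <;> norm_num

theorem calibrate {ι Y : Type} [Fintype ι] [Fintype Y] (Ψ : (ι → ℤˣ) → Y) (δ : ℕ)
    (hdeg : ∀ y : Y, Deg δ (fun x => ind (Ψ x = y))) (t : Y → ℝ) :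
    ∃ S : Scheme ι Y, S.δ = δ ∧ 2 * ex (fun x => sm x * t (Ψ x)) - ex (fun x => (t (Ψ x)) ^ 2) ≤ S.V := by
  classical
  let N : Y → ℝ := fun y => ex (fun x => sm x * ind (Ψ x = y))
  let P : Y → ℝ := fun y => ex (fun x => ind (Ψ x = y))
  let μ : Y → ℝ := fun y => N y / P y
  have hP0 : ∀ y, 0 ≤ P y := fun y => ex_nonneg fun x => calib_ind_nonneg _
  -- `N = μ P`
  have hNP : ∀ y, N y = μ y * P y := by
    intro y
    by_cases h : P y = 0
    · have h0 : ∀ x, ind (Ψ x = y) = 0 := by
        have h1 : ex (fun x => ind (Ψ x = y)) = 0 := h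
        rw [ex_eq, div_eq_zero_iff] at h1
        rcases h1 with h1 | h1
        · intro x
          exact (Finset.sum_eq_zero_iff_of_nonneg (fun x _ => calib_ind_nonneg _)).1 h1 x
            (Finset.mem_univ x)
        · exfalso
          have h2 : Fintype.card (ι → ℤˣ) ≠ 0 := Fintype.card_ne_zero
          exact h2 (by exact_mod_cast h1)
      have h3 : N y = 0 := by
        show ex (fun x => sm x * ind (Ψ x = y)) = 0
        simp only [h0, mul_zero]
        exact ex_const 0
      rw [h3, h, mul_zero]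
    · show N y = N y / P y * P y
      rw [div_mul_cancel₀ _ h]
  let S : Scheme ι Y :=
    { Ψ := Ψ
      μ := μ
      δ := δ
      deg := by
        intro c
        have h1 : (fun x => c (Ψ x)) = fun x => ∑ y, c y * ind (Ψ x = y) := by
          funext x
          exact calib_ind_sum Ψ c x
        rw [h1]
        exact Deg.sum _ fun y _ => Deg.smul (c y) (hdeg y)
      cal := by
        intro c
        have h1 : (fun x => (sm x - μ (Ψ x)) * c (Ψ x)) =
            fun x => sm x * c (Ψ x) - (fun y => μ y * c y) (Ψ x) := by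
          funext x
          ring
        rw [h1, ex_sub, calib_ex Ψ (fun x => sm x) c, calib_ex1 Ψ (fun y => μ y * c y),
          ← Finset.sum_sub_distrib]
        refine Finset.sum_eq_zero fun y _ => ?_
        have h2 := hNP y
        show c y * N y - μ y * c y * P y = 0
        rw [h2]
        ring }
  refine ⟨S, rfl, ?_⟩
  have hV : S.V = ∑ y, (μ y) ^ 2 * P y := calib_ex1 Ψ (fun y => (μ y) ^ 2)
  rw [hV, calib_ex Ψ (fun x => sm x) t, calib_ex1 Ψ (fun y => (t y) ^ 2), Finset.mul_sum,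
    ← Finset.sum_sub_distrib]
  refine Finset.sum_le_sum fun y _ => ?_
  have h2 := hNP y
  show 2 * (t y * N y) - t y ^ 2 * P y ≤ μ y ^ 2 * P y
  rw [h2]
  nlinarith [mul_nonneg (hP0 y) (sq_nonneg (μ y - t y))]

end P047X
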