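import Vale.Agent.P047X.AsmAlg
import Vale.Agent.P047X.Calib
import Vale.Agent.P047X.AsmSel
import Vale.Agent.P047X.AsmVar

/-!
Module ASMCORE: the assembled scheme with explicit parameters.
-/

open scoped BigOperators
open Finset

namespace P047X

noncomputable section

/-- variance over independent groups -/
theorem grp_var {G : ℕ} {Q Ω : Type} [Finite Q] [Finite Ω] [Nonempty Ω] (f : (Q → Ω) → ℝ) :
    ex (fun y : Fin G × Q → Ω => (∑ g, (f (fun q => y (g, q)) - ex f)) ^ 2) ≤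
      (G : ℝ) * ex (fun u => (f u) ^ 2) := by
  have h1 : ex (fun y : Fin G × Q → Ω => (∑ g, (f (fun q => y (g, q)) - ex f)) ^ 2) =
      ex (fun w : Fin G → (Q → Ω) => (∑ g, (f (w g) - ex f)) ^ 2) :=
    ex_equiv (Equiv.curry (Fin G) Q Ω) (fun w : Fin G → (Q → Ω) => (∑ g, (f (w g) - ex f)) ^ 2)
  rw [h1, ex_sum_sq (Ω := Q → Ω) (fun _ u => f u - ex f) (fun _ => by rw [ex_sub, ex_const, sub_self])]
  rw [Finset.sum_const, Finset.card_univ, Fintype.card_fin, nsmul_eq_mul]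
  apply mul_le_mul_of_nonneg_left _ (Nat.cast_nonneg _)
  have h2 : (fun u : Q → Ω => (f u - ex f) ^ 2) = fun u => (f u) ^ 2 - (2 * ex f * f u - (ex f) ^ 2) := by
    funext u; ring
  rw [h2, ex_sub, ex_sub, ex_mul_left, ex_const]
  nlinarith [sq_nonneg (ex f)]

variable {ι Y : Type} [Fintype ι] [Fintype Y] {G b r : ℕ}

/-- group sums -/
def gs (D : SScheme ι Y) (v : BB G b r → Y) (g : Fin G) : ℝ := ∑ q : (Fin b → Bool) × Fin r, D.R (v (g, q))

/-- clipped normalized group sums -/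
def zz (D : SScheme ι Y) (K : ℝ) (v : BB G b r → Y) (g : Fin G) : ℝ := clp (gs D v g / K)

theorem sum_gs (D : SScheme ι Y) (v : BB G b r → Y) : ∑ β, D.R (v β) = ∑ g, gs D v g := by
  unfold gs
  rw [Fintype.sum_prod_type]

theorem asm_core (D : SScheme ι Y) (hW : 0 < D.W) (G b r n N : ℕ) (hG : 1 ≤ G) (hb : 1 ≤ b) (hr : 1 ≤ r)
    (hn : 2 * n ≤ G) (hN : 1 ≤ N) (c : Fin N → ℝ) (Φ : Fin N → (Fin G → ℝ) → ℕ) (hc : ∀ y, |c y| ≤ 1)
    (hΦ : ∀ z : Fin G → ℝ, (∀ g, |z g| ≤ 1) → ∑ y, Φ y z = 2 ^ b) (B1 : ℝ)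
    (hcost : ∀ z : Fin G → ℝ, (∀ g, |z g| ≤ 1) →
        ∑ y, ((Φ y z : ℝ) / 2 ^ b) * ((∑ g, z g) / (G : ℝ) - c y) ^ 2 ≤ B1)
    (hH : ∀ y, ∃ H : Finset (Fin G) → (Fin G → ℝ) → ℝ,
        (∀ (A : Finset (Fin G)) (z z' : Fin G → ℝ), (∀ g ∈ A, z g = z' g) → H A z = H A z') ∧
        ∀ z : Fin G → ℝ, (∀ g, |z g| ≤ 1) →
          (Φ y z : ℝ) = ∑ A ∈ Finset.univ.filter (fun A : Finset (Fin G) => A.card ≤ n), H A z)
    (κ : ℝ) (hκ : 0 < κ) (B2 : ℝ)
    (hclip : ex (fun y : (Fin b → Bool) × Fin r → (ι → ℤˣ) => ((∑ q, D.R (D.σ (y q))) -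
        (κ * Real.sqrt ((2 ^ b * r : ℕ) * D.W)) *
          clp ((∑ q, D.R (D.σ (y q))) / (κ * Real.sqrt ((2 ^ b * r : ℕ) * D.W)))) ^ 2) ≤
        B2 * ((2 ^ b * r : ℕ) * D.W)) :
    ∃ S : Scheme (BB G b r × ι) (Fin N),
      S.δ = 2 * (G * 2 ^ (b - 1) * r) * D.Δ - (G * 2 ^ (b - 1) * r) * D.δ ∧
      2 * (G * 2 ^ (b - 1) * r : ℕ) * D.W *
        (1 - 2 * B2 - 2 * G * κ ^ 2 * (B1 + 2 ^ b * 4 * D.η ^ (G * 2 ^ (b - 1) * r))) ≤ S.V := by
  classical
  set T : ℕ := G * 2 ^ (b - 1) * r with hT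
  set m : ℕ := 2 ^ b * r with hm
  have h2b : 2 ^ b = 2 * 2 ^ (b - 1) := by
    conv_lhs => rw [← Nat.sub_add_cancel hb, pow_succ]
    ring
  have hGm : G * m = 2 * T := by
    rw [hm, hT, h2b]; ring
  set K : ℝ := κ * Real.sqrt ((m : ℕ) * D.W) with hK
  have hm1 : 1 ≤ m := Nat.one_le_iff_ne_zero.2 (by positivity)
  have hmpos : (0 : ℝ) < m := by exact_mod_cast hm1
  have hKpos : 0 < K := mul_pos hκ (Real.sqrt_pos.2 (by positivity))
  have hK2 : K ^ 2 = κ ^ 2 * (m * D.W) := by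
    rw [hK, mul_pow, Real.sq_sqrt (by positivity)]
  -- the selection maps
  have hsel : ∀ z : Fin G → ℝ, ∃ Yz : (Fin b → ℤˣ) → Fin N, (∀ g, |z g| ≤ 1) → ∀ F : Fin N → ℝ,
      ex (fun e => F (Yz e)) = ∑ y, ((Φ y z : ℝ) / 2 ^ b) * F y := by
    intro z
    by_cases hz : ∀ g, |z g| ≤ 1
    · obtain ⟨Yz, hYz⟩ := sel b N (fun y => Φ y z) (hΦ z hz)
      exact ⟨Yz, fun _ => hYz⟩
    · exact ⟨fun _ => ⟨0, hN⟩, fun h => absurd h hz⟩
  choose Yz hYz using hsel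
  have hzz : ∀ (v : BB G b r → Y) (g : Fin G), |zz D K v g| ≤ 1 := fun v g => abs_clp_le _
  let Ψ' : (BB G b r × ι → ℤˣ) → Fin N := fun x => Yz (zz D K (sg D x)) (ep D x)
  -- the mean clipping error
  set f0 : ((Fin b → Bool) × Fin r → (ι → ℤˣ)) → ℝ := fun y => (∑ q, D.R (D.σ (y q))) -
    K * clp ((∑ q, D.R (D.σ (y q))) / K) with hf0
  set κ0 : ℝ := ex f0 with hκ0
  let t : Fin N → ℝ := fun y => G * K * c y + G * κ0
  have hGpos : (0 : ℝ) < G := by exact_mod_cast hG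
  -- degree
  have hdeg : ∀ y : Fin N, Deg (2 * T * D.Δ - T * D.δ) (fun x => ind (Ψ' x = y)) := by
    intro y
    obtain ⟨H, hH1, hH2⟩ := hH y
    have key := asm_deg (G := G) (b := b) (r := r) D hb (fun v e => ind (Yz (zz D K v) e = y)) ?_
    · exact key
    · have h1 : (fun x : BB G b r × ι → ℤˣ => ex (fun e => ind (Yz (zz D K (sg D x)) e = y))) =
          fun x => ∑ A ∈ Finset.univ.filter (fun A : Finset (Fin G) => A.card ≤ n),
            (1 / 2 ^ b) * H A (zz D K (sg D x)) := by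
        funext x
        rw [hYz (zz D K (sg D x)) (hzz _) (fun y' => ind (y' = y)), Finset.sum_eq_single y]
        · rw [hH2 _ (hzz _), ← Finset.mul_sum]
          simp [ind]
          ring
        · intro y' _ hy'
          simp [ind, hy']
        · intro h; exact absurd (Finset.mem_univ _) h
      rw [h1]
      refine Deg.sum _ fun A hA => Deg.smul _ ?_
      have hAn : A.card ≤ n := (Finset.mem_filter.1 hA).2
      have h2 := deg_groups (G := G) (b := b) (r := r) D A (fun v => H A (zz D K v)) (by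
        intro v v' hvv
        refine hH1 A _ _ fun g hg => ?_
        unfold zz gs
        congr 2
        exact Finset.sum_congr rfl fun q _ => by rw [hvv (g, q) hg])
      refine Deg.mono ?_ h2
      have h3 : A.card * (2 ^ b * r) * D.Δ ≤ T * D.Δ := by
        apply Nat.mul_le_mul_right
        calc A.card * (2 ^ b * r) ≤ n * (2 ^ b * r) := Nat.mul_le_mul_right _ hAn
          _ = (2 * n) * 2 ^ (b - 1) * r := by rw [h2b]; ring
          _ ≤ G * 2 ^ (b - 1) * r := Nat.mul_le_mul_right _ (Nat.mul_le_mul_right _ hn)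
      have h4 : T * D.δ ≤ T * D.Δ := Nat.mul_le_mul_left _ D.hδ
      have h5 : 2 * T * D.Δ = T * D.Δ + T * D.Δ := by ring
      rw [h5]
      refine h3.trans ?_
      generalize T * D.Δ = P at h4 ⊢
      generalize T * D.δ = P' at h4 ⊢
      omega
  obtain ⟨S, hSδ, hSV⟩ := calibrate Ψ' (2 * T * D.Δ - T * D.δ) hdeg t
  refine ⟨S, hSδ, le_trans ?_ hSV⟩
  -- the value
  have hcal := asm_cal (G := G) (b := b) (r := r) D (fun v e => t (Yz (zz D K v) e))
  have hst : ex (fun x => sm x * t (Ψ' x)) = ex (fun x => (∑ β, D.R (sg D x β)) * t (Ψ' x)) := by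
    have h1 : (fun x : BB G b r × ι → ℤˣ => (sm x - ∑ β, D.R (sg D x β)) * t (Yz (zz D K (sg D x)) (ep D x))) =
        fun x => sm x * t (Ψ' x) - (∑ β, D.R (sg D x β)) * t (Ψ' x) := by
      funext x; ring
    rw [h1, ex_sub] at hcal
    linarith
  have hid : 2 * ex (fun x => sm x * t (Ψ' x)) - ex (fun x => (t (Ψ' x)) ^ 2) =
      ex (fun x : BB G b r × ι → ℤˣ => (∑ β, D.R (sg D x β)) ^ 2) -
        ex (fun x : BB G b r × ι → ℤˣ => ((∑ β, D.R (sg D x β)) - t (Ψ' x)) ^ 2) := by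
    rw [hst, ← ex_mul_left, ← ex_sub, ← ex_sub]
    congr 1
    funext x; ring
  rw [hid]
  -- second moment of the total
  have hQ2 : ex (fun x : BB G b r × ι → ℤˣ => (∑ β, D.R (sg D x β)) ^ 2) = 2 * T * D.W := by
    have h1 : ex (fun x : BB G b r × ι → ℤˣ => (∑ β, D.R (sg D x β)) ^ 2) =
        ex (fun y : BB G b r → (ι → ℤˣ) => (∑ β, D.R (D.σ (y β))) ^ 2) :=
      ex_sl (J := BB G b r) (fun y => (∑ β, D.R (D.σ (y β))) ^ 2)
    rw [h1, ex_sum_sq (Ω := ι → ℤˣ) (fun _ ω => D.R (D.σ ω)) (fun _ => ss_mean D), Finset.sum_const,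
      Finset.card_univ, nsmul_eq_mul]
    have h2 : Fintype.card (BB G b r) = 2 * T := by
      rw [← hGm, hm]
      simp [BB, Fintype.card_prod, Fintype.card_fin]
    rw [h2]
    push_cast
    rfl
  rw [hQ2]
  -- the error
  have hpt : ∀ x : BB G b r × ι → ℤˣ, ((∑ β, D.R (sg D x β)) - t (Ψ' x)) ^ 2 ≤
      2 * (∑ g, (f0 (fun q => sl x (g, q)) - κ0)) ^ 2 +
      2 * (G * K) ^ 2 * ((∑ g, zz D K (sg D x) g) / (G : ℝ) - c (Ψ' x)) ^ 2 := by
    intro x
    have e1 : (∑ β, D.R (sg D x β)) - t (Ψ' x) = (∑ g, (f0 (fun q => sl x (g, q)) - κ0)) +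
        (G * K) * ((∑ g, zz D K (sg D x) g) / (G : ℝ) - c (Ψ' x)) := by
      rw [sum_gs, Finset.sum_sub_distrib, Finset.sum_const, Finset.card_univ, Fintype.card_fin, nsmul_eq_mul]
      have e2 : ∑ g, f0 (fun q => sl x (g, q)) = ∑ g, gs D (sg D x) g - K * ∑ g, zz D K (sg D x) g := by
        rw [Finset.mul_sum, ← Finset.sum_sub_distrib]
        refine Finset.sum_congr rfl fun g _ => ?_
        rfl
      rw [e2]
      simp only [t]
      field_simp
      ring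
    rw [e1]
    nlinarith [sq_nonneg ((∑ g, (f0 (fun q => sl x (g, q)) - κ0)) -
        (G * K) * ((∑ g, zz D K (sg D x) g) / (G : ℝ) - c (Ψ' x)))]
  have hE1 : ex (fun x : BB G b r × ι → ℤˣ => (∑ g, (f0 (fun q => sl x (g, q)) - κ0)) ^ 2) ≤
      (G : ℝ) * (B2 * (m * D.W)) := by
    have h1 : ex (fun x : BB G b r × ι → ℤˣ => (∑ g, (f0 (fun q => sl x (g, q)) - κ0)) ^ 2) =
        ex (fun y : Fin G × ((Fin b → Bool) × Fin r) → (ι → ℤˣ) => (∑ g, (f0 (fun q => y (g, q)) - ex f0)) ^ 2) :=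
      ex_sl (J := BB G b r) (fun y => (∑ g, (f0 (fun q => y (g, q)) - ex f0)) ^ 2)
    rw [h1]
    refine (grp_var f0).trans ?_
    exact mul_le_mul_of_nonneg_left hclip hGpos.le
  have hE2 : ex (fun x : BB G b r × ι → ℤˣ => ((∑ g, zz D K (sg D x) g) / (G : ℝ) - c (Ψ' x)) ^ 2) ≤
      B1 + 2 ^ b * 4 * D.η ^ T := by
    have hu : ∀ v : BB G b r → Y, |(∑ g, zz D K v g) / (G : ℝ)| ≤ 1 := by
      intro v
      rw [abs_div, abs_of_pos hGpos, div_le_one hGpos]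
      refine (Finset.abs_sum_le_sum_abs _ _).trans ?_
      refine (Finset.sum_le_sum fun g _ => hzz v g).trans ?_
      simp
    have h1 := asm_ex (G := G) (b := b) (r := r) D hb
      (fun v e => ((∑ g, zz D K v g) / (G : ℝ) - c (Yz (zz D K v) e)) ^ 2) 4 (by
        intro v e
        rw [abs_of_nonneg (sq_nonneg _)]
        have h2 := abs_le.1 (hu v)
        have h3 := abs_le.1 (hc (Yz (zz D K v) e))
        nlinarith)
    have h2 : ex (fun x : BB G b r × ι → ℤˣ => ex (fun e =>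
        ((∑ g, zz D K (sg D x) g) / (G : ℝ) - c (Yz (zz D K (sg D x)) e)) ^ 2)) ≤ B1 := by
      calc ex (fun x : BB G b r × ι → ℤˣ => ex (fun e =>
          ((∑ g, zz D K (sg D x) g) / (G : ℝ) - c (Yz (zz D K (sg D x)) e)) ^ 2))
          ≤ ex (fun _ : BB G b r × ι → ℤˣ => B1) := by
            apply ex_mono
            intro x
            rw [hYz (zz D K (sg D x)) (hzz _) (fun y => ((∑ g, zz D K (sg D x) g) / (G : ℝ) - c y) ^ 2)]
            exact hcost _ (hzz _)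
        _ = B1 := ex_const _
    have h3 := (abs_le.1 h1).2
    have h4 : (fun x : BB G b r × ι → ℤˣ => ((∑ g, zz D K (sg D x) g) / (G : ℝ) - c (Ψ' x)) ^ 2) =
        fun x => ((∑ g, zz D K (sg D x) g) / (G : ℝ) - c (Yz (zz D K (sg D x)) (ep D x))) ^ 2 := rfl
    rw [h4]
    linarith
  have hE : ex (fun x : BB G b r × ι → ℤˣ => ((∑ β, D.R (sg D x β)) - t (Ψ' x)) ^ 2) ≤
      2 * ((G : ℝ) * (B2 * (m * D.W))) + 2 * (G * K) ^ 2 * (B1 + 2 ^ b * 4 * D.η ^ T) := by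
    calc ex (fun x : BB G b r × ι → ℤˣ => ((∑ β, D.R (sg D x β)) - t (Ψ' x)) ^ 2)
        ≤ ex (fun x : BB G b r × ι → ℤˣ => 2 * (∑ g, (f0 (fun q => sl x (g, q)) - κ0)) ^ 2 +
          2 * (G * K) ^ 2 * ((∑ g, zz D K (sg D x) g) / (G : ℝ) - c (Ψ' x)) ^ 2) := ex_mono hpt
      _ = 2 * ex (fun x : BB G b r × ι → ℤˣ => (∑ g, (f0 (fun q => sl x (g, q)) - κ0)) ^ 2) +
          2 * (G * K) ^ 2 * ex (fun x : BB G b r × ι → ℤˣ =>
            ((∑ g, zz D K (sg D x) g) / (G : ℝ) - c (Ψ' x)) ^ 2) := by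
          rw [ex_add, ex_mul_left, ex_mul_left]
      _ ≤ _ := by
          apply add_le_add
          · exact mul_le_mul_of_nonneg_left hE1 (by norm_num)
          · exact mul_le_mul_of_nonneg_left hE2 (by positivity)
  have hGmr : (G : ℝ) * m = 2 * T := by exact_mod_cast hGm
  have e5 : 2 * (T : ℝ) * D.W * (1 - 2 * B2 - 2 * G * κ ^ 2 * (B1 + 2 ^ b * 4 * D.η ^ T)) =
      2 * T * D.W - (2 * ((G : ℝ) * (B2 * (m * D.W))) + 2 * (G * K) ^ 2 * (B1 + 2 ^ b * 4 * D.η ^ T)) := by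
    rw [mul_pow, hK2, ← hGmr]
    ring
  rw [e5]
  linarith

end

end P047X
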