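import Vale.Agent.P047X.Defs

/-! Basic lemmas (module BASEDEG). -/

open scoped BigOperators
open Finset Classical

namespace P047X

noncomputable section

/-! ### degree -/

section deg
variable {ι : Type*}

theorem Dep.mono {S T : Finset ι} {f : (ι → ℤˣ) → ℝ} (hST : S ⊆ T) (h : Dep S f) : Dep T f :=
  fun x y hxy => h x y (fun i hi => hxy i (hST hi))

theorem Deg.of_dep {S : Finset ι} {d : ℕ} {f : (ι → ℤˣ) → ℝ} (hS : S.card ≤ d) (h : Dep S f) : Deg d f :=
  Submodule.subset_span ⟨S, hS, h⟩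

/-- induction principle for the degree filtration -/
theorem Deg.ind' {d : ℕ} {P : ((ι → ℤˣ) → ℝ) → Prop} {f : (ι → ℤˣ) → ℝ} (h : Deg d f)
    (h1 : ∀ (S : Finset ι) (g : (ι → ℤˣ) → ℝ), S.card ≤ d → Dep S g → P g)
    (h2 : ∀ g g', P g → P g' → P (fun x => g x + g' x))
    (h3 : ∀ (c : ℝ) g, P g → P (fun x => c * g x)) : P f := by
  refine Submodule.span_induction (p := fun g _ => P g) ?_ ?_ ?_ ?_ h
  · rintro g ⟨S, hS, hg⟩
    exact h1 S g hS hg
  · exact h1 ∅ 0 (by simp) (fun _ _ _ => rfl)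
  · intro g g' _ _ hg hg'
    exact h2 g g' hg hg'
  · intro c g _ hg
    exact h3 c g hg

theorem Deg.const (d : ℕ) (c : ℝ) : Deg d (fun _ : ι → ℤˣ => c) :=
  Deg.of_dep (S := ∅) (by simp) (fun _ _ _ => rfl)

theorem Deg.add {d : ℕ} {f g : (ι → ℤˣ) → ℝ} (hf : Deg d f) (hg : Deg d g) : Deg d (fun x => f x + g x) :=
  Submodule.add_mem _ hf hg

theorem Deg.sub {d : ℕ} {f g : (ι → ℤˣ) → ℝ} (hf : Deg d f) (hg : Deg d g) : Deg d (fun x => f x - g x) :=
  Submodule.sub_mem _ hf hg

theorem Deg.smul {d : ℕ} {f : (ι → ℤˣ) → ℝ} (c : ℝ) (hf : Deg d f) : Deg d (fun x => c * f x) :=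
  Submodule.smul_mem _ c hf

theorem Deg.sum {κ : Type*} {d : ℕ} (s : Finset κ) {f : κ → (ι → ℤˣ) → ℝ} (h : ∀ k ∈ s, Deg d (f k)) :
    Deg d (fun x => ∑ k ∈ s, f k x) := by
  have e : (fun x => ∑ k ∈ s, f k x) = ∑ k ∈ s, f k := by
    funext x
    rw [Finset.sum_apply]
  unfold Deg
  rw [e]
  exact Submodule.sum_mem _ h

theorem Deg.mono {d d' : ℕ} {f : (ι → ℤˣ) → ℝ} (hd : d ≤ d') (h : Deg d f) : Deg d' f := by
  refine Submodule.span_mono ?_ h
  rintro g ⟨S, hS, hg⟩
  exact ⟨S, hS.trans hd, hg⟩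

theorem Deg.mul {a b : ℕ} {f g : (ι → ℤˣ) → ℝ} (hf : Deg a f) (hg : Deg b g) :
    Deg (a + b) (fun x => f x * g x) := by
  refine Deg.ind' (P := fun f => Deg (a + b) (fun x => f x * g x)) hf ?_ ?_ ?_
  · intro S f hS hf
    refine Deg.ind' (P := fun g => Deg (a + b) (fun x => f x * g x)) hg ?_ ?_ ?_
    · intro T g hT hg
      refine Deg.of_dep (S := S ∪ T) ((Finset.card_union_le S T).trans (Nat.add_le_add hS hT)) ?_
      intro x y hxy
      show f x * g x = f y * g y
      rw [hf x y (fun i hi => hxy i (Finset.mem_union_left _ hi)),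
        hg x y (fun i hi => hxy i (Finset.mem_union_right _ hi))]
    · intro g g' h h'
      have := Deg.add h h'
      simpa only [mul_add] using this
    · intro c g h
      have := Deg.smul c h
      simpa only [mul_left_comm] using this
  · intro f f' h h'
    have := Deg.add h h'
    simpa only [add_mul] using this
  · intro c f h
    have := Deg.smul c h
    simpa only [mul_assoc] using this

theorem Deg.prod {κ : Type*} (s : Finset κ) (d : κ → ℕ) {f : κ → (ι → ℤˣ) → ℝ} (h : ∀ k ∈ s, Deg (d k) (f k)) :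
    Deg (∑ k ∈ s, d k) (fun x => ∏ k ∈ s, f k x) := by
  induction s using Finset.induction_on with
  | empty => simpa using Deg.const (ι := ι) 0 1
  | insert a s ha ih =>
    simp only [Finset.sum_insert ha, Finset.prod_insert ha]
    exact Deg.mul (h a (Finset.mem_insert_self _ _)) (ih (fun k hk => h k (Finset.mem_insert_of_mem hk)))

/-- pull back to a block -/
theorem Deg.sl {J : Type*} {d : ℕ} {g : (ι → ℤˣ) → ℝ} (h : Deg d g) (j : J) :
    Deg d (fun x : J × ι → ℤˣ => g (P047X.sl x j)) := by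
  refine Deg.ind' (P := fun g => Deg d (fun x : J × ι → ℤˣ => g (P047X.sl x j))) h ?_ ?_ ?_
  · intro S g hS hg
    refine Deg.of_dep (S := S.image (fun i => (j, i))) (Finset.card_image_le.trans hS) ?_
    intro x y hxy
    refine hg _ _ (fun i hi => ?_)
    exact hxy (j, i) (Finset.mem_image_of_mem _ hi)
  · intro g g' h h'
    exact Deg.add h h'
  · intro c g h
    exact Deg.smul c h

/-- product of functions of different blocks -/
theorem Deg.prod_sl {J : Type*} [Fintype J] {d : J → ℕ} {g : J → (ι → ℤˣ) → ℝ} (h : ∀ j, Deg (d j) (g j)) :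
    Deg (∑ j, d j) (fun x : J × ι → ℤˣ => ∏ j, g j (P047X.sl x j)) :=
  Deg.prod Finset.univ d (fun j _ => Deg.sl (h j) j)

/-- flipping one coordinate -/
private def flipAt [DecidableEq ι] (i : ι) (x : ι → ℤˣ) : ι → ℤˣ := Function.update x i (-x i)

private theorem flipAt_flipAt [DecidableEq ι] (i : ι) (x : ι → ℤˣ) : flipAt i (flipAt i x) = x := by
  funext j
  by_cases hj : j = i
  · subst hj
    simp [flipAt]
  · simp [flipAt, hj]

/-- a function of degree `≤ d` is orthogonal to characters of size `> d` -/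
theorem Deg.orth [Fintype ι] [DecidableEq ι] {d : ℕ} {f : (ι → ℤˣ) → ℝ} (h : Deg d f) {S : Finset ι} (hS : d < S.card) :
    ∑ x : ι → ℤˣ, f x * ∏ i ∈ S, val (x i) = 0 := by
  refine Deg.ind' (P := fun f => ∑ x : ι → ℤˣ, f x * ∏ i ∈ S, val (x i) = 0) h ?_ ?_ ?_
  · intro T g hT hg
    obtain ⟨i, hiS, hiT⟩ : ∃ i ∈ S, i ∉ T := by
      by_contra hcon
      push Not at hcon
      have : S.card ≤ T.card := Finset.card_le_card hcon
      omega
    let e : (ι → ℤˣ) ≃ (ι → ℤˣ) := ⟨flipAt i, flipAt i, flipAt_flipAt i, flipAt_flipAt i⟩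
    have h1 : ∑ x : ι → ℤˣ, g x * ∏ i ∈ S, val (x i) = ∑ x : ι → ℤˣ, g (e x) * ∏ i ∈ S, val (e x i) :=
      (Equiv.sum_comp e (fun x => g x * ∏ i ∈ S, val (x i))).symm
    have h2 : ∀ x : ι → ℤˣ, g (e x) * ∏ i ∈ S, val (e x i) = -(g x * ∏ i ∈ S, val (x i)) := by
      intro x
      have hg1 : g (e x) = g x := by
        refine hg _ _ (fun j hj => ?_)
        have hji : j ≠ i := fun hji => hiT (hji ▸ hj)
        show flipAt i x j = x j
        simp [flipAt, hji]
      have hp : ∏ j ∈ S, val (e x j) = -∏ j ∈ S, val (x j) := by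
        rw [← Finset.mul_prod_erase S _ hiS, ← Finset.mul_prod_erase S (fun j => val (x j)) hiS]
        have ha : val (e x i) = - val (x i) := by
          show val (flipAt i x i) = - val (x i)
          simp [flipAt, val]
        have hb : ∏ j ∈ S.erase i, val (e x j) = ∏ j ∈ S.erase i, val (x j) := by
          refine Finset.prod_congr rfl (fun j hj => ?_)
          have hji : j ≠ i := Finset.ne_of_mem_erase hj
          show val (flipAt i x j) = val (x j)
          simp [flipAt, hji]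
        rw [ha, hb]
        ring
      rw [hg1, hp]
      ring
    rw [Finset.sum_congr rfl (fun x _ => h2 x), Finset.sum_neg_distrib] at h1
    linarith
  · intro g g' h h'
    simp only [add_mul, Finset.sum_add_distrib, h, h', add_zero]
  · intro c g h
    simp only [mul_assoc, ← Finset.mul_sum, h, mul_zero]

/-- transport along an equivalence of the index sets -/
theorem Deg.equiv {ι' : Type*} {d : ℕ} (e : ι ≃ ι') {f : (ι → ℤˣ) → ℝ} (h : Deg d f) :
    Deg d (fun x : ι' → ℤˣ => f (fun i => x (e i))) := by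
  refine Deg.ind' (P := fun f => Deg d (fun x : ι' → ℤˣ => f (fun i => x (e i)))) h ?_ ?_ ?_
  · intro S g hS hg
    refine Deg.of_dep (S := S.image e) (Finset.card_image_le.trans hS) ?_
    intro x y hxy
    refine hg _ _ (fun i hi => ?_)
    exact hxy (e i) (Finset.mem_image_of_mem _ hi)
  · intro g g' h h'
    exact Deg.add h h'
  · intro c g h
    exact Deg.smul c h

end deg

end

end P047X
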