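import Vale.Agent.P047X.Defs

/-! Basic lemmas (module BASEEX). -/

open scoped BigOperators
open Finset Classical

namespace P047X

noncomputable section

/-! ### expectation -/

section ex
variable {Ω : Type*} [Finite Ω]

/-- `ex` is the usual average, for every `Fintype` instance -/
theorem ex_eq {Ω : Type*} [Fintype Ω] (f : Ω → ℝ) : ex f = (∑ x, f x) / (Fintype.card Ω : ℝ) := by
  unfold ex
  rw [finsum_eq_sum_of_fintype, Nat.card_eq_fintype_card]

theorem ex_add (f g : Ω → ℝ) : ex (fun x => f x + g x) = ex f + ex g := by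
  cases nonempty_fintype Ω
  simp only [ex_eq, Finset.sum_add_distrib, add_div]

theorem ex_sub (f g : Ω → ℝ) : ex (fun x => f x - g x) = ex f - ex g := by
  cases nonempty_fintype Ω
  simp only [ex_eq, Finset.sum_sub_distrib, sub_div]

theorem ex_mul_left (c : ℝ) (f : Ω → ℝ) : ex (fun x => c * f x) = c * ex f := by
  cases nonempty_fintype Ω
  simp only [ex_eq, ← Finset.mul_sum, mul_div_assoc]

theorem ex_mul_right (c : ℝ) (f : Ω → ℝ) : ex (fun x => f x * c) = ex f * c := by
  cases nonempty_fintype Ω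
  simp only [ex_eq, ← Finset.sum_mul]
  ring

theorem ex_sum {κ : Type*} (s : Finset κ) (f : κ → Ω → ℝ) :
    ex (fun x => ∑ k ∈ s, f k x) = ∑ k ∈ s, ex (f k) := by
  cases nonempty_fintype Ω
  simp only [ex_eq]
  rw [Finset.sum_comm, Finset.sum_div]

theorem ex_const [Nonempty Ω] (c : ℝ) : ex (fun _ : Ω => c) = c := by
  cases nonempty_fintype Ω
  simp only [ex_eq, Finset.sum_const, Finset.card_univ, nsmul_eq_mul]
  have : (Fintype.card Ω : ℝ) ≠ 0 := by exact_mod_cast Fintype.card_ne_zero
  field_simp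

theorem ex_mono {f g : Ω → ℝ} (h : ∀ x, f x ≤ g x) : ex f ≤ ex g := by
  cases nonempty_fintype Ω
  simp only [ex_eq]
  exact div_le_div_of_nonneg_right (Finset.sum_le_sum fun x _ => h x) (Nat.cast_nonneg _)

theorem ex_nonneg {f : Ω → ℝ} (h : ∀ x, 0 ≤ f x) : 0 ≤ ex f := by
  cases nonempty_fintype Ω
  simp only [ex_eq]
  exact div_nonneg (Finset.sum_nonneg fun x _ => h x) (Nat.cast_nonneg _)

theorem abs_ex_le_ex_abs (f : Ω → ℝ) : |ex f| ≤ ex (fun x => |f x|) := by
  cases nonempty_fintype Ω
  simp only [ex_eq]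
  rw [abs_div, Nat.abs_cast]
  exact div_le_div_of_nonneg_right (Finset.abs_sum_le_sum_abs _ _) (Nat.cast_nonneg _)

theorem abs_ex_le [Nonempty Ω] {f : Ω → ℝ} {C : ℝ} (h : ∀ x, |f x| ≤ C) : |ex f| ≤ C := by
  refine (abs_ex_le_ex_abs f).trans ?_
  have := ex_mono h
  rwa [ex_const] at this

theorem ex_equiv {Ω' : Type*} (e : Ω' ≃ Ω) (f : Ω → ℝ) : ex (fun x => f (e x)) = ex f := by
  cases nonempty_fintype Ω
  haveI : Fintype Ω' := Fintype.ofEquiv Ω e.symm
  simp only [ex_eq]
  rw [Equiv.sum_comp e f, Fintype.card_congr e]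

/-- law of total expectation over the values of a map -/
theorem ex_fiber {Y : Type*} [Fintype Y] (T : Ω → Y) (f : Ω → ℝ) :
    ex f = ∑ y, ex (fun x => ind (T x = y) * f x) := by
  rw [← ex_sum]
  congr 1
  funext x
  rw [Finset.sum_eq_single (T x)]
  · simp [ind]
  · intro b _ hb
    simp [ind, hb.symm]
  · simp

/-- independence over a product -/
theorem ex_prod {J : Type*} [Fintype J] (g : J → Ω → ℝ) :
    ex (fun y : J → Ω => ∏ j, g j (y j)) = ∏ j, ex (g j) := by
  cases nonempty_fintype Ω
  simp only [ex_eq, Finset.prod_div_distrib, Finset.prod_const, Finset.card_univ]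
  congr 1
  · rw [Finset.prod_univ_sum, Fintype.piFinset_univ]
  · rw [Fintype.card_fun]
    push_cast
    rfl

theorem b97_ex_one [Nonempty Ω] : ex (fun _ : Ω => (1 : ℝ)) = 1 := ex_const 1

/-- one marginal -/
theorem ex_eval {J : Type*} [Fintype J] [Nonempty Ω] (j : J) (g : Ω → ℝ) :
    ex (fun y : J → Ω => g (y j)) = ex g := by
  have h := ex_prod (fun (i : J) (ω : Ω) => if i = j then g ω else 1)
  have h1 : (fun y : J → Ω => ∏ i, (if i = j then g (y i) else 1)) = fun y => g (y j) := by
    funext y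
    rw [Finset.prod_eq_single j]
    · simp
    · intro b _ hb; simp [hb]
    · simp
  rw [h1] at h
  rw [h, Finset.prod_eq_single j]
  · simp
  · intro b _ hb
    simp only [hb, if_false]
    exact ex_const 1
  · simp

/-- two different coordinates are independent -/
theorem ex_eval_mul {J : Type*} [Fintype J] [Nonempty Ω] {i j : J} (hij : i ≠ j) (f g : Ω → ℝ) :
    ex (fun y : J → Ω => f (y i) * g (y j)) = ex f * ex g := by
  have h := ex_prod (fun (k : J) (ω : Ω) => (if k = i then f ω else 1) * (if k = j then g ω else 1))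
  have h1 : (fun y : J → Ω => ∏ k, ((if k = i then f (y k) else 1) * (if k = j then g (y k) else 1)))
      = fun y => f (y i) * g (y j) := by
    funext y
    rw [Finset.prod_mul_distrib]
    congr 1
    · rw [Finset.prod_eq_single i]
      · simp
      · intro b _ hb; simp [hb]
      · simp
    · rw [Finset.prod_eq_single j]
      · simp
      · intro b _ hb; simp [hb]
      · simp
  rw [h1] at h
  rw [h]
  have h2 : ∀ k, ex (fun ω => (if k = i then f ω else 1) * (if k = j then g ω else 1))
      = (if k = i then ex f else 1) * (if k = j then ex g else 1) := by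
    intro k
    by_cases hk : k = i
    · have hk' : k ≠ j := fun h => hij (hk.symm.trans h)
      simp [hk, hij]
    · by_cases hk' : k = j
      · simp [hk', hij.symm]
      · simp only [hk, hk', if_false, mul_one]
        exact ex_const 1
  simp only [h2]
  rw [Finset.prod_mul_distrib]
  congr 1
  · rw [Finset.prod_eq_single i]
    · simp
    · intro b _ hb; simp [hb]
    · simp
  · rw [Finset.prod_eq_single j]
    · simp
    · intro b _ hb; simp [hb]
    · simp

/-- Fubini for one coordinate -/
theorem b97_ex_update {J : Type*} [Fintype J] (j : J) (F : (J → Ω) → ℝ) :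
    ex F = ex (fun y : J → Ω => ex (fun ω => F (Function.update y j ω))) := by
  cases nonempty_fintype Ω
  rcases isEmpty_or_nonempty Ω with hΩ | hΩ
  · haveI : IsEmpty (J → Ω) := ⟨fun y => hΩ.false (y j)⟩
    simp [ex_eq]
  simp only [ex_eq]
  congr 1
  rw [← Finset.sum_div, eq_div_iff (by exact_mod_cast Fintype.card_ne_zero)]
  have key : (∑ x : J → Ω, F x) * (Fintype.card Ω : ℝ) = ∑ x : J → Ω, ∑ _ω : Ω, F x := by
    rw [Finset.sum_mul]
    refine Finset.sum_congr rfl fun x _ => ?_
    rw [Finset.sum_const, Finset.card_univ, nsmul_eq_mul, mul_comm]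
  rw [key]
  have e1 := Fintype.sum_prod_type' (fun (x : J → Ω) (_ : Ω) => F x)
  have e2 := Fintype.sum_prod_type' (fun (x : J → Ω) (ω : Ω) => F (Function.update x j ω))
  rw [← e1, ← e2]
  refine Fintype.sum_equiv
    ⟨fun p => (Function.update p.1 j p.2, p.1 j), fun p => (Function.update p.1 j p.2, p.1 j), ?_, ?_⟩
    _ _ ?_
  · rintro ⟨y, ω⟩
    simp
  · rintro ⟨y, ω⟩
    simp
  · rintro ⟨y, ω⟩
    simp

/-- a factor of mean zero in one coordinate kills the expectation -/
theorem ex_eval_mul_indep {J : Type*} [Fintype J] [Nonempty Ω] (j : J) (g : Ω → ℝ) (hg : ex g = 0)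
    (F : (J → Ω) → ℝ) (hF : ∀ y y' : J → Ω, (∀ i, i ≠ j → y i = y' i) → F y = F y') :
    ex (fun y : J → Ω => g (y j) * F y) = 0 := by
  rw [b97_ex_update j]
  have : (fun y : J → Ω => ex (fun ω => g (Function.update y j ω j) * F (Function.update y j ω)))
      = fun _ => 0 := by
    funext y
    have h1 : (fun ω => g (Function.update y j ω j) * F (Function.update y j ω))
        = fun ω => g ω * F y := by
      funext ω
      rw [Function.update_self]
      congr 1
      apply hF
      intro i hi
      rw [Function.update_of_ne hi]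
    rw [h1, ex_mul_right, hg, zero_mul]
  rw [this]
  exact ex_const 0

/-- variance of a sum of independent mean zero variables -/
theorem ex_sum_sq {J : Type*} [Fintype J] [Nonempty Ω] (g : J → Ω → ℝ) (hg : ∀ j, ex (g j) = 0) :
    ex (fun y : J → Ω => (∑ j, g j (y j)) ^ 2) = ∑ j, ex (fun ω => (g j ω) ^ 2) := by
  have h1 : (fun y : J → Ω => (∑ j, g j (y j)) ^ 2)
      = fun y => ∑ i, ∑ j, g i (y i) * g j (y j) := by
    funext y
    rw [sq, Finset.sum_mul_sum]
  rw [h1, ex_sum]
  refine Finset.sum_congr rfl fun i _ => ?_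
  rw [ex_sum, Finset.sum_eq_single i]
  · have := ex_eval i (fun ω => g i ω * g i ω)
    simp only [sq]
    exact this
  · intro j _ hj
    rw [ex_eval_mul hj.symm, hg, zero_mul]
  · simp

end ex

/-! ### blocks of the cube -/

section blocks
variable {J ι : Type*} [Fintype J] [Fintype ι]

theorem ex_sl (F : (J → ι → ℤˣ) → ℝ) :
    ex (fun x : J × ι → ℤˣ => F (fun j => sl x j)) = ex F := by
  exact ex_equiv (Equiv.curry J ι ℤˣ) F

theorem sm_sl (x : J × ι → ℤˣ) : sm x = ∑ j, sm (sl x j) := by
  unfold sm sl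
  rw [Fintype.sum_prod_type]

theorem b97_ex_val : ex (fun u : ℤˣ => val u) = 0 := by
  rw [ex_eq]
  have : ∑ u : ℤˣ, val u = 0 := by
    have hu : (Finset.univ : Finset ℤˣ) = {1, -1} := by decide
    rw [hu, Finset.sum_pair (by decide)]
    simp [val]
  rw [this, zero_div]

theorem ex_sm : ex (fun x : ι → ℤˣ => sm x) = 0 := by
  unfold sm
  rw [ex_sum]
  refine Finset.sum_eq_zero fun i _ => ?_
  rw [ex_eval i (fun u => val u)]
  exact b97_ex_val

theorem ex_prod_sl (g : J → (ι → ℤˣ) → ℝ) :
    ex (fun x : J × ι → ℤˣ => ∏ j, g j (sl x j)) = ∏ j, ex (g j) := by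
  have := ex_sl (J := J) (ι := ι) (fun y => ∏ j, g j (y j))
  rw [this, ex_prod]

end blocks

/-- expansion of a function of finitely many finite-valued variables into products of indicators -/
theorem expand_ind {J : Type*} [Fintype J] [DecidableEq J] {Y : Type*} [Fintype Y] (F : (J → Y) → ℝ) (v : J → Y) :
    F v = ∑ w : J → Y, F w * ∏ j, ind (v j = w j) := by
  rw [Finset.sum_eq_single v]
  · simp [ind]
  · intro w _ hw
    obtain ⟨j, hj⟩ := Function.ne_iff.1 hw
    rw [Finset.prod_eq_zero (Finset.mem_univ j), mul_zero]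
    simp [ind, Ne.symm hj]
  · simp

end

end P047X
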