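import Vale.Agent.P047X.DevMom2

/-!
Module DEVICE: assembly of the super-block into a signed scheme (from DevDeg, DevMom; `ex_sl`, `sm_sl`, calibration of `S` in each coordinate:
`ex ((sm x - ∑_j S.μ (Ψ (sl x j))) F(symbols)) = 0`).
-/

open scoped BigOperators
open Finset

namespace P047X

/-- calibration of all coordinates against functions of the symbols -/
theorem cal_symbols {J ι Y : Type} [Fintype J] [DecidableEq J] [Fintype ι] [Fintype Y] (S : Scheme ι Y)
    (F : (J → Y) → ℝ) :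
    ex (fun x : J × ι → ℤˣ => (∑ j, (sm (sl x j) - S.μ (S.Ψ (sl x j)))) * F (fun j => S.Ψ (sl x j))) = 0 := by
  have h1 : (fun x : J × ι → ℤˣ => (∑ j, (sm (sl x j) - S.μ (S.Ψ (sl x j)))) * F (fun j => S.Ψ (sl x j))) =
      fun x => ∑ j, ∑ w : J → Y, F w * ∏ i, (if i = j then (sm (sl x i) - S.μ (S.Ψ (sl x i))) *
        ind (S.Ψ (sl x i) = w i) else ind (S.Ψ (sl x i) = w i)) := by
    funext x
    rw [Finset.sum_mul]
    refine Finset.sum_congr rfl fun j _ => ?_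
    rw [expand_ind F (fun j => S.Ψ (sl x j)), Finset.mul_sum]
    refine Finset.sum_congr rfl fun w _ => ?_
    have h2 : ∏ i, (if i = j then (sm (sl x i) - S.μ (S.Ψ (sl x i))) *
        ind (S.Ψ (sl x i) = w i) else ind (S.Ψ (sl x i) = w i)) =
        (∏ i, (if i = j then (sm (sl x i) - S.μ (S.Ψ (sl x i))) else 1)) * ∏ i, ind (S.Ψ (sl x i) = w i) := by
      rw [← Finset.prod_mul_distrib]
      refine Finset.prod_congr rfl fun i _ => ?_
      split_ifs <;> ring
    rw [h2, Finset.prod_ite_eq' Finset.univ j, if_pos (Finset.mem_univ j)]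
    ring
  rw [h1, ex_sum]
  refine Finset.sum_eq_zero fun j _ => ?_
  rw [ex_sum]
  refine Finset.sum_eq_zero fun w _ => ?_
  rw [ex_mul_left]
  have h3 := ex_prod_sl (J := J) (ι := ι) (fun i ω => if i = j then (sm ω - S.μ (S.Ψ ω)) * ind (S.Ψ ω = w i)
    else ind (S.Ψ ω = w i))
  rw [h3, Finset.prod_eq_zero (Finset.mem_univ j), mul_zero]
  simp only [if_true]
  exact S.cal (fun y => ind (y = w j))

theorem device (k : ℕ) (hk : 2 ≤ k) (p0 : ℝ) (hp0 : 0 < p0) (L : ℕ) (hL : (1 - p0 ^ k) ^ L ≤ 1 / 16)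
    {ι Y : Type} [Fintype ι] [Fintype Y] (S : Scheme ι Y) (hV : 0 < S.V) (cl : Y → Fin k) (c : Fin k → ℝ)
    (hp : ∀ i, p0 ≤ ex (fun x => ind (cl (S.Ψ x) = i)))
    (hvar : ∑ i, ex (fun x => (S.μ (S.Ψ x) - c i) ^ 2 * ind (cl (S.Ψ x) = i)) /
        ex (fun x => ind (cl (S.Ψ x) = i)) ≤ 3 / 8 * S.V) :
    ∃ (ι' Y' : Type) (_ : Fintype ι') (_ : Fintype Y') (D : SScheme ι' Y'),
      D.Δ = (L * k + 1) * S.δ ∧ D.δ = S.δ ∧ ((L * k + 1 : ℝ) - 7 / 16) * S.V ≤ D.W ∧
        D.W ≤ (L * k + 1 : ℝ) * S.V := by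
  have hmu0 : ex (fun ω => S.μ (S.Ψ ω)) = 0 := by
    have h1 := S.cal (fun _ => 1)
    simp only [mul_one] at h1
    rw [ex_sub, ex_sm] at h1
    linarith
  have hpos : ∀ i, 0 < cp S.Ψ cl i := fun i => lt_of_lt_of_le hp0 (hp i)
  -- splitting of the centred sum
  have split : ∀ (G : (JJ L k → Y) → ℝ),
      ex (fun x : JJ L k × ι → ℤˣ => ((∑ j, S.μ (S.Ψ (sl x j))) -
        RR S.μ (cm S.Ψ S.μ cl) (sig cl (fun j => S.Ψ (sl x j)))) * G (fun j => S.Ψ (sl x j))) = 0 →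
      ex (fun x : JJ L k × ι → ℤˣ => (sm x -
        RR S.μ (cm S.Ψ S.μ cl) (sig cl (fun j => S.Ψ (sl x j)))) * G (fun j => S.Ψ (sl x j))) = 0 := by
    intro G hG
    have h1 := cal_symbols (J := JJ L k) S G
    have h2 : (fun x : JJ L k × ι → ℤˣ => (sm x -
        RR S.μ (cm S.Ψ S.μ cl) (sig cl (fun j => S.Ψ (sl x j)))) * G (fun j => S.Ψ (sl x j))) =
        fun x => (∑ j, (sm (sl x j) - S.μ (S.Ψ (sl x j)))) * G (fun j => S.Ψ (sl x j)) +
          ((∑ j, S.μ (S.Ψ (sl x j))) -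
        RR S.μ (cm S.Ψ S.μ cl) (sig cl (fun j => S.Ψ (sl x j)))) * G (fun j => S.Ψ (sl x j)) := by
      funext x
      rw [sm_sl, Finset.sum_sub_distrib]
      ring
    rw [h2, ex_add, h1, hG, add_zero]
  let D : SScheme (JJ L k × ι) (Sig L k Y) :=
    { σ := fun x => sig cl (fun j => S.Ψ (sl x j))
      E := fun x => sgn cl (fun j => S.Ψ (sl x j))
      R := RR S.μ (cm S.Ψ S.μ cl)
      Δ := (L * k + 1) * S.δ
      δ := S.δ
      η := 1 / 16
      hδ := Nat.le_mul_of_pos_left _ (Nat.succ_pos _)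
      hη0 := by norm_num
      hη1 := by norm_num
      degc := fun c => deg_sig S cl c
      degE := fun c => by
        have e : (L * k + 1) * S.δ - S.δ = L * k * S.δ := by
          rw [Nat.add_mul, one_mul, Nat.add_sub_cancel]
        rw [e]
        exact deg_sigE (by omega) S cl c
      cal := fun c => by
        apply split (fun y => c (sig cl y))
        have h := rr_cal (L := L) S.Ψ S.μ cl hmu0 hpos c
        rw [← h]
        exact ex_sl (J := JJ L k) (fun y => ((∑ j, S.μ (S.Ψ (y j))) - RR S.μ (cm S.Ψ S.μ cl)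
          (sig cl (fun j => S.Ψ (y j)))) * c (sig cl (fun j => S.Ψ (y j))))
      calE := fun c => by
        apply split (fun y => c (sig cl y) * val (sgn cl y))
        have h := rr_calE (L := L) S.Ψ S.μ cl hmu0 hpos c
        rw [← h]
        exact ex_sl (J := JJ L k) (fun y => ((∑ j, S.μ (S.Ψ (y j))) - RR S.μ (cm S.Ψ S.μ cl)
          (sig cl (fun j => S.Ψ (y j)))) * (c (sig cl (fun j => S.Ψ (y j))) * val (sgn cl (fun j => S.Ψ (y j)))))
      bal := by
        have h1 := rr_bal (L := L) hk S.Ψ cl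
        have h2 := bad_prob (L := L) S.Ψ cl p0 hp0 hp
        refine le_trans (le_of_eq ?_) (h1.trans (h2.trans hL))
        refine Finset.sum_congr rfl fun w _ => ?_
        congr 1
        exact ex_sl (J := JJ L k) (fun y => ind (sig cl (fun j => S.Ψ (y j)) = w) *
          val (sgn cl (fun j => S.Ψ (y j)))) }
  have hW : D.W = ex (fun y : JJ L k → (ι → ℤˣ) => (RR S.μ (cm S.Ψ S.μ cl) (sig cl (fun j => S.Ψ (y j)))) ^ 2) :=
    ex_sl (J := JJ L k) (fun y => (RR S.μ (cm S.Ψ S.μ cl) (sig cl (fun j => S.Ψ (y j)))) ^ 2)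
  refine ⟨JJ L k × ι, Sig L k Y, inferInstance, inferInstance, D, rfl, rfl, ?_, ?_⟩
  · rw [hW]
    exact rr_sq (L := L) S.Ψ S.μ cl hmu0 p0 hp0 hp hL S.V rfl c hvar
  · rw [hW]
    exact rr_sq_le (L := L) S.Ψ S.μ cl hmu0 hpos S.V rfl

end P047X
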