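import Vale.Agent.P047X.Pow
import Vale.Agent.P047X.Device
import Vale.Agent.P047X.Asm

/-!
Module BOOST: combine `good_power`, `device`, `assemble`; iterate. `l = L k + 1`, ratio
`(1-ε)(l - 7/16) V·2T / ((2T l - T) δ) = (V/δ) (1-ε)(l-7/16)/(l-1/2) ≥ (V/δ)(1+c)`.
-/

open scoped BigOperators
open Finset

namespace P047X

theorem boost : ∃ c : ℝ, 0 < c ∧ ∀ (ι Y : Type) [Fintype ι] [Fintype Y] (S : Scheme ι Y), 0 < S.V →
    ∃ (ι' Y' : Type) (_ : Fintype ι') (_ : Fintype Y') (S' : Scheme ι' Y'), 0 < S'.V ∧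
      (1 + c) * S.V * S'.δ ≤ S'.V * S.δ := by
  obtain ⟨k, p0, hk, hp0, H⟩ := good_power
  set p : ℝ := min p0 1 with hp
  have hp1 : p ≤ 1 := min_le_right _ _
  have hppos : 0 < p := lt_min hp0 one_pos
  have hpk : 0 < p ^ k := pow_pos hppos k
  have hpk1 : p ^ k ≤ 1 := pow_le_one₀ hppos.le hp1
  obtain ⟨L, hL⟩ := exists_pow_lt_of_lt_one (show (0 : ℝ) < 1 / 16 by norm_num) (show 1 - p ^ k < 1 by linarith)
  set l : ℝ := (L * k + 1 : ℝ) with hl
  have hl1 : 1 ≤ l := by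
    have : (0 : ℝ) ≤ (L : ℝ) * k := by positivity
    linarith
  have hlpos : 0 < l := by linarith
  set c : ℝ := 1 / (32 * l) with hc
  have hcpos : 0 < c := by positivity
  have hcl : c * l = 1 / 32 := by
    rw [hc]; field_simp
  have hc32 : c ≤ 1 / 32 := by nlinarith
  refine ⟨c, hcpos, ?_⟩
  intro ι Y _ _ S hV
  obtain ⟨m, cl, cc, hm, hP, hvar⟩ := H ι Y S hV
  have hV1 : 0 < (S.pow m).V := by
    rw [S.V_pow]
    have : (0 : ℝ) < m := by exact_mod_cast hm
    positivity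
  obtain ⟨ι', Y', i1, i2, D, hDΔ, hDδ, hW1, -⟩ := device k hk p hppos L hL.le (S.pow m) hV1 cl cc
    (fun i => (min_le_left _ _).trans (hP i)) hvar
  have hW : 0 < D.W := by
    refine lt_of_lt_of_le ?_ hW1
    have : 0 < l - 7 / 16 := by linarith
    positivity
  obtain ⟨ι'', Y'', i3, i4, S', T, hT, hδ', hV'⟩ := assemble D hW c hcpos
  refine ⟨ι'', Y'', i3, i4, S', ?_, ?_⟩
  · refine lt_of_lt_of_le ?_ hV'
    have h1 : (0 : ℝ) < T := by exact_mod_cast hT
    have h2 : 0 < 1 - c := by linarith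
    positivity
  · have hδr : (S'.δ : ℝ) = T * (2 * l - 1) * (m * S.δ) := by
      rw [hδ', hDΔ, hDδ]
      have hpow : (S.pow m).δ = m * S.δ := rfl
      rw [hpow]
      have hle : T * (m * S.δ) ≤ 2 * T * ((L * k + 1) * (m * S.δ)) := by
        nlinarith [Nat.zero_le (T * (m * S.δ)), Nat.zero_le (T * (m * S.δ) * (L * k))]
      rw [Nat.cast_sub hle]
      push_cast
      rw [hl]; ring
    have hVm : (S.pow m).V = m * S.V := S.V_pow m
    rw [hVm] at hW1
    have hTpos : (0 : ℝ) < T := by exact_mod_cast hT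
    have hmpos : (0 : ℝ) < m := by exact_mod_cast hm
    have hδ0 : (0 : ℝ) ≤ S.δ := Nat.cast_nonneg _
    rw [hδr]
    have e1 : (1 + c) * S.V * (T * (2 * l - 1) * (m * S.δ)) = (2 * T * (m * S.V) * S.δ) * ((1 + c) * (l - 1 / 2)) := by ring
    have e2 : (1 - c) * (2 * T * ((l - 7 / 16) * (m * S.V))) * S.δ = (2 * T * (m * S.V) * S.δ) * ((1 - c) * (l - 7 / 16)) := by ring
    have e3 : (1 + c) * (l - 1 / 2) ≤ (1 - c) * (l - 7 / 16) := by nlinarith
    calc (1 + c) * S.V * (T * (2 * l - 1) * (m * S.δ)) = (2 * T * (m * S.V) * S.δ) * ((1 + c) * (l - 1 / 2)) := e1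
      _ ≤ (2 * T * (m * S.V) * S.δ) * ((1 - c) * (l - 7 / 16)) := by
          apply mul_le_mul_of_nonneg_left e3; positivity
      _ = (1 - c) * (2 * T * ((l - 7 / 16) * (m * S.V))) * S.δ := e2.symm
      _ ≤ (1 - c) * (2 * T * D.W) * S.δ := by
          apply mul_le_mul_of_nonneg_right _ hδ0
          apply mul_le_mul_of_nonneg_left _ (by linarith)
          apply mul_le_mul_of_nonneg_left hW1 (by positivity)
      _ ≤ S'.V * S.δ := mul_le_mul_of_nonneg_right hV' hδ0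

theorem deg_zero_const {ι : Type} {f : (ι → ℤˣ) → ℝ} (h : Deg 0 f) (x y : ι → ℤˣ) : f x = f y := by
  unfold Deg at h
  induction h using Submodule.span_induction with
  | mem g hg =>
    obtain ⟨S, hS, hD⟩ := hg
    have : S = ∅ := by simpa using hS
    subst this
    exact hD x y (fun i hi => absurd hi (Finset.notMem_empty i))
  | zero => rfl
  | add g g' _ _ h1 h2 => simp only [Pi.add_apply]; rw [h1, h2]
  | smul a g _ h1 => simp only [Pi.smul_apply]; rw [h1]

theorem delta_pos {ι Y : Type} [Fintype ι] [Fintype Y] (S : Scheme ι Y) (hV : 0 < S.V) : 0 < S.δ := by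
  by_contra hcon
  have h0 : S.δ = 0 := by omega
  have hd := S.deg S.μ
  rw [h0] at hd
  have hcst : ∀ x y, S.μ (S.Ψ x) = S.μ (S.Ψ y) := deg_zero_const hd
  set x0 : ι → ℤˣ := fun _ => 1
  have h1 : ex (fun x => S.μ (S.Ψ x)) = 0 := S.ex_mu
  have h2 : (fun x => S.μ (S.Ψ x)) = fun _ => S.μ (S.Ψ x0) := by
    funext x; exact hcst x x0
  rw [h2, ex_const] at h1
  have h3 : S.V = 0 := by
    unfold Scheme.V
    have : (fun x => (S.μ (S.Ψ x)) ^ 2) = fun _ => (0 : ℝ) := by
      funext x; rw [hcst x x0, h1]; norm_num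
    rw [this, ex_const]
  linarith

/-- the one-bit scheme -/
theorem trivial_scheme : ∃ S : Scheme Unit ℤˣ, S.V = 1 ∧ S.δ = 1 := by
  refine ⟨{ Ψ := fun x => x ()
            μ := val
            δ := 1
            deg := fun c => Deg.of_dep (S := {()}) (by simp) (fun x y h => congrArg c (h () (by simp)))
            cal := fun c => ?_ }, ?_, rfl⟩
  · have : (fun x : Unit → ℤˣ => (sm x - val (x ())) * c (x ())) = fun _ => (0 : ℝ) := by
      funext x
      simp [sm]
    rw [this, ex_const]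
  · unfold Scheme.V
    have : (fun x : Unit → ℤˣ => (val (x ())) ^ 2) = fun _ => (1 : ℝ) := by
      funext x
      rcases Int.units_eq_one_or (x ()) with h | h <;> simp [val, h]
    simp only [this, ex_const]

theorem unbounded (R : ℝ) : ∃ (ι Y : Type) (_ : Fintype ι) (_ : Fintype Y) (S : Scheme ι Y), 0 < S.V ∧
    R * S.δ ≤ S.V := by
  obtain ⟨c, hc, H⟩ := boost
  have key : ∀ j : ℕ, ∃ (ι Y : Type) (_ : Fintype ι) (_ : Fintype Y) (S : Scheme ι Y), 0 < S.V ∧
      (1 + c) ^ j * S.δ ≤ S.V := by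
    intro j
    induction j with
    | zero =>
      obtain ⟨S, h1, h2⟩ := trivial_scheme
      exact ⟨Unit, ℤˣ, inferInstance, inferInstance, S, by rw [h1]; norm_num, by rw [h1, h2]; norm_num⟩
    | succ j ih =>
      obtain ⟨ι, Y, i1, i2, S, hV, hS⟩ := ih
      obtain ⟨ι', Y', i3, i4, S', hV', hS'⟩ := H ι Y S hV
      refine ⟨ι', Y', i3, i4, S', hV', ?_⟩
      have hδ : (0 : ℝ) < S.δ := by exact_mod_cast delta_pos S hV
      have h1 : (1 + c) ^ (j + 1) * S'.δ * S.δ ≤ S'.V * S.δ := by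
        calc (1 + c) ^ (j + 1) * S'.δ * S.δ = (1 + c) * ((1 + c) ^ j * S.δ) * S'.δ := by ring
          _ ≤ (1 + c) * S.V * S'.δ := by
            apply mul_le_mul_of_nonneg_right _ (Nat.cast_nonneg _)
            exact mul_le_mul_of_nonneg_left hS (by linarith)
          _ ≤ S'.V * S.δ := hS'
      exact le_of_mul_le_mul_right h1 hδ
  obtain ⟨j, hj⟩ := pow_unbounded_of_one_lt R (show 1 < 1 + c by linarith)
  obtain ⟨ι, Y, i1, i2, S, hV, hS⟩ := key j
  exact ⟨ι, Y, i1, i2, S, hV, (mul_le_mul_of_nonneg_right hj.le (Nat.cast_nonneg _)).trans hS⟩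

end P047X
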