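import Vale.Agent.P047X.Clt
import Vale.Agent.P047X.Gauss

/-!
Module CLASSES: absolute number `k` of classes and absolute lower bound `p0` of class probabilities such that for every
finite-valued mean-zero variance-one variable some normalized sum has a class map with small total within-class variance.
-/

open scoped BigOperators
open Finset Filter MeasureTheory ProbabilityTheory Topology

namespace P047X

theorem cls_ind_pos {p : Prop} (h : p) : ind p = 1 := by
  unfold ind
  rw [if_pos h]

theorem cls_ind_neg {p : Prop} (h : ¬ p) : ind p = 0 := by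
  unfold ind
  rw [if_neg h]

theorem cls_ind_nonneg (p : Prop) : 0 ≤ ind p := by
  by_cases h : p
  · rw [cls_ind_pos h]; norm_num
  · rw [cls_ind_neg h]

/-- `min 1 (R (s z - a)_+)` -/
theorem cls_tail_bump (a s : ℝ) (hs : s = 1 ∨ s = -1) :
    ∃ R : ℝ, 0 < R ∧ 0 < ∫ z, min 1 (R * max (s * z - a) 0) ∂(gaussianReal 0 1) ∧
      (∫ z, (if a < s * z then (1 : ℝ) else 0) ∂(gaussianReal 0 1)) ≤
        2 * ∫ z, min 1 (R * max (s * z - a) 0) ∂(gaussianReal 0 1) := by
  have hss : s * s = 1 := by
    rcases hs with rfl | rfl <;> norm_num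
  have hcont : ∀ R : ℝ, Continuous fun z : ℝ => min 1 (R * max (s * z - a) 0) := by
    intro R
    fun_prop
  have h0 : ∀ R : ℝ, 0 ≤ R → ∀ z : ℝ, 0 ≤ min 1 (R * max (s * z - a) 0) := by
    intro R hR z
    exact le_min zero_le_one (mul_nonneg hR (le_max_right _ _))
  have h1 : ∀ R z : ℝ, min 1 (R * max (s * z - a) 0) ≤ 1 := fun R z => min_le_left _ _
  have hpos : ∀ R : ℝ, 0 < R → 0 < ∫ z, min 1 (R * max (s * z - a) 0) ∂(gaussianReal 0 1) := by
    intro R hR
    refine gauss_pos _ (hcont R) (h0 R hR.le) 1 (h1 R) (s * (a + 1)) ?_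
    have : s * (s * (a + 1)) - a = 1 := by
      rw [← mul_assoc, hss]
      ring
    rw [this, max_eq_left zero_le_one, mul_one]
    exact lt_min one_pos hR
  have hle : ∀ R : ℝ, 0 ≤ R → ∀ z : ℝ,
      min 1 (R * max (s * z - a) 0) ≤ if a < s * z then (1 : ℝ) else 0 := by
    intro R hR z
    split_ifs with h
    · exact min_le_left _ _
    · rw [max_eq_right (by linarith), mul_zero]
      exact min_le_right _ _
  have hmeas : Measurable fun z : ℝ => if a < s * z then (1 : ℝ) else 0 := by
    apply Measurable.ite _ measurable_const measurable_const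
    exact measurableSet_lt measurable_const (by fun_prop)
  have hG : 0 < ∫ z, (if a < s * z then (1 : ℝ) else 0) ∂(gaussianReal 0 1) := by
    refine lt_of_lt_of_le (hpos 1 one_pos) ?_
    apply integral_mono_of_nonneg
    · exact Eventually.of_forall (h0 1 zero_le_one)
    · refine Integrable.mono' (integrable_const (1 : ℝ)) hmeas.aestronglyMeasurable ?_
      refine Eventually.of_forall fun z => ?_
      split_ifs <;> simp
    · exact Eventually.of_forall (hle 1 zero_le_one)
  have hlim : Tendsto (fun n : ℕ => ∫ z, min 1 ((n : ℝ) * max (s * z - a) 0) ∂(gaussianReal 0 1))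
      atTop (𝓝 (∫ z, (if a < s * z then (1 : ℝ) else 0) ∂(gaussianReal 0 1))) := by
    apply tendsto_integral_of_dominated_convergence (fun _ => (1 : ℝ))
    · intro n
      exact (hcont n).aestronglyMeasurable
    · exact integrable_const _
    · intro n
      refine Eventually.of_forall fun z => ?_
      rw [Real.norm_of_nonneg (h0 _ (by positivity) z)]
      exact h1 _ z
    · refine Eventually.of_forall fun z => ?_
      by_cases h : a < s * z
      · rw [if_pos h]
        apply tendsto_const_nhds.congr'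
        obtain ⟨N, hN⟩ := exists_nat_gt (1 / (s * z - a))
        filter_upwards [eventually_ge_atTop N] with n hn
        have hd : 0 < s * z - a := by linarith
        rw [max_eq_left hd.le, min_eq_left]
        have h3 : (1 / (s * z - a)) < (n : ℝ) := lt_of_lt_of_le hN (by exact_mod_cast hn)
        rw [div_lt_iff₀ hd] at h3
        exact h3.le
      · rw [if_neg h]
        apply tendsto_const_nhds.congr'
        refine Eventually.of_forall fun n => ?_
        show (0 : ℝ) = min 1 ((n : ℝ) * max (s * z - a) 0)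
        rw [max_eq_right (by linarith), mul_zero, min_eq_right zero_le_one]
  have hev := (hlim.eventually_const_lt (half_lt_self hG)).and (eventually_ge_atTop 1)
  obtain ⟨n, hn, hn1⟩ := hev.exists
  have hn0 : (0 : ℝ) < n := by exact_mod_cast hn1
  exact ⟨n, hn0, hpos n hn0, by linarith⟩

/-- abstract form -/
theorem cls_abs {κ : Type} [Fintype κ] [Nonempty κ] (cl : ℝ → κ) (c : κ → ℝ) (b : κ → ℝ → ℝ)
    (v : κ → ℝ) (hv0 : ∀ i, 0 ≤ v i) (hv : ∑ i, v i ≤ 3 / 8)
    (hbc : ∀ i, Continuous (b i)) (hb0 : ∀ i z, 0 ≤ b i z) (hb1 : ∀ i z, b i z ≤ 1)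
    (hbi : ∀ i z, b i z ≤ ind (cl z = i)) (hbp : ∀ i, ∃ z0, 0 < b i z0)
    (hAB : ∀ i, (∀ z, cl z = i → (z - c i) ^ 2 ≤ v i) ∨
      (∃ g : ℝ → ℝ, Continuous g ∧ (∀ z, |g z| ≤ 1 * (1 + z ^ 2)) ∧
        (∀ z, (z - c i) ^ 2 * ind (cl z = i) ≤ g z) ∧
        (∫ z, g z ∂(gaussianReal 0 1)) < v i * ∫ z, b i z ∂(gaussianReal 0 1))) :
    ∃ p0 : ℝ, 0 < p0 ∧
    ∀ (Ω : Type) [Finite Ω] [Nonempty Ω] (X : Ω → ℝ), ex X = 0 → ex (fun ω => (X ω) ^ 2) = 1 →
      ∃ m : ℕ, 1 ≤ m ∧
        (∀ i, p0 ≤ ex (fun y : Fin m → Ω => ind (cl (zn X m y) = i))) ∧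
        ∑ i, ex (fun y : Fin m → Ω => (zn X m y - c i) ^ 2 * ind (cl (zn X m y) = i)) /
            ex (fun y : Fin m → Ω => ind (cl (zn X m y) = i)) ≤ 3 / 8 := by
  have hB : ∀ i, 0 < ∫ z, b i z ∂(gaussianReal 0 1) := by
    intro i
    obtain ⟨z0, hz0⟩ := hbp i
    exact gauss_pos (b i) (hbc i) (hb0 i) 1 (hb1 i) z0 hz0
  obtain ⟨i0, _, hi0⟩ := Finset.exists_min_image (Finset.univ : Finset κ)
    (fun i => ∫ z, b i z ∂(gaussianReal 0 1)) Finset.univ_nonempty
  refine ⟨(∫ z, b i0 z ∂(gaussianReal 0 1)) / 2, half_pos (hB i0), ?_⟩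
  intro Ω _ _ X hX1 hX2
  have ev1 : ∀ᶠ m : ℕ in atTop, ∀ i, (∫ z, b i z ∂(gaussianReal 0 1)) / 2 <
      ex (fun y : Fin m → Ω => b i (zn X m y)) := by
    rw [eventually_all]
    intro i
    have h := clt X hX1 hX2 (b i) (hbc i) 1 (fun z => by
      rw [abs_of_nonneg (hb0 i z)]
      nlinarith [hb1 i z, sq_nonneg z])
    exact h.eventually_const_lt (half_lt_self (hB i))
  have ev2 : ∀ᶠ m : ℕ in atTop, ∀ i,
      (∀ z, cl z = i → (z - c i) ^ 2 ≤ v i) ∨
      (ex (fun y : Fin m → Ω => (zn X m y - c i) ^ 2 * ind (cl (zn X m y) = i)) ≤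
        v i * ex (fun y : Fin m → Ω => b i (zn X m y))) := by
    rw [eventually_all]
    intro i
    rcases hAB i with hA | ⟨g, hgc, hgb, hgi, hgint⟩
    · exact Eventually.of_forall fun m => Or.inl hA
    · have h1 := clt X hX1 hX2 g hgc 1 hgb
      have h2 := clt X hX1 hX2 (b i) (hbc i) 1 (fun z => by
        rw [abs_of_nonneg (hb0 i z)]
        nlinarith [hb1 i z, sq_nonneg z])
      have h3 := h2.const_mul (v i)
      have h4 := h1.eventually_lt h3 hgint
      filter_upwards [h4] with m hm
      right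
      calc ex (fun y : Fin m → Ω => (zn X m y - c i) ^ 2 * ind (cl (zn X m y) = i))
          ≤ ex (fun y : Fin m → Ω => g (zn X m y)) := ex_mono fun y => hgi _
        _ ≤ _ := hm.le
  obtain ⟨m, ⟨hm1, hm2⟩, hm3⟩ := ((ev1.and ev2).and (eventually_ge_atTop 1)).exists
  have hP : ∀ i, (∫ z, b i z ∂(gaussianReal 0 1)) / 2 <
      ex (fun y : Fin m → Ω => ind (cl (zn X m y) = i)) := fun i =>
    lt_of_lt_of_le (hm1 i) (ex_mono fun y => hbi i _)
  have hP0 : ∀ i, 0 < ex (fun y : Fin m → Ω => ind (cl (zn X m y) = i)) := fun i =>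
    lt_trans (half_pos (hB i)) (hP i)
  refine ⟨m, hm3, ?_, ?_⟩
  · intro i
    have := hi0 i (Finset.mem_univ _)
    exact le_trans (by linarith) (hP i).le
  · refine le_trans (Finset.sum_le_sum fun i _ => ?_) hv
    rw [div_le_iff₀ (hP0 i)]
    rcases hm2 i with hA | hBB
    · rw [← ex_mul_left]
      apply ex_mono
      intro y
      by_cases h : cl (zn X m y) = i
      · rw [cls_ind_pos h]
        simpa using hA _ h
      · rw [cls_ind_neg h]
        simp
    · refine hBB.trans (mul_le_mul_of_nonneg_left ?_ (hv0 i))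
      exact ex_mono fun y => hbi i _

theorem classes : ∃ (k : ℕ) (p0 : ℝ), 2 ≤ k ∧ 0 < p0 ∧
    ∀ (Ω : Type) [Finite Ω] [Nonempty Ω] (X : Ω → ℝ), ex X = 0 → ex (fun ω => (X ω) ^ 2) = 1 →
      ∃ (m : ℕ) (cl : ℝ → Fin k) (c : Fin k → ℝ), 1 ≤ m ∧
        (∀ i, p0 ≤ ex (fun y : Fin m → Ω => ind (cl (zn X m y) = i))) ∧
        ∑ i, ex (fun y : Fin m → Ω => (zn X m y - c i) ^ 2 * ind (cl (zn X m y) = i)) /
            ex (fun y : Fin m → Ω => ind (cl (zn X m y) = i)) ≤ 3 / 8 := by
  obtain ⟨a, ha, htail⟩ := gauss_tail (1 / 32) (by norm_num)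
  obtain ⟨n, hn⟩ := exists_nat_gt (32 * a ^ 2)
  have hn0 : (0 : ℝ) < n := lt_of_le_of_lt (by positivity) hn
  have hn1 : 0 < n := by exact_mod_cast hn0
  set h : ℝ := 2 * a / n with hh
  have hhp : 0 < h := by positivity
  have hnh : (n : ℝ) * h = 2 * a := by
    rw [hh]
    field_simp
  have hnhh : (n : ℝ) * h ^ 2 ≤ 1 / 8 := by
    have h1 : (n : ℝ) * h ^ 2 = 4 * a ^ 2 / n := by
      rw [hh]
      field_simp
      ring
    rw [h1, div_le_iff₀ hn0]
    linarith
  let sg : Bool → ℝ := fun t => if t then 1 else -1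
  have hsg : ∀ t, sg t = 1 ∨ sg t = -1 := by
    intro t
    cases t
    · right; simp [sg]
    · left; simp [sg]
  choose R hR hRpos hRle using fun t : Bool => cls_tail_bump a (sg t) (hsg t)
  let κ := Fin n ⊕ Bool
  let cl : ℝ → κ := fun z => if z < -a then Sum.inr false else if a ≤ z then Sum.inr true else
    Sum.inl ⟨min ⌊(z + a) / h⌋₊ (n - 1), by omega⟩
  let c : κ → ℝ := Sum.elim (fun i => -a + ((i : ℕ) + 1 / 2) * h) (fun t => sg t * a)
  let b : κ → ℝ → ℝ := Sum.elim
    (fun i z => max 0 (1 - |z - (-a + ((i : ℕ) + 1 / 2) * h)| * (2 / h)))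
    (fun t z => min 1 (R t * max (sg t * z - a) 0))
  let v : κ → ℝ := Sum.elim (fun _ => h ^ 2) (fun _ => 1 / 8)
  have hclmid : ∀ z, -a ≤ z → z < a → ∀ i : Fin n, (cl z = Sum.inl i ↔
      (((i : ℕ) : ℝ) * h ≤ z + a ∧ z + a < ((i : ℕ) + 1) * h)) := by
    intro z hz1 hz2 i
    have h1 : cl z = Sum.inl ⟨min ⌊(z + a) / h⌋₊ (n - 1), by omega⟩ := by
      simp only [cl]
      rw [if_neg (by linarith), if_neg (by linarith)]
    rw [h1]
    have hza : 0 ≤ (z + a) / h := div_nonneg (by linarith) hhp.le
    have h2 : ⌊(z + a) / h⌋₊ < n := by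
      rw [Nat.floor_lt hza, div_lt_iff₀ hhp, hnh]
      linarith
    have h3 : min ⌊(z + a) / h⌋₊ (n - 1) = ⌊(z + a) / h⌋₊ := min_eq_left (by omega)
    constructor
    · intro h4
      have h5 : ⌊(z + a) / h⌋₊ = (i : ℕ) := by
        have := congrArg Fin.val (Sum.inl_injective h4)
        simpa [h3] using this
      rw [Nat.floor_eq_iff hza] at h5
      rw [le_div_iff₀ hhp, div_lt_iff₀ hhp] at h5
      exact h5
    · rintro ⟨h4, h5⟩
      have h6 : ⌊(z + a) / h⌋₊ = (i : ℕ) := by
        rw [Nat.floor_eq_iff hza, le_div_iff₀ hhp, div_lt_iff₀ hhp]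
        exact ⟨h4, h5⟩
      congr 1
      apply Fin.ext
      show min ⌊(z + a) / h⌋₊ (n - 1) = (i : ℕ)
      rw [h3, h6]
  have habs := cls_abs (κ := κ) cl c b v ?_ ?_ ?_ ?_ ?_ ?_ ?_ ?_
  · obtain ⟨p0, hp0, H⟩ := habs
    let e : κ ≃ Fin (Fintype.card κ) := Fintype.equivFin κ
    refine ⟨Fintype.card κ, p0, ?_, hp0, ?_⟩
    · simp only [κ, Fintype.card_sum, Fintype.card_fin, Fintype.card_bool]
      omega
    · intro Ω _ _ X hX1 hX2
      obtain ⟨m, hm, hm1, hm2⟩ := H Ω X hX1 hX2
      refine ⟨m, fun z => e (cl z), fun i => c (e.symm i), hm, ?_, ?_⟩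
      · intro i
        have h1 := hm1 (e.symm i)
        simp only [← Equiv.eq_symm_apply]
        exact h1
      · have h1 := Equiv.sum_comp e.symm (fun i =>
          ex (fun y : Fin m → Ω => (zn X m y - c i) ^ 2 * ind (cl (zn X m y) = i)) /
            ex (fun y : Fin m → Ω => ind (cl (zn X m y) = i)))
        rw [← h1] at hm2
        simp only [← Equiv.eq_symm_apply]
        exact hm2
  · rintro (i | t)
    · exact sq_nonneg h
    · show (0 : ℝ) ≤ 1 / 8
      norm_num
  · rw [Fintype.sum_sum_type]
    have e1 : ∑ i : Fin n, v (Sum.inl i) = (n : ℝ) * h ^ 2 := by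
      show ∑ _i : Fin n, h ^ 2 = _
      simp
    have e2 : ∑ t : Bool, v (Sum.inr t) = 1 / 4 := by
      show ∑ _t : Bool, (1 / 8 : ℝ) = _
      simp
      norm_num
    rw [e1, e2]
    linarith
  · rintro (i | t)
    · show Continuous fun z : ℝ => max 0 (1 - |z - (-a + ((i : ℕ) + 1 / 2) * h)| * (2 / h))
      fun_prop
    · show Continuous fun z : ℝ => min 1 (R t * max (sg t * z - a) 0)
      fun_prop
  · rintro (i | t) z
    · exact le_max_left _ _
    · exact le_min zero_le_one (mul_nonneg (hR t).le (le_max_right _ _))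
  · rintro (i | t) z
    · refine max_le zero_le_one ?_
      have : 0 ≤ |z - (-a + ((i : ℕ) + 1 / 2) * h)| * (2 / h) := by positivity
      linarith
    · exact min_le_left _ _
  · rintro (i | t) z
    · show max 0 (1 - |z - (-a + ((i : ℕ) + 1 / 2) * h)| * (2 / h)) ≤ ind (cl z = Sum.inl i)
      refine max_le (cls_ind_nonneg _) ?_
      by_cases hz : |z - (-a + ((i : ℕ) + 1 / 2) * h)| < h / 2
      · rw [abs_lt] at hz
        have hi0 : (0 : ℝ) ≤ ((i : ℕ) : ℝ) := by positivity
        have hi1 : ((i : ℕ) : ℝ) + 1 ≤ n := by exact_mod_cast i.2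
        have k1 : ((i : ℕ) : ℝ) * h ≤ z + a := by linarith
        have k2 : z + a < (((i : ℕ) : ℝ) + 1) * h := by linarith
        have k3 : -a ≤ z := by
          have := mul_nonneg hi0 hhp.le
          linarith
        have k4 : z < a := by
          have := mul_le_mul_of_nonneg_right hi1 hhp.le
          linarith
        rw [cls_ind_pos ((hclmid z k3 k4 i).mpr ⟨k1, k2⟩)]
        have : 0 ≤ |z - (-a + ((i : ℕ) + 1 / 2) * h)| * (2 / h) := by positivity
        linarith
      · rw [not_lt] at hz
        have k1 : h / 2 * (2 / h) = 1 := by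
          field_simp
        have k2 := mul_le_mul_of_nonneg_right hz (by positivity : (0 : ℝ) ≤ 2 / h)
        rw [k1] at k2
        exact le_trans (by linarith) (cls_ind_nonneg _)
    · show min 1 (R t * max (sg t * z - a) 0) ≤ ind (cl z = Sum.inr t)
      by_cases hz : a < sg t * z
      · have : cl z = Sum.inr t := by
          cases t
          · have hz' : z < -a := by
              simp only [sg] at hz
              norm_num at hz
              linarith
            simp only [cl]
            rw [if_pos hz']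
          · have hz' : a < z := by
              simp only [sg] at hz
              norm_num at hz
              linarith
            simp only [cl]
            rw [if_neg (by linarith), if_pos hz'.le]
        rw [cls_ind_pos this]
        exact min_le_left _ _
      · rw [max_eq_right (by linarith), mul_zero]
        exact le_trans (min_le_right _ _) (cls_ind_nonneg _)
  · rintro (i | t)
    · refine ⟨-a + ((i : ℕ) + 1 / 2) * h, ?_⟩
      show 0 < max 0 (1 - |(-a + ((i : ℕ) + 1 / 2) * h) - (-a + ((i : ℕ) + 1 / 2) * h)| * (2 / h))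
      rw [sub_self, abs_zero, zero_mul]
      norm_num
    · refine ⟨sg t * (a + 1), ?_⟩
      show 0 < min 1 (R t * max (sg t * (sg t * (a + 1)) - a) 0)
      have hss : sg t * sg t = 1 := by
        rcases hsg t with h1 | h1 <;> rw [h1] <;> norm_num
      have : sg t * (sg t * (a + 1)) - a = 1 := by
        rw [← mul_assoc, hss]
        ring
      rw [this, max_eq_left zero_le_one, mul_one]
      exact lt_min one_pos (hR t)
  · rintro (i | t)
    · left
      intro z hz
      show (z - (-a + ((i : ℕ) + 1 / 2) * h)) ^ 2 ≤ h ^ 2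
      have hz1 : -a ≤ z := by
        by_contra hc
        simp only [cl] at hz
        rw [if_pos (by linarith)] at hz
        exact absurd hz (by simp)
      have hz2 : z < a := by
        by_contra hc
        simp only [cl] at hz
        rw [if_neg (by linarith), if_pos (by linarith)] at hz
        exact absurd hz (by simp)
      obtain ⟨k1, k2⟩ := (hclmid z hz1 hz2 i).mp hz
      have k3 : |z - (-a + ((i : ℕ) + 1 / 2) * h)| ≤ h := by
        rw [abs_le]
        constructor <;> linarith
      calc (z - (-a + ((i : ℕ) + 1 / 2) * h)) ^ 2 = |z - (-a + ((i : ℕ) + 1 / 2) * h)| ^ 2 :=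
            (sq_abs _).symm
        _ ≤ h ^ 2 := pow_le_pow_left₀ (abs_nonneg _) k3 2
    · right
      have hss : sg t * sg t = 1 := by
        rcases hsg t with h1 | h1 <;> rw [h1] <;> norm_num
      refine ⟨fun z => (max (sg t * z - a) 0) ^ 2, by fun_prop, ?_, ?_, ?_⟩
      · intro z
        rw [abs_of_nonneg (sq_nonneg _), one_mul]
        show (max (sg t * z - a) 0) ^ 2 ≤ 1 + z ^ 2
        have h5 : z ^ 2 = (sg t * z) ^ 2 := by
          rw [mul_pow, sq (sg t), hss, one_mul]
        rw [h5]
        rcases le_total (sg t * z - a) 0 with h6 | h6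
        · rw [max_eq_right h6]
          nlinarith [sq_nonneg (sg t * z)]
        · rw [max_eq_left h6]
          nlinarith
      · intro z
        show (z - sg t * a) ^ 2 * ind (cl z = Sum.inr t) ≤ (max (sg t * z - a) 0) ^ 2
        by_cases hz : cl z = Sum.inr t
        · rw [cls_ind_pos hz, mul_one]
          have h7 : a ≤ sg t * z := by
            by_contra hc
            cases t
            · have hc' : ¬ (z < -a) := by
                intro hc2
                apply hc
                show a ≤ (if (false = true) then (1 : ℝ) else -1) * z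
                rw [if_neg (by simp)]
                linarith
              simp only [cl] at hz
              rw [if_neg hc'] at hz
              by_cases h8 : a ≤ z
              · rw [if_pos h8] at hz
                exact absurd (Sum.inr.inj hz) (by decide)
              · rw [if_neg h8] at hz
                exact absurd hz (by simp)
            · have hc' : ¬ (a ≤ z) := by
                intro hc2
                apply hc
                show a ≤ (if (true = true) then (1 : ℝ) else -1) * z
                rw [if_pos rfl]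
                linarith
              simp only [cl] at hz
              by_cases h8 : z < -a
              · rw [if_pos h8] at hz
                exact absurd (Sum.inr.inj hz) (by decide)
              · rw [if_neg h8, if_neg hc'] at hz
                exact absurd hz (by simp)
          rw [max_eq_left (by linarith)]
          have h8 : (z - sg t * a) ^ 2 = (sg t * sg t) * (z - sg t * a) ^ 2 := by
            rw [hss, one_mul]
          rw [h8]
          have h9 : (sg t * sg t) * (z - sg t * a) ^ 2 = (sg t * z - (sg t * sg t) * a) ^ 2 := by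
            ring
          rw [h9, hss, one_mul]
        · rw [cls_ind_neg hz, mul_zero]
          exact sq_nonneg _
      · show (∫ z, (max (sg t * z - a) 0) ^ 2 ∂(gaussianReal 0 1)) <
          1 / 8 * ∫ z, min 1 (R t * max (sg t * z - a) 0) ∂(gaussianReal 0 1)
        have h1 := htail (sg t) (by
          rcases hsg t with h1 | h1 <;> rw [h1] <;> simp)
        have h2 := hRle t
        have h3 := hRpos t
        linarith

end P047X
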