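import Vale.Agent.P047X.Base

/-!
Module CLT: the central limit theorem for finite-valued variables with quadratically growing test functions.
-/

open scoped BigOperators
open Finset Filter MeasureTheory ProbabilityTheory Topology

namespace P047X

noncomputable section

/-- normalized sum -/
def zn {Ω : Type*} (X : Ω → ℝ) (m : ℕ) (y : Fin m → Ω) : ℝ := (Real.sqrt m)⁻¹ * ∑ j, X (y j)

/-- law of a real function on a finite type with the uniform measure -/
def lawOf {Λ : Type*} [Fintype Λ] (Z : Λ → ℝ) : Measure ℝ :=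
  ∑ y : Λ, ENNReal.ofReal ((Fintype.card Λ : ℝ)⁻¹) • Measure.dirac (Z y)

theorem lawOf_integral {Λ : Type*} [Fintype Λ] (Z : Λ → ℝ) {E : Type*} [NormedAddCommGroup E]
    [NormedSpace ℝ E] [CompleteSpace E] (f : ℝ → E) :
    ∫ x, f x ∂(lawOf Z) = (Fintype.card Λ : ℝ)⁻¹ • ∑ y, f (Z y) := by
  unfold lawOf
  rw [integral_finsetSum_measure]
  · rw [Finset.smul_sum]
    apply Finset.sum_congr rfl
    intro y _
    rw [integral_smul_measure, integral_dirac, ENNReal.toReal_ofReal (by positivity)]
  · intro y _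
    apply Integrable.smul_measure _ ENNReal.ofReal_ne_top
    exact integrable_dirac (by simp)

instance lawOf_prob {Λ : Type*} [Fintype Λ] [Nonempty Λ] (Z : Λ → ℝ) :
    IsProbabilityMeasure (lawOf Z) := by
  constructor
  unfold lawOf
  simp only [Measure.coe_finsetSum, Finset.sum_apply, Measure.smul_apply, measure_univ,
    smul_eq_mul, mul_one, Finset.sum_const, Finset.card_univ, nsmul_eq_mul]
  have h : (0 : ℝ) < Fintype.card Λ := by exact_mod_cast Fintype.card_pos
  rw [← ENNReal.ofReal_natCast, ← ENNReal.ofReal_mul h.le, mul_inv_cancel₀ h.ne',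
    ENNReal.ofReal_one]

theorem lawOf_ex {Λ : Type*} [Fintype Λ] (Z : Λ → ℝ) (f : ℝ → ℝ) :
    ∫ x, f x ∂(lawOf Z) = ex (fun y => f (Z y)) := by
  rw [lawOf_integral, ex_eq, smul_eq_mul, div_eq_inv_mul]

theorem lawOf_charFun {Ω : Type*} [Fintype Ω] [Nonempty Ω] (X : Ω → ℝ) (m : ℕ) (t : ℝ) :
    charFun (lawOf (zn X m)) t = (charFun (lawOf X) ((Real.sqrt m)⁻¹ * t)) ^ m := by
  rw [charFun_apply_real, charFun_apply_real, lawOf_integral, lawOf_integral]
  rw [Complex.real_smul, Complex.real_smul, mul_pow, Fintype.sum_pow]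
  have hc : ((((Fintype.card (Fin m → Ω) : ℝ)⁻¹ : ℝ)) : ℂ) =
      ((((Fintype.card Ω : ℝ)⁻¹ : ℝ)) : ℂ) ^ m := by
    rw [Fintype.card_fun, Fintype.card_fin]
    push_cast
    rw [inv_pow]
  rw [hc]
  congr 1
  apply Finset.sum_congr rfl
  intro y _
  rw [← Complex.exp_sum]
  congr 1
  unfold zn
  push_cast
  rw [Finset.mul_sum, Finset.mul_sum, Finset.sum_mul]
  apply Finset.sum_congr rfl
  intro j _
  ring

theorem lawOf_tendsto {Ω : Type*} [Fintype Ω] [Nonempty Ω] (X : Ω → ℝ) (h1 : ex X = 0)
    (h2 : ex (fun ω => (X ω) ^ 2) = 1) (f : ℝ → ℝ) (hf : Continuous f) (B : ℝ)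
    (hB : ∀ z, |f z| ≤ B) :
    Tendsto (fun m : ℕ => ex (fun y : Fin m → Ω => f (zn X m y))) atTop
      (𝓝 (∫ z, f z ∂(gaussianReal 0 1))) := by
  classical
  let μ : ℕ → ProbabilityMeasure ℝ := fun m => ⟨lawOf (zn X m), inferInstance⟩
  let μ₀ : ProbabilityMeasure ℝ := ⟨gaussianReal 0 1, inferInstance⟩
  have hμ : Tendsto μ atTop (𝓝 μ₀) := by
    rw [ProbabilityMeasure.tendsto_iff_tendsto_charFun]
    intro t
    have e1 : ∀ n : ℕ, charFun ((μ n : Measure ℝ)) t =
        (charFun (lawOf X) ((Real.sqrt n)⁻¹ * t)) ^ n := fun n => lawOf_charFun X n t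
    have e2 : charFun ((μ₀ : Measure ℝ)) t = Complex.exp (-t ^ 2 / 2) := by
      show charFun (gaussianReal 0 1) t = _
      rw [charFun_gaussianReal]
      congr 1
      simp
      ring
    rw [e2]
    simp_rw [e1]
    have h3 := tendsto_charFun_inv_sqrt_mul_pow (P := lawOf X) (X := id) aemeasurable_id
      (by
        have := lawOf_ex X (fun x => x)
        simp only [id]
        rw [this]
        exact h1)
      (by
        have := lawOf_ex X (fun x => x ^ 2)
        simp only [Pi.pow_apply, id]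
        rw [this]
        exact h2) t
    rw [Measure.map_id] at h3
    exact h3
  rw [ProbabilityMeasure.tendsto_iff_forall_integral_tendsto] at hμ
  have h4 := hμ (BoundedContinuousFunction.ofNormedAddCommGroup f hf B (fun z => by
    rw [Real.norm_eq_abs]
    exact hB z))
  simp only [BoundedContinuousFunction.coe_ofNormedAddCommGroup] at h4
  have e3 : ∀ m : ℕ, ex (fun y : Fin m → Ω => f (zn X m y)) = ∫ x, f x ∂(μ m : Measure ℝ) :=
    fun m => (lawOf_ex (zn X m) f).symm
  simp_rw [e3]
  exact h4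

theorem ex_zn_sq {Ω : Type*} [Finite Ω] [Nonempty Ω] (X : Ω → ℝ) (h1 : ex X = 0)
    (h2 : ex (fun ω => (X ω) ^ 2) = 1) (m : ℕ) (hm : 1 ≤ m) :
    ex (fun y : Fin m → Ω => (zn X m y) ^ 2) = 1 := by
  have hm0 : (0 : ℝ) < m := by exact_mod_cast hm
  have e1 : (fun y : Fin m → Ω => (zn X m y) ^ 2) =
      fun y => (m : ℝ)⁻¹ * (∑ j, X (y j)) ^ 2 := by
    funext y
    unfold zn
    rw [mul_pow, inv_pow, Real.sq_sqrt hm0.le]
  rw [e1, ex_mul_left, ex_sum_sq (fun _ => X) (fun _ => h1)]
  simp only [h2, Finset.sum_const, Finset.card_univ, Fintype.card_fin, nsmul_eq_mul, mul_one]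
  exact inv_mul_cancel₀ hm0.ne'

theorem clt_gauss_sq : ∫ z, z ^ 2 ∂(gaussianReal 0 1) = 1 := by
  have h1 : ∫ z, z ∂(gaussianReal 0 1) = 0 := integral_id_gaussianReal
  have h2 := variance_of_integral_eq_zero (μ := gaussianReal 0 1) (X := fun z : ℝ => z)
    aemeasurable_id h1
  rw [variance_fun_id_gaussianReal] at h2
  simpa using h2.symm

theorem clt_gauss_sq_integrable : Integrable (fun z : ℝ => z ^ 2) (gaussianReal 0 1) := by
  have h := (memLp_id_gaussianReal (μ := 0) (v := 1) 2).integrable_sq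
  simpa using h

theorem clt_trunc_tendsto :
    Tendsto (fun R : ℕ => ∫ z, min (z ^ 2) (R : ℝ) ∂(gaussianReal 0 1)) atTop (𝓝 1) := by
  rw [← clt_gauss_sq]
  apply tendsto_integral_of_dominated_convergence (fun z => z ^ 2)
  · intro R
    exact (by fun_prop : Continuous fun z : ℝ => min (z ^ 2) (R : ℝ)).aestronglyMeasurable
  · exact clt_gauss_sq_integrable
  · intro R
    refine Eventually.of_forall fun z => ?_
    rw [Real.norm_of_nonneg (le_min (sq_nonneg z) (by positivity))]
    exact min_le_left _ _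
  · refine Eventually.of_forall fun z => ?_
    apply tendsto_const_nhds.congr'
    obtain ⟨N, hN⟩ := exists_nat_ge (z ^ 2)
    filter_upwards [eventually_ge_atTop N] with R hR
    have : (N : ℝ) ≤ R := by exact_mod_cast hR
    rw [min_eq_left (by linarith)]

theorem clt {Ω : Type*} [Finite Ω] [Nonempty Ω] (X : Ω → ℝ) (h1 : ex X = 0) (h2 : ex (fun ω => (X ω) ^ 2) = 1)
    (g : ℝ → ℝ) (hg : Continuous g) (C : ℝ) (hC : ∀ z, |g z| ≤ C * (1 + z ^ 2)) :
    Tendsto (fun m : ℕ => ex (fun y : Fin m → Ω => g (zn X m y))) atTop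
      (𝓝 (∫ z, g z ∂(gaussianReal 0 1))) := by
  classical
  have : Fintype Ω := Fintype.ofFinite Ω
  have hC0 : 0 ≤ C := by
    have := hC 0
    have h3 := abs_nonneg (g 0)
    norm_num at this
    linarith
  rw [Metric.tendsto_atTop]
  intro ε hε
  -- truncation level
  have hR1 : Tendsto (fun R : ℕ => C * (1 - ∫ z, min (z ^ 2) (R : ℝ) ∂(gaussianReal 0 1)))
      atTop (𝓝 0) := by
    have := (clt_trunc_tendsto.const_sub 1).const_mul C
    simpa using this
  obtain ⟨R, hR⟩ := (hR1.eventually_lt_const (show (0 : ℝ) < ε / 4 by positivity)).exists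
  set B : ℝ := C * (1 + R) with hB
  have hB0 : 0 ≤ B := by positivity
  set gR : ℝ → ℝ := fun z => max (-B) (min B (g z)) with hgR
  have hgRc : Continuous gR := by
    rw [hgR]
    fun_prop
  have hgRb : ∀ z, |gR z| ≤ B := by
    intro z
    rw [abs_le]
    exact ⟨le_max_left _ _, max_le (by linarith) (min_le_left _ _)⟩
  set mR : ℝ → ℝ := fun z => min (z ^ 2) (R : ℝ) with hmR
  have hmRc : Continuous mR := by
    rw [hmR]
    fun_prop
  have hmRb : ∀ z, |mR z| ≤ R := by
    intro z
    rw [abs_of_nonneg (le_min (sq_nonneg z) (by positivity))]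
    exact min_le_right _ _
  have hdiff : ∀ z, |g z - gR z| ≤ C * (z ^ 2 - mR z) := by
    intro z
    have hz := hC z
    rw [abs_le] at hz
    rcases le_total (z ^ 2) (R : ℝ) with h | h
    · have e1 : mR z = z ^ 2 := min_eq_left h
      have hb : C * (1 + z ^ 2) ≤ B := mul_le_mul_of_nonneg_left (by linarith) hC0
      have e2 : gR z = g z := by
        show max (-B) (min B (g z)) = g z
        rw [min_eq_right (by linarith), max_eq_right (by linarith)]
      rw [e1, e2]
      simp
    · have e1 : mR z = R := min_eq_right h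
      rw [e1]
      have hb : B ≤ C * (1 + z ^ 2) := mul_le_mul_of_nonneg_left (by linarith) hC0
      have e3 : C * (z ^ 2 - R) = C * (1 + z ^ 2) - B := by
        rw [hB]
        ring
      rw [e3]
      show |g z - max (-B) (min B (g z))| ≤ _
      rcases le_total (g z) B with h5 | h5
      · rw [min_eq_right h5]
        rcases le_total (-B) (g z) with h6 | h6
        · rw [max_eq_right h6, sub_self, abs_zero]
          linarith
        · rw [max_eq_left h6, abs_le]
          constructor <;> linarith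
      · rw [min_eq_left h5, max_eq_right (by linarith), abs_le]
        constructor <;> linarith
  have hgint : Integrable g (gaussianReal 0 1) := by
    have hdom : Integrable (fun z : ℝ => C * (1 + z ^ 2)) (gaussianReal 0 1) :=
      ((integrable_const (1 : ℝ)).add clt_gauss_sq_integrable).const_mul C
    refine Integrable.mono' hdom hg.aestronglyMeasurable ?_
    exact Eventually.of_forall fun z => by
      rw [Real.norm_eq_abs]
      exact hC z
  have hgRint : Integrable gR (gaussianReal 0 1) := by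
    refine Integrable.mono' (integrable_const B) hgRc.aestronglyMeasurable ?_
    exact Eventually.of_forall fun z => by
      rw [Real.norm_eq_abs]
      exact hgRb z
  have hmRint : Integrable mR (gaussianReal 0 1) := by
    refine Integrable.mono' (integrable_const (R : ℝ)) hmRc.aestronglyMeasurable ?_
    exact Eventually.of_forall fun z => by
      rw [Real.norm_eq_abs]
      exact hmRb z
  have hγ : |(∫ z, g z ∂(gaussianReal 0 1)) - ∫ z, gR z ∂(gaussianReal 0 1)| ≤
      C * (1 - ∫ z, mR z ∂(gaussianReal 0 1)) := by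
    rw [← integral_sub hgint hgRint]
    refine (abs_integral_le_integral_abs).trans ?_
    have h3 : ∫ z, |g z - gR z| ∂(gaussianReal 0 1) ≤
        ∫ z, C * (z ^ 2 - mR z) ∂(gaussianReal 0 1) := by
      apply integral_mono (hgint.sub hgRint).abs
        ((clt_gauss_sq_integrable.sub hmRint).const_mul C)
      exact hdiff
    rw [integral_const_mul, integral_sub clt_gauss_sq_integrable hmRint, clt_gauss_sq] at h3
    exact h3
  have t1 := lawOf_tendsto X h1 h2 gR hgRc B hgRb
  have t2 := lawOf_tendsto X h1 h2 mR hmRc R hmRb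
  have t3 : Tendsto (fun m : ℕ => C * (1 - ex (fun y : Fin m → Ω => mR (zn X m y)))) atTop
      (𝓝 (C * (1 - ∫ z, mR z ∂(gaussianReal 0 1)))) := (t2.const_sub 1).const_mul C
  have ev3 := t3.eventually_lt_const hR
  have ev1 := (Metric.tendsto_atTop.mp t1) (ε / 4) (by positivity)
  obtain ⟨N1, hN1⟩ := ev1
  rw [eventually_atTop] at ev3
  obtain ⟨N3, hN3⟩ := ev3
  refine ⟨max 1 (max N1 N3), fun m hm => ?_⟩
  have hm1 : 1 ≤ m := le_trans (le_max_left _ _) hm
  have hmN1 : N1 ≤ m := le_trans (le_trans (le_max_left _ _) (le_max_right _ _)) hm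
  have hmN3 : N3 ≤ m := le_trans (le_trans (le_max_right _ _) (le_max_right _ _)) hm
  have a1 := hN1 m hmN1
  have a3 := hN3 m hmN3
  rw [Real.dist_eq] at a1 ⊢
  have a4 : |ex (fun y : Fin m → Ω => g (zn X m y)) - ex (fun y : Fin m → Ω => gR (zn X m y))| ≤
      C * (1 - ex (fun y : Fin m → Ω => mR (zn X m y))) := by
    rw [← ex_sub]
    refine (abs_ex_le_ex_abs _).trans ?_
    have h5 : ex (fun y : Fin m → Ω => |g (zn X m y) - gR (zn X m y)|) ≤
        ex (fun y : Fin m → Ω => C * ((zn X m y) ^ 2 - mR (zn X m y))) :=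
      ex_mono fun y => hdiff _
    rw [ex_mul_left, ex_sub, ex_zn_sq X h1 h2 m hm1] at h5
    exact h5
  rw [abs_lt] at a1 ⊢
  rw [abs_le] at a4 hγ
  constructor <;> linarith

end

end P047X
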