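import Mathlib

/-!
P047 (Gopalan–Servedio): definitions for the disproof. Paper proof: notes/P047_disproof.md
-/

open scoped BigOperators
open Finset Classical

namespace P047X

noncomputable section

/-- expectation over a finite type (uniform measure); no `Fintype` instance involved -/
def ex {Ω : Type*} (f : Ω → ℝ) : ℝ := (∑ᶠ x, f x) / (Nat.card Ω : ℝ)

/-- real value of a sign -/
def val (u : ℤˣ) : ℝ := ((u : ℤ) : ℝ)

/-- sum of the coordinates -/
def sm {ι : Type*} [Fintype ι] (x : ι → ℤˣ) : ℝ := ∑ i, val (x i)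

/-- `f` depends only on the coordinates in `S` -/
def Dep {ι : Type*} (S : Finset ι) (f : (ι → ℤˣ) → ℝ) : Prop :=
  ∀ x y : ι → ℤˣ, (∀ i ∈ S, x i = y i) → f x = f y

/-- degree at most `d`: linear combination of functions depending on at most `d` coordinates -/
def Deg {ι : Type*} (d : ℕ) (f : (ι → ℤˣ) → ℝ) : Prop :=
  f ∈ Submodule.span ℝ {g : (ι → ℤˣ) → ℝ | ∃ S : Finset ι, S.card ≤ d ∧ Dep S g}

/-- the `j`-th block of a point of `{±1}^{J × ι}` -/
def sl {J ι : Type*} (x : J × ι → ℤˣ) (j : J) : ι → ℤˣ := fun i => x (j, i)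

/-- indicator -/
def ind (p : Prop) : ℝ := if p then 1 else 0

/-- a scheme: a map of the cube to a finite alphabet all of whose functions have degree `≤ δ`,
with calibrated scores `μ` -/
structure Scheme (ι Y : Type) [Fintype ι] [Fintype Y] where
  Ψ : (ι → ℤˣ) → Y
  μ : Y → ℝ
  δ : ℕ
  deg : ∀ c : Y → ℝ, Deg δ (fun x => c (Ψ x))
  cal : ∀ c : Y → ℝ, ex (fun x => (sm x - μ (Ψ x)) * c (Ψ x)) = 0

/-- captured variance -/
def Scheme.V {ι Y : Type} [Fintype ι] [Fintype Y] (S : Scheme ι Y) : ℝ :=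
  ex (fun x => (S.μ (S.Ψ x)) ^ 2)

/-- a signed scheme (super-block): `σ` is the statistic, `E` the sign -/
structure SScheme (ι Y : Type) [Fintype ι] [Fintype Y] where
  σ : (ι → ℤˣ) → Y
  E : (ι → ℤˣ) → ℤˣ
  R : Y → ℝ
  Δ : ℕ
  δ : ℕ
  η : ℝ
  hδ : δ ≤ Δ
  hη0 : 0 ≤ η
  hη1 : η < 1
  degc : ∀ c : Y → ℝ, Deg Δ (fun x => c (σ x))
  degE : ∀ c : Y → ℝ, Deg (Δ - δ) (fun x => c (σ x) * val (E x))
  cal : ∀ c : Y → ℝ, ex (fun x => (sm x - R (σ x)) * c (σ x)) = 0
  calE : ∀ c : Y → ℝ, ex (fun x => (sm x - R (σ x)) * (c (σ x) * val (E x))) = 0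
  bal : ∑ y, |ex (fun x => ind (σ x = y) * val (E x))| ≤ η

/-- captured variance of a signed scheme -/
def SScheme.W {ι Y : Type} [Fintype ι] [Fintype Y] (S : SScheme ι Y) : ℝ :=
  ex (fun x => (S.R (S.σ x)) ^ 2)

end

end P047X
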