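import Vale.Agent.P047X.Base

/-!
Definitions of the super-block (section 2 of the notes): coordinates `J = Option (Fin L × Fin k)`; `some (l, j)` is the `j`-th coordinate of
block `l`, `none` is the extra coordinate.
-/

open scoped BigOperators
open Finset Classical

namespace P047X

noncomputable section

variable {Y : Type} {L k : ℕ}

/-- coordinates of a super-block -/
abbrev JJ (L k : ℕ) : Type := Option (Fin L × Fin k)

/-- block `l` is good: all classes distinct -/
def good (cl : Y → Fin k) (l : Fin L) (y : JJ L k → Y) : Prop :=
  Function.Injective (fun j : Fin k => cl (y (some (l, j))))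

/-- block `l` is the first good block -/
def isFirst (cl : Y → Fin k) (l : Fin L) (y : JJ L k → Y) : Prop :=
  good cl l y ∧ ∀ l' : Fin L, l' < l → ¬ good cl l' y

/-- no good block -/
def bad (cl : Y → Fin k) (y : JJ L k → Y) : Prop := ∀ l : Fin L, ¬ good cl l y

/-- the first good block, if any -/
def first (cl : Y → Fin k) (y : JJ L k → Y) : Option (Fin L) :=
  if h : ∃ l : Fin L, isFirst cl l y then some h.choose else none

/-- masked coordinates: block `l` if the first good block is `l`, the extra coordinate if there is none -/
def masked (o : Option (Fin L)) (j : JJ L k) : Prop :=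
  match o, j with
  | some l, some (l', _) => l' = l
  | none, none => True
  | _, _ => False

/-- type of the statistic -/
abbrev Sig (L k : ℕ) (Y : Type) : Type := Option (Fin L) × (JJ L k → Option Y)

/-- the statistic -/
def sig (cl : Y → Fin k) (y : JJ L k → Y) : Sig L k Y :=
  (first cl y, fun j => if masked (first cl y) j then none else some (y j))

/-- determinant sign function of block `l`; it is `0` unless the block is good, and then `±1` -/
def dt (cl : Y → Fin k) (l : Fin L) (y : JJ L k → Y) : ℝ :=
  Matrix.det (Matrix.of fun (i j : Fin k) => ind (cl (y (some (l, j))) = i))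

/-- the sign of the super-block -/
def sgn (cl : Y → Fin k) (y : JJ L k → Y) : ℤˣ :=
  match first cl y with
  | some l => if dt cl l y = 1 then 1 else -1
  | none => 1

/-- `E[s | σ]` ; `cb i` is the mean of class `i` -/
def RR (μ : Y → ℝ) (cb : Fin k → ℝ) (w : Sig L k Y) : ℝ :=
  (if w.1.isSome then ∑ i, cb i else 0) + ∑ j, (w.2 j).elim 0 μ

end

end P047X
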