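import Vale.Agent.P047X.DevDefs

/-!
Module DEVDEG: degree properties of the super-block, and basic facts on `first`, `dt`, `sgn`.
-/

open scoped BigOperators
open Finset Classical

namespace P047X

noncomputable section

variable {Y : Type} {L k : ℕ}

private theorem h91_isFirst_unique {cl : Y → Fin k} {y : JJ L k → Y} {l l' : Fin L}
    (h : isFirst cl l y) (h' : isFirst cl l' y) : l = l' := by
  rcases lt_trichotomy l l' with h1 | h1 | h1
  · exact absurd h.1 (h'.2 l h1)
  · exact h1
  · exact absurd h'.1 (h.2 l' h1)

theorem first_eq_some_iff (cl : Y → Fin k) (y : JJ L k → Y) (l : Fin L) :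
    first cl y = some l ↔ isFirst cl l y := by
  unfold first
  constructor
  · intro h
    split_ifs at h with h1
    have h2 : h1.choose = l := Option.some.inj h
    rw [← h2]
    exact h1.choose_spec
  · intro h
    have h1 : ∃ l : Fin L, isFirst cl l y := ⟨l, h⟩
    rw [dif_pos h1]
    exact congrArg some (h91_isFirst_unique h1.choose_spec h)

theorem first_eq_none_iff (cl : Y → Fin k) (y : JJ L k → Y) :
    first cl y = none ↔ bad cl y := by
  constructor
  · intro h l hl
    have hne : (Finset.univ.filter (fun l : Fin L => good cl l y)).Nonempty :=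
      ⟨l, Finset.mem_filter.2 ⟨Finset.mem_univ _, hl⟩⟩
    obtain ⟨l0, hl0, hmin⟩ := Finset.exists_min_image _ (fun l : Fin L => l) hne
    have hf : isFirst cl l0 y := by
      refine ⟨(Finset.mem_filter.1 hl0).2, ?_⟩
      intro l' hl' hg
      exact absurd (hmin l' (Finset.mem_filter.2 ⟨Finset.mem_univ _, hg⟩)) (not_le.2 hl')
    rw [(first_eq_some_iff cl y l0).2 hf] at h
    exact absurd h (by simp)
  · intro h
    cases hc : first cl y with
    | none => rfl
    | some l => exact absurd ((first_eq_some_iff cl y l).1 hc).1 (h l)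

private theorem h91_ind_true {p : Prop} (h : p) : ind p = 1 := if_pos h
private theorem h91_ind_false {p : Prop} (h : ¬ p) : ind p = 0 := if_neg h

/-- exactly one of the events holds -/
theorem first_partition (cl : Y → Fin k) (y : JJ L k → Y) :
    ind (bad cl y) + ∑ l, ind (isFirst cl l y) = 1 := by
  cases hc : first cl y with
  | none =>
    have hb := (first_eq_none_iff cl y).1 hc
    rw [h91_ind_true hb, Finset.sum_eq_zero, add_zero]
    intro l _
    exact h91_ind_false (fun h => hb l h.1)
  | some l =>
    have hl := (first_eq_some_iff cl y l).1 hc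
    rw [h91_ind_false (fun hb : bad cl y => hb l hl.1), Finset.sum_eq_single l, h91_ind_true hl, zero_add]
    · intro l' _ hne
      exact h91_ind_false (fun h => hne (h91_isFirst_unique h hl))
    · intro h; exact absurd (Finset.mem_univ l) h

theorem dt_eq_zero {cl : Y → Fin k} {l : Fin L} {y : JJ L k → Y} (h : ¬ good cl l y) : dt cl l y = 0 := by
  unfold good Function.Injective at h
  push Not at h
  obtain ⟨a, b, hab, hne⟩ := h
  unfold dt
  refine Matrix.det_zero_of_column_eq hne (fun i => ?_)
  simp only [Matrix.of_apply]
  rw [hab]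

theorem dt_expand (cl : Y → Fin k) (l : Fin L) (y : JJ L k → Y) :
    dt cl l y = ∑ π : Equiv.Perm (Fin k), ((Equiv.Perm.sign π : ℤ) : ℝ) *
      ∏ j, ind (cl (y (some (l, j))) = π j) := by
  unfold dt
  rw [Matrix.det_apply']
  rfl

private theorem h91_prod_ind {cl : Y → Fin k} {l : Fin L} {y : JJ L k → Y} (π : Equiv.Perm (Fin k)) :
    ∏ j, ind (cl (y (some (l, j))) = π j) = ind (∀ j, cl (y (some (l, j))) = π j) := by
  by_cases h : ∀ j, cl (y (some (l, j))) = π j
  · rw [h91_ind_true h]
    exact Finset.prod_eq_one (fun j _ => h91_ind_true (h j))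
  · rw [h91_ind_false h]
    push Not at h
    obtain ⟨j, hj⟩ := h
    exact Finset.prod_eq_zero (Finset.mem_univ j) (h91_ind_false hj)

private theorem h91_exists_perm {cl : Y → Fin k} {l : Fin L} {y : JJ L k → Y} (h : good cl l y) :
    ∃ π : Equiv.Perm (Fin k), ∀ j, cl (y (some (l, j))) = π j :=
  ⟨Equiv.ofBijective _ (Finite.injective_iff_bijective.1 h), fun j => rfl⟩

private theorem h91_perm_good {cl : Y → Fin k} {l : Fin L} {y : JJ L k → Y} {π : Equiv.Perm (Fin k)}
    (h : ∀ j, cl (y (some (l, j))) = π j) : good cl l y := by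
  intro a b hab
  have : π a = π b := by rw [← h a, ← h b]; exact hab
  exact π.injective this

theorem dt_good {cl : Y → Fin k} {l : Fin L} {y : JJ L k → Y} (h : good cl l y) :
    dt cl l y = 1 ∨ dt cl l y = -1 := by
  obtain ⟨π, hπ⟩ := h91_exists_perm h
  have h1 : dt cl l y = ((Equiv.Perm.sign π : ℤ) : ℝ) := by
    rw [dt_expand, Finset.sum_eq_single π]
    · rw [h91_prod_ind, h91_ind_true hπ, mul_one]
    · intro ρ _ hne
      rw [h91_prod_ind, h91_ind_false, mul_zero]
      intro hρ
      apply hne
      ext j
      rw [← hρ j, ← hπ j]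
    · intro h'; exact absurd (Finset.mem_univ π) h'
  rcases Int.units_eq_one_or (Equiv.Perm.sign π) with h2 | h2
  · left; rw [h1, h2]; simp
  · right; rw [h1, h2]; simp

theorem good_expand (cl : Y → Fin k) (l : Fin L) (y : JJ L k → Y) :
    ind (good cl l y) = ∑ π : Equiv.Perm (Fin k), ∏ j, ind (cl (y (some (l, j))) = π j) := by
  by_cases h : good cl l y
  · obtain ⟨π, hπ⟩ := h91_exists_perm h
    rw [h91_ind_true h, Finset.sum_eq_single π]
    · rw [h91_prod_ind, h91_ind_true hπ]
    · intro ρ _ hne
      rw [h91_prod_ind, h91_ind_false]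
      intro hρ
      apply hne
      ext j
      rw [← hρ j, ← hπ j]
    · intro h'; exact absurd (Finset.mem_univ π) h'
  · rw [h91_ind_false h]
    symm
    refine Finset.sum_eq_zero (fun π _ => ?_)
    rw [h91_prod_ind, h91_ind_false]
    exact fun hπ => h (h91_perm_good hπ)

private theorem h91_val_one : val 1 = 1 := by simp [val]
private theorem h91_val_neg_one : val (-1) = -1 := by simp [val]

theorem val_sgn (cl : Y → Fin k) (y : JJ L k → Y) :
    val (sgn cl y) = ind (bad cl y) + ∑ l, ind (isFirst cl l y) * dt cl l y := by
  cases hc : first cl y with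
  | none =>
    have hb := (first_eq_none_iff cl y).1 hc
    have h1 : sgn cl y = 1 := by unfold sgn; rw [hc]
    rw [h1, h91_val_one, h91_ind_true hb, Finset.sum_eq_zero, add_zero]
    intro l _
    rw [h91_ind_false (fun h : isFirst cl l y => hb l h.1), zero_mul]
  | some l =>
    have hl := (first_eq_some_iff cl y l).1 hc
    have h1 : sgn cl y = if dt cl l y = 1 then 1 else -1 := by unfold sgn; rw [hc]
    have h2 : val (sgn cl y) = dt cl l y := by
      rw [h1]
      rcases dt_good hl.1 with h | h
      · rw [if_pos h, h91_val_one, h]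
      · rw [if_neg (by rw [h]; norm_num), h91_val_neg_one, h]
    rw [h2, h91_ind_false (fun hb : bad cl y => hb l hl.1), Finset.sum_eq_single l, h91_ind_true hl, zero_add,
      one_mul]
    · intro l' _ hne
      rw [h91_ind_false (fun h => hne (h91_isFirst_unique h hl)), zero_mul]
    · intro h; exact absurd (Finset.mem_univ l) h

variable {ι : Type} [Fintype ι] [Fintype Y]

/-- degree of an arbitrary function of the coordinates in the image of `e` -/
private theorem h91_deg_fun {J' : Type} [Fintype J'] (S : Scheme ι Y) (e : J' → JJ L k)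
    (F : (J' → Y) → ℝ) :
    Deg (Fintype.card J' * S.δ) (fun x : JJ L k × ι → ℤˣ => F (fun j => S.Ψ (sl x (e j)))) := by
  have h1 : (fun x : JJ L k × ι → ℤˣ => F (fun j => S.Ψ (sl x (e j)))) =
      fun x => ∑ w : J' → Y, F w * ∏ j, ind (S.Ψ (sl x (e j)) = w j) := by
    funext x
    exact expand_ind F _
  rw [h1]
  refine Deg.sum _ (fun w _ => Deg.smul _ ?_)
  have h2 := Deg.prod (ι := JJ L k × ι) (Finset.univ : Finset J') (fun _ => S.δ)
    (f := fun j x => ind (S.Ψ (sl x (e j)) = w j))
    (fun j _ => Deg.sl (S.deg (fun y => ind (y = w j))) (e j))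
  simpa [Finset.sum_const, smul_eq_mul] using h2

theorem deg_sig (S : Scheme ι Y) (cl : Y → Fin k) (c : Sig L k Y → ℝ) :
    Deg ((L * k + 1) * S.δ) (fun x : JJ L k × ι → ℤˣ => c (sig cl (fun j => S.Ψ (sl x j)))) := by
  have h := h91_deg_fun (L := L) (k := k) S (fun j : JJ L k => j) (fun y => c (sig cl y))
  have hc : Fintype.card (JJ L k) = L * k + 1 := by simp
  rw [hc] at h
  exact h

/-- `dt` has degree `(k-1) δ` -/
private theorem h91_deg_dt (hk : 1 ≤ k) (S : Scheme ι Y) (cl : Y → Fin k) (l : Fin L) :
    Deg ((k - 1) * S.δ) (fun x : JJ L k × ι → ℤˣ => dt cl l (fun j => S.Ψ (sl x j))) := by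
  let i0 : Fin k := ⟨0, hk⟩
  have h1 : ∀ y : JJ L k → Y, dt cl l y = ∑ σ : Equiv.Perm (Fin k), ((Equiv.Perm.sign σ : ℤ) : ℝ) *
      ∏ j, (if σ j = i0 then (1 : ℝ) else ind (cl (y (some (l, j))) = σ j)) := by
    intro y
    unfold dt
    set M : Matrix (Fin k) (Fin k) ℝ := Matrix.of fun (i j : Fin k) => ind (cl (y (some (l, j))) = i) with hM
    have h2 : (M.updateRow i0 (∑ i, (1 : Fin k → ℝ) i • M i)).det = (1 : Fin k → ℝ) i0 • M.det :=
      Matrix.det_updateRow_sum M i0 1
    have h3 : (∑ i, (1 : Fin k → ℝ) i • M i) = fun _ => (1 : ℝ) := by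
      funext j
      rw [Finset.sum_apply]
      simp only [Pi.one_apply, one_smul]
      rw [Finset.sum_eq_single (cl (y (some (l, j))))]
      · exact h91_ind_true rfl
      · intro i _ hne
        exact h91_ind_false (fun h => hne h.symm)
      · intro h; exact absurd (Finset.mem_univ _) h
    rw [h3] at h2
    have h4 : M.det = (M.updateRow i0 (fun _ => (1 : ℝ))).det := by
      rw [h2]; simp
    rw [h4, Matrix.det_apply']
    refine Finset.sum_congr rfl (fun σ _ => ?_)
    congr 1
    refine Finset.prod_congr rfl (fun j _ => ?_)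
    rw [Matrix.updateRow_apply]
    rfl
  have h5 : (fun x : JJ L k × ι → ℤˣ => dt cl l (fun j => S.Ψ (sl x j))) =
      fun x => ∑ σ : Equiv.Perm (Fin k), ((Equiv.Perm.sign σ : ℤ) : ℝ) *
      ∏ j, (if σ j = i0 then (1 : ℝ) else ind (cl (S.Ψ (sl x (some (l, j)))) = σ j)) := by
    funext x
    exact h1 _
  rw [h5]
  refine Deg.sum _ (fun σ _ => Deg.smul _ ?_)
  have h6 := Deg.prod (ι := JJ L k × ι) (Finset.univ : Finset (Fin k)) (fun j => if σ j = i0 then 0 else S.δ)
    (f := fun j x => if σ j = i0 then (1 : ℝ) else ind (cl (S.Ψ (sl x (some (l, j)))) = σ j))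
    (fun j _ => by
      by_cases hj : σ j = i0
      · simp only [hj, if_true]
        exact Deg.const 0 1
      · simp only [hj, if_false]
        exact Deg.sl (S.deg (fun y => ind (cl y = σ j))) (some (l, j)))
  have h7 : ∑ j : Fin k, (if σ j = i0 then 0 else S.δ) = (k - 1) * S.δ := by
    rw [Equiv.sum_comp σ (fun i => if i = i0 then 0 else S.δ)]
    rw [← Finset.sum_filter_add_sum_filter_not Finset.univ (fun i => i = i0)]
    rw [Finset.sum_congr rfl (g := fun _ => 0) (fun i hi => if_pos (Finset.mem_filter.1 hi).2)]
    rw [Finset.sum_congr rfl (g := fun _ => S.δ) (fun i hi => if_neg (Finset.mem_filter.1 hi).2)]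
    rw [Finset.sum_const_zero, zero_add, Finset.sum_const, smul_eq_mul, Finset.filter_not,
      Finset.filter_eq' Finset.univ i0]
    simp [Finset.card_sdiff]
  rw [h7] at h6
  exact h6

private theorem h91_sig_none {cl : Y → Fin k} {y : JJ L k → Y} (h : first cl y = none) :
    sig cl y = (none, fun j => if masked (none : Option (Fin L)) j then none else some (y j)) := by
  unfold sig; rw [h]

private theorem h91_sig_some {cl : Y → Fin k} {y : JJ L k → Y} {l : Fin L} (h : first cl y = some l) :
    sig cl y = (some l, fun j => if masked (some l) j then none else some (y j)) := by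
  unfold sig; rw [h]

/-- decomposition of `c(sig) sgn` -/
private theorem h91_decomp (cl : Y → Fin k) (c : Sig L k Y → ℝ) (y : JJ L k → Y) :
    c (sig cl y) * val (sgn cl y) =
      ind (bad cl y) * c (none, fun j => if masked (none : Option (Fin L)) j then none else some (y j)) +
      ∑ l, (ind (∀ l' : Fin L, l' < l → ¬ good cl l' y) *
        c (some l, fun j => if masked (some l) j then none else some (y j))) * dt cl l y := by
  rw [val_sgn]
  cases hc : first cl y with
  | none =>
    have hb := (first_eq_none_iff cl y).1 hc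
    have e1 : ∑ l, ind (isFirst cl l y) * dt cl l y = 0 :=
      Finset.sum_eq_zero (fun l _ => by rw [dt_eq_zero (hb l), mul_zero])
    have e2 : ∑ l, (ind (∀ l' : Fin L, l' < l → ¬ good cl l' y) *
        c (some l, fun j => if masked (some l) j then none else some (y j))) * dt cl l y = 0 :=
      Finset.sum_eq_zero (fun l _ => by rw [dt_eq_zero (hb l), mul_zero])
    rw [e1, e2, h91_ind_true hb, h91_sig_none hc]
    ring
  | some l =>
    have hl := (first_eq_some_iff cl y l).1 hc
    have hb : ¬ bad cl y := fun hb => hb l hl.1
    have e1 : ∑ l', ind (isFirst cl l' y) * dt cl l' y = dt cl l y := by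
      rw [Finset.sum_eq_single l, h91_ind_true hl, one_mul]
      · intro l' _ hne
        rw [h91_ind_false (fun h => hne (h91_isFirst_unique h hl)), zero_mul]
      · intro h; exact absurd (Finset.mem_univ l) h
    have e2 : ∑ l', (ind (∀ l'' : Fin L, l'' < l' → ¬ good cl l'' y) *
        c (some l', fun j => if masked (some l') j then none else some (y j))) * dt cl l' y =
        c (some l, fun j => if masked (some l) j then none else some (y j)) * dt cl l y := by
      rw [Finset.sum_eq_single l, h91_ind_true hl.2, one_mul]
      · intro l' _ hne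
        by_cases hg : good cl l' y
        · rw [h91_ind_false, zero_mul, zero_mul]
          intro h
          exact hne (h91_isFirst_unique (⟨hg, h⟩ : isFirst cl l' y) hl)
        · rw [dt_eq_zero hg, mul_zero]
      · intro h; exact absurd (Finset.mem_univ l) h
    rw [e1, e2, h91_ind_false hb, h91_sig_some hc]
    ring

theorem deg_sigE (hk : 1 ≤ k) (S : Scheme ι Y) (cl : Y → Fin k) (c : Sig L k Y → ℝ) :
    Deg (L * k * S.δ) (fun x : JJ L k × ι → ℤˣ =>
      c (sig cl (fun j => S.Ψ (sl x j))) * val (sgn cl (fun j => S.Ψ (sl x j)))) := by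
  have h0 : (fun x : JJ L k × ι → ℤˣ =>
      c (sig cl (fun j => S.Ψ (sl x j))) * val (sgn cl (fun j => S.Ψ (sl x j)))) =
      fun x => ind (bad cl (fun j => S.Ψ (sl x j))) *
        c (none, fun j => if masked (none : Option (Fin L)) j then none else some (S.Ψ (sl x j))) +
      ∑ l, (ind (∀ l' : Fin L, l' < l → ¬ good cl l' (fun j => S.Ψ (sl x j))) *
        c (some l, fun j => if masked (some l) j then none else some (S.Ψ (sl x j)))) *
          dt cl l (fun j => S.Ψ (sl x j)) := by
    funext x
    exact h91_decomp cl c _
  rw [h0]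
  refine Deg.add ?_ (Deg.sum _ (fun l _ => ?_))
  · -- bad part
    have h := h91_deg_fun (L := L) (k := k) S (fun p : Fin L × Fin k => (some p : JJ L k))
      (fun w => ind (∀ l : Fin L, ¬ Function.Injective (fun j : Fin k => cl (w (l, j)))) *
        c (none, fun j => match j with
          | none => none
          | some p => some (w p)))
    have hc : Fintype.card (Fin L × Fin k) = L * k := by simp
    rw [hc] at h
    have h1 : (fun x : JJ L k × ι → ℤˣ => ind (bad cl (fun j => S.Ψ (sl x j))) *
        c (none, fun j => if masked (none : Option (Fin L)) j then none else some (S.Ψ (sl x j)))) =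
        fun x : JJ L k × ι → ℤˣ => (fun w : Fin L × Fin k → Y =>
          ind (∀ l : Fin L, ¬ Function.Injective (fun j : Fin k => cl (w (l, j)))) *
        c (none, fun j => match j with
          | none => none
          | some p => some (w p))) (fun p => S.Ψ (sl x (some p))) := by
      funext x
      have e : (fun j : JJ L k => if masked (none : Option (Fin L)) j then none else some (S.Ψ (sl x j))) =
          fun j => match j with
          | none => none
          | some p => some (S.Ψ (sl x (some p))) := by
        funext j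
        cases j with
        | none => simp [masked]
        | some p => simp [masked]
      show _ * c (none, _) = _ * c (none, _)
      rw [e]
      rfl
    rw [h1]
    exact h
  · -- part `l`
    have hl : 1 ≤ L := Nat.one_le_of_lt l.2
    let J' : Type := {j : JJ L k // ¬ masked (some l) j}
    have h := h91_deg_fun (L := L) (k := k) (J' := J') S (fun p => p.1)
      (fun w => ind (∀ l' : Fin L, ∀ hl' : l' < l, ¬ Function.Injective (fun j : Fin k => cl (w
          ⟨some (l', j), by simp only [masked]; exact ne_of_lt hl'⟩))) *
        c (some l, fun j => if hj : masked (some l) j then none else some (w ⟨j, hj⟩)))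
    have hc : Fintype.card J' = L * k + 1 - k := by
      have e1 : Fintype.card J' = Fintype.card (JJ L k) - Fintype.card {j : JJ L k // masked (some l) j} :=
        Fintype.card_subtype_compl _
      have e2 : Fintype.card {j : JJ L k // masked (some l) j} = k := by
        let e : Fin k ≃ {j : JJ L k // masked (some l) j} :=
          { toFun := fun j => ⟨some (l, j), by simp [masked]⟩
            invFun := fun p => match p with
              | ⟨some (_, j), _⟩ => j
              | ⟨none, h⟩ => absurd h (by simp [masked])
            left_inv := fun j => rfl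
            right_inv := fun p => by
              rcases p with ⟨_ | ⟨l', j⟩, h⟩
              · exact absurd h (by simp [masked])
              · have : l' = l := h
                subst this
                rfl }
        rw [← Fintype.card_congr e, Fintype.card_fin]
      rw [e1, e2]
      simp
    rw [hc] at h
    have h2 := Deg.mul h (h91_deg_dt hk S cl l)
    have hdeg : (L * k + 1 - k) * S.δ + (k - 1) * S.δ = L * k * S.δ := by
      rw [← Nat.add_mul]
      congr 1
      have : k ≤ L * k := Nat.le_mul_of_pos_left k hl
      omega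
    rw [hdeg] at h2
    have h3 : (fun x : JJ L k × ι → ℤˣ => (ind (∀ l' : Fin L, l' < l → ¬ good cl l' (fun j => S.Ψ (sl x j))) *
        c (some l, fun j => if masked (some l) j then none else some (S.Ψ (sl x j)))) *
          dt cl l (fun j => S.Ψ (sl x j))) =
        fun x : JJ L k × ι → ℤˣ => (fun w : J' → Y =>
          ind (∀ l' : Fin L, ∀ hl' : l' < l, ¬ Function.Injective (fun j : Fin k => cl (w
          ⟨some (l', j), by simp only [masked]; exact ne_of_lt hl'⟩))) *
        c (some l, fun j => if hj : masked (some l) j then none else some (w ⟨j, hj⟩)))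
          (fun p => S.Ψ (sl x p.1)) * dt cl l (fun j => S.Ψ (sl x j)) := by
      funext x
      congr 1
    rw [h3]
    exact h2

end

end P047X
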