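import Vale.Agent.P047X.DevDeg

/-!
Module DEVMOM1: expectations for the super-block (section 2 of the notes), for i.i.d. symbols.
Everything is stated for a finite probability space `Ω` and a symbol `T : Ω → Y` (later `Ω` = cube, `T = S.Ψ`), on `JJ L k → Ω`.
`P i = P(cl = i)`, `cb i` = mean of `μ` on class `i`.

* `rr_cal`, `rr_calE`: `∑_j μ(y_j) - R(sig)` is (good, first block `l`) `∑_{j in block l} μ(y_j) - ∑_i cb i`, (bad) `μ(y_none)`.
  Use `good_expand`, `dt_expand`: for each permutation `π` the factor `∏_j ind(cl y_j = π j)` and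
  `∑_j (μ(y_j) - cb (π j))` has mean zero, independent of everything outside block `l`; `isFirst l` = good l ∧ (event of blocks `< l`).
* `rr_bal`: on first block `l` the sum over permutations of the sign vanishes (`k ≥ 2`, swap two coordinates), so the sum is `≤ P(bad)`.
The variance statements `rr_sq`, `rr_sq_le` are in `DevMom2.lean`.
-/

open scoped BigOperators
open Finset Classical

namespace P047X

noncomputable section

variable {Y : Type} {L k : ℕ}

/-! ### pointwise facts -/

/-- view of everything outside the masked coordinates -/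
def ovw (o : Option (Fin L)) (v : JJ L k → Y) : Sig L k Y :=
  (o, fun j => if masked o j then none else some (v j))

theorem sig_of_first {cl : Y → Fin k} {l : Fin L} {v : JJ L k → Y} (h : isFirst cl l v) :
    sig cl v = ovw (some l) v := by
  unfold sig ovw
  rw [(first_eq_some_iff cl v l).2 h]

theorem sig_of_bad {cl : Y → Fin k} {v : JJ L k → Y} (h : bad cl v) :
    sig cl v = ovw none v := by
  unfold sig ovw
  rw [(first_eq_none_iff cl v).2 h]

theorem sgn_of_first {cl : Y → Fin k} {l : Fin L} {v : JJ L k → Y} (h : isFirst cl l v) :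
    val (sgn cl v) = dt cl l v := by
  unfold sgn
  rw [(first_eq_some_iff cl v l).2 h]
  change val (if dt cl l v = 1 then 1 else -1) = dt cl l v
  rcases dt_good h.1 with h1 | h1
  · rw [if_pos h1, h1]
    simp [val]
  · rw [if_neg (by rw [h1]; norm_num), h1]
    simp [val]

theorem sgn_of_bad {cl : Y → Fin k} {v : JJ L k → Y} (h : bad cl v) :
    val (sgn cl v) = 1 := by
  unfold sgn
  rw [(first_eq_none_iff cl v).2 h]
  simp [val]

theorem dif_none (μ : Y → ℝ) (cb : Fin k → ℝ) (v : JJ L k → Y) :
    (∑ j, μ (v j)) - RR μ cb (ovw none v) = μ (v none) := by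
  unfold RR ovw
  rw [Fintype.sum_option, Fintype.sum_option]
  simp [masked]

theorem dif_some (μ : Y → ℝ) (cb : Fin k → ℝ) (v : JJ L k → Y) (l : Fin L) :
    (∑ j, μ (v j)) - RR μ cb (ovw (some l) v) = (∑ j, μ (v (some (l, j)))) - ∑ i, cb i := by
  have hm : ∀ j : JJ L k, (if masked (some l) j then none else some (v j) : Option Y).elim 0 μ =
      μ (v j) - (if masked (some l) j then μ (v j) else 0) := by
    intro j
    split_ifs <;> simp
  have hs : ∑ j : JJ L k, (if masked (some l) j then μ (v j) else 0) = ∑ j, μ (v (some (l, j))) := by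
    have h1 : (if masked (some l) (none : JJ L k) then μ (v none) else 0) = 0 := if_neg (fun h => h)
    rw [Fintype.sum_option, Fintype.sum_prod_type, h1, zero_add]
    rw [Finset.sum_eq_single l]
    · exact Finset.sum_congr rfl fun j _ => if_pos rfl
    · intro x _ hx
      exact Finset.sum_eq_zero fun j _ => if_neg hx
    · intro h
      exact absurd (Finset.mem_univ l) h
  have hR : RR μ cb (ovw (some l) v) = (∑ i, cb i) +
      ∑ j : JJ L k, (if masked (some l) j then none else some (v j) : Option Y).elim 0 μ := by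
    unfold RR ovw
    simp
  rw [hR, Finset.sum_congr rfl fun j _ => hm j, Finset.sum_sub_distrib, hs]
  ring

theorem ind_mul_congr {p : Prop} {a b : ℝ} (h : p → a = b) : ind p * a = ind p * b := by
  unfold ind
  split_ifs with hp
  · rw [h hp]
  · simp

theorem ind_and (p q : Prop) : ind (p ∧ q) = ind p * ind q := by
  unfold ind
  by_cases hp : p <;> by_cases hq : q <;> simp [hp, hq]

/-- decomposition of a function of the super-block -/
theorem dm_split (cl : Y → Fin k) (v : JJ L k → Y) (F F0 : ℝ) (F1 : Fin L → ℝ)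
    (h0 : bad cl v → F = F0) (h1 : ∀ l, isFirst cl l v → F = F1 l) :
    F = ind (bad cl v) * F0 + ∑ l, ind (isFirst cl l v) * F1 l := by
  calc F = (ind (bad cl v) + ∑ l, ind (isFirst cl l v)) * F := by rw [first_partition, one_mul]
    _ = ind (bad cl v) * F + ∑ l, ind (isFirst cl l v) * F := by rw [add_mul, Finset.sum_mul]
    _ = _ := by
      rw [ind_mul_congr h0]
      congr 1
      exact Finset.sum_congr rfl fun l _ => ind_mul_congr (h1 l)

/-- the event `no good block before l` -/
def nob (cl : Y → Fin k) (l : Fin L) (v : JJ L k → Y) : Prop := ∀ l' : Fin L, l' < l → ¬ good cl l' v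

theorem ind_isFirst (cl : Y → Fin k) (l : Fin L) (v : JJ L k → Y) :
    ind (isFirst cl l v) = ind (good cl l v) * ind (nob cl l v) := by
  rw [← ind_and]
  rfl

theorem good_congr {cl : Y → Fin k} {l' : Fin L} {v v' : JJ L k → Y}
    (h : ∀ i, v (some (l', i)) = v' (some (l', i))) : good cl l' v ↔ good cl l' v' := by
  unfold good
  simp only [h]

theorem nob_congr {cl : Y → Fin k} {l : Fin L} {v v' : JJ L k → Y}
    (h : ∀ j : JJ L k, (∀ i, j ≠ some (l, i)) → v j = v' j) : nob cl l v ↔ nob cl l v' := by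
  unfold nob
  refine forall_congr' fun l' => forall_congr' fun hl => not_congr (good_congr fun i => h _ fun i' e => ?_)
  simp only [Option.some.injEq, Prod.mk.injEq] at e
  exact absurd e.1 (ne_of_lt hl)

theorem ovw_congr {l : Fin L} {v v' : JJ L k → Y}
    (h : ∀ j : JJ L k, (∀ i, j ≠ some (l, i)) → v j = v' j) : ovw (some l) v = ovw (some l) v' := by
  unfold ovw
  congr 1
  funext j
  by_cases hj : masked (some l) j
  · rw [if_pos hj, if_pos hj]
  · rw [if_neg hj, if_neg hj, h j]
    intro i e
    subst e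
    exact hj rfl

theorem ovw_congr_none {v v' : JJ L k → Y}
    (h : ∀ j : JJ L k, j ≠ none → v j = v' j) : ovw none v = ovw none v' := by
  unfold ovw
  congr 1
  funext j
  cases j with
  | none => simp [masked]
  | some a => simp [masked, h (some a) (by simp)]

theorem bad_congr {cl : Y → Fin k} {v v' : JJ L k → Y}
    (h : ∀ j : JJ L k, j ≠ none → v j = v' j) : bad cl v ↔ bad cl v' := by
  unfold bad
  refine forall_congr' fun l' => not_congr (good_congr fun i => h _ (by simp))

variable [Fintype Y] {Ω : Type} [Finite Ω] [Nonempty Ω]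

/-- class probability -/
def cp (T : Ω → Y) (cl : Y → Fin k) (i : Fin k) : ℝ := ex (fun ω => ind (cl (T ω) = i))

/-- class mean -/
def cm (T : Ω → Y) (μ : Y → ℝ) (cl : Y → Fin k) (i : Fin k) : ℝ :=
  ex (fun ω => μ (T ω) * ind (cl (T ω) = i)) / cp T cl i

omit [Fintype Y] in
/-- the centred sum over a good block is orthogonal to everything outside the block, for each permutation -/
theorem dm_block (T : Ω → Y) (μ : Y → ℝ) (cl : Y → Fin k) (hp : ∀ i, 0 < cp T cl i) (l : Fin L)
    (a : Equiv.Perm (Fin k) → ℝ) (G : (JJ L k → Ω) → ℝ)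
    (hG : ∀ y y' : JJ L k → Ω, (∀ j : JJ L k, (∀ i, j ≠ some (l, i)) → y j = y' j) → G y = G y') :
    ex (fun y : JJ L k → Ω => ((∑ j, μ (T (y (some (l, j))))) - ∑ i, cm T μ cl i) *
      ((∑ π, a π * ∏ j, ind (cl (T (y (some (l, j)))) = π j)) * G y)) = 0 := by
  have e : (fun y : JJ L k → Ω => ((∑ j, μ (T (y (some (l, j))))) - ∑ i, cm T μ cl i) *
      ((∑ π, a π * ∏ j, ind (cl (T (y (some (l, j)))) = π j)) * G y)) =
      fun y => ∑ π : Equiv.Perm (Fin k), ∑ j0 : Fin k,
        ((fun ω => (μ (T ω) - cm T μ cl (π j0)) * ind (cl (T ω) = π j0)) (y (some (l, j0)))) *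
          ((a π * ∏ j ∈ Finset.univ.erase j0, ind (cl (T (y (some (l, j)))) = π j)) * G y) := by
    funext y
    rw [Finset.sum_mul, Finset.mul_sum]
    refine Finset.sum_congr rfl fun π _ => ?_
    have h1 : ∑ i, cm T μ cl i = ∑ j, cm T μ cl (π j) := (Equiv.sum_comp π (cm T μ cl)).symm
    rw [h1, ← Finset.sum_sub_distrib, Finset.sum_mul]
    refine Finset.sum_congr rfl fun j0 _ => ?_
    rw [← Finset.mul_prod_erase Finset.univ _ (Finset.mem_univ j0)]
    ring
  rw [e, ex_sum]
  refine Finset.sum_eq_zero fun π _ => ?_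
  rw [ex_sum]
  refine Finset.sum_eq_zero fun j0 _ => ?_
  refine ex_eval_mul_indep (Ω := Ω) (J := JJ L k) (some (l, j0))
    (fun ω => (μ (T ω) - cm T μ cl (π j0)) * ind (cl (T ω) = π j0)) ?_ _ ?_
  · have e2 : (fun ω => (μ (T ω) - cm T μ cl (π j0)) * ind (cl (T ω) = π j0)) =
        fun ω => μ (T ω) * ind (cl (T ω) = π j0) - cm T μ cl (π j0) * ind (cl (T ω) = π j0) := by
      funext ω
      ring
    rw [e2, ex_sub, ex_mul_left]
    have h3 := (hp (π j0)).ne'
    change _ - cm T μ cl (π j0) * cp T cl (π j0) = 0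
    unfold cm
    rw [div_mul_cancel₀ _ h3]
    ring
  · intro y y' hy
    have h1 : G y = G y' := hG y y' fun j hj => hy j (hj j0)
    rw [h1]
    congr 2
    refine Finset.prod_congr rfl fun j hj => ?_
    rw [hy (some (l, j)) ?_]
    intro e3
    simp only [Option.some.injEq, Prod.mk.injEq, true_and] at e3
    exact (Finset.ne_of_mem_erase hj) e3

omit [Fintype Y] in
theorem rr_cal (T : Ω → Y) (μ : Y → ℝ) (cl : Y → Fin k) (h0 : ex (fun ω => μ (T ω)) = 0) (hp : ∀ i, 0 < cp T cl i)
    (c : Sig L k Y → ℝ) :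
    ex (fun y : JJ L k → Ω => ((∑ j, μ (T (y j))) - RR μ (cm T μ cl) (sig cl (fun j => T (y j)))) *
      c (sig cl (fun j => T (y j)))) = 0 := by
  have e : (fun y : JJ L k → Ω => ((∑ j, μ (T (y j))) - RR μ (cm T μ cl) (sig cl (fun j => T (y j)))) *
      c (sig cl (fun j => T (y j)))) = fun y =>
      (fun ω => μ (T ω)) (y none) * (ind (bad cl (fun j => T (y j))) * c (ovw none (fun j => T (y j)))) +
      ∑ l, ((∑ j, μ (T (y (some (l, j))))) - ∑ i, cm T μ cl i) *
      ((∑ π : Equiv.Perm (Fin k), (fun _ => (1 : ℝ)) π * ∏ j, ind (cl (T (y (some (l, j)))) = π j)) *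
        (ind (nob cl l (fun j => T (y j))) * c (ovw (some l) (fun j => T (y j))))) := by
    funext y
    rw [dm_split cl (fun j => T (y j)) (((∑ j, μ (T (y j))) - RR μ (cm T μ cl) (sig cl (fun j => T (y j)))) *
      c (sig cl (fun j => T (y j)))) (μ (T (y none)) * c (ovw none (fun j => T (y j))))
      (fun l => ((∑ j, μ (T (y (some (l, j))))) - ∑ i, cm T μ cl i) * c (ovw (some l) (fun j => T (y j))))]
    · congr 1
      · ring
      · refine Finset.sum_congr rfl fun l _ => ?_
        rw [ind_isFirst, good_expand]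
        simp only [one_mul]
        ring
    · intro hb
      rw [sig_of_bad hb, dif_none μ (cm T μ cl) (fun j => T (y j))]
    · intro l hl
      rw [sig_of_first hl, dif_some μ (cm T μ cl) (fun j => T (y j)) l]
  rw [e, ex_add, ex_sum, ex_eval_mul_indep none _ h0, zero_add]
  · refine Finset.sum_eq_zero fun l _ => ?_
    refine dm_block T μ cl hp l (fun _ => 1) _ ?_
    intro y y' hy
    have h2 : ∀ j : JJ L k, (∀ i, j ≠ some (l, i)) → T (y j) = T (y' j) := fun j hj => by rw [hy j hj]
    rw [ovw_congr h2, show nob cl l (fun j => T (y j)) = nob cl l (fun j => T (y' j)) from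
      propext (nob_congr h2)]
  · intro y y' hy
    have h2 : ∀ j : JJ L k, j ≠ none → T (y j) = T (y' j) := fun j hj => by rw [hy j hj]
    rw [ovw_congr_none h2, show bad cl (fun j => T (y j)) = bad cl (fun j => T (y' j)) from
      propext (bad_congr h2)]

omit [Fintype Y] in
theorem rr_calE (T : Ω → Y) (μ : Y → ℝ) (cl : Y → Fin k) (h0 : ex (fun ω => μ (T ω)) = 0) (hp : ∀ i, 0 < cp T cl i)
    (c : Sig L k Y → ℝ) :
    ex (fun y : JJ L k → Ω => ((∑ j, μ (T (y j))) - RR μ (cm T μ cl) (sig cl (fun j => T (y j)))) *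
      (c (sig cl (fun j => T (y j))) * val (sgn cl (fun j => T (y j))))) = 0 := by
  have e : (fun y : JJ L k → Ω => ((∑ j, μ (T (y j))) - RR μ (cm T μ cl) (sig cl (fun j => T (y j)))) *
      (c (sig cl (fun j => T (y j))) * val (sgn cl (fun j => T (y j))))) = fun y =>
      (fun ω => μ (T ω)) (y none) * (ind (bad cl (fun j => T (y j))) * c (ovw none (fun j => T (y j)))) +
      ∑ l, ((∑ j, μ (T (y (some (l, j))))) - ∑ i, cm T μ cl i) *
      ((∑ π : Equiv.Perm (Fin k), (fun π => ((Equiv.Perm.sign π : ℤ) : ℝ)) π *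
        ∏ j, ind (cl (T (y (some (l, j)))) = π j)) *
        (ind (nob cl l (fun j => T (y j))) * c (ovw (some l) (fun j => T (y j))))) := by
    funext y
    rw [dm_split cl (fun j => T (y j)) (((∑ j, μ (T (y j))) - RR μ (cm T μ cl) (sig cl (fun j => T (y j)))) *
      (c (sig cl (fun j => T (y j))) * val (sgn cl (fun j => T (y j)))))
      (μ (T (y none)) * c (ovw none (fun j => T (y j))))
      (fun l => ((∑ j, μ (T (y (some (l, j))))) - ∑ i, cm T μ cl i) *
        (dt cl l (fun j => T (y j)) * c (ovw (some l) (fun j => T (y j)))))]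
    · congr 1
      · ring
      · refine Finset.sum_congr rfl fun l _ => ?_
        have h3 : ind (isFirst cl l (fun j => T (y j))) * dt cl l (fun j => T (y j)) =
            dt cl l (fun j => T (y j)) * ind (nob cl l (fun j => T (y j))) := by
          rw [ind_isFirst]
          by_cases hg : good cl l (fun j => T (y j))
          · have : ind (good cl l (fun j => T (y j))) = 1 := if_pos hg
            rw [this]
            ring
          · rw [dt_eq_zero hg]
            ring
        have h4 : dt cl l (fun j => T (y j)) = ∑ π : Equiv.Perm (Fin k), (fun π => ((Equiv.Perm.sign π : ℤ) : ℝ)) π *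
            ∏ j, ind (cl (T (y (some (l, j)))) = π j) := dt_expand cl l (fun j => T (y j))
        rw [← h4]
        calc ind (isFirst cl l (fun j => T (y j))) * (((∑ j, μ (T (y (some (l, j))))) - ∑ i, cm T μ cl i) *
              (dt cl l (fun j => T (y j)) * c (ovw (some l) (fun j => T (y j))))) =
            ((∑ j, μ (T (y (some (l, j))))) - ∑ i, cm T μ cl i) *
              ((ind (isFirst cl l (fun j => T (y j))) * dt cl l (fun j => T (y j))) *
                c (ovw (some l) (fun j => T (y j)))) := by ring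
          _ = _ := by
            rw [h3]
            ring
    · intro hb
      rw [sig_of_bad hb, dif_none μ (cm T μ cl) (fun j => T (y j)), sgn_of_bad hb, mul_one]
    · intro l hl
      rw [sig_of_first hl, dif_some μ (cm T μ cl) (fun j => T (y j)) l, sgn_of_first hl]
      ring
  rw [e, ex_add, ex_sum, ex_eval_mul_indep none _ h0, zero_add]
  · refine Finset.sum_eq_zero fun l _ => ?_
    refine dm_block T μ cl hp l (fun π => ((Equiv.Perm.sign π : ℤ) : ℝ)) _ ?_
    intro y y' hy
    have h2 : ∀ j : JJ L k, (∀ i, j ≠ some (l, i)) → T (y j) = T (y' j) := fun j hj => by rw [hy j hj]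
    rw [ovw_congr h2, show nob cl l (fun j => T (y j)) = nob cl l (fun j => T (y' j)) from
      propext (nob_congr h2)]
  · intro y y' hy
    have h2 : ∀ j : JJ L k, j ≠ none → T (y j) = T (y' j) := fun j hj => by rw [hy j hj]
    rw [ovw_congr_none h2, show bad cl (fun j => T (y j)) = bad cl (fun j => T (y' j)) from
      propext (bad_congr h2)]

omit [Fintype Y] in
theorem ex_snd {A B : Type} [Finite A] [Nonempty A] [Finite B] (F : B → ℝ) :
    ex (fun p : A × B => F p.2) = ex F := by
  cases nonempty_fintype A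
  cases nonempty_fintype B
  rw [ex_eq, ex_eq, Fintype.sum_prod_type, Fintype.card_prod]
  simp only [Finset.sum_const, Finset.card_univ, nsmul_eq_mul]
  have h : (Fintype.card A : ℝ) ≠ 0 := by
    exact_mod_cast Fintype.card_ne_zero
  push_cast
  rw [mul_div_mul_left _ _ h]

/-- splitting off the extra coordinate and the blocks -/
def blkEquiv (L k : ℕ) (Ω : Type) : (Ω × (Fin L → Fin k → Ω)) ≃ (JJ L k → Ω) where
  toFun p := fun o => o.elim p.1 (fun a => p.2 a.1 a.2)
  invFun y := (y none, fun l i => y (some (l, i)))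
  left_inv _ := rfl
  right_inv y := by
    funext o
    cases o <;> rfl

omit [Fintype Y] in
/-- blocks are independent -/
theorem ex_blocks (H : (Fin k → Ω) → ℝ) :
    ex (fun y : JJ L k → Ω => ∏ l : Fin L, H (fun i => y (some (l, i)))) = (ex H) ^ L := by
  rw [← ex_equiv (blkEquiv L k Ω)]
  have h1 : ex (fun p : Ω × (Fin L → Fin k → Ω) => ∏ l : Fin L, H (fun i => (blkEquiv L k Ω) p (some (l, i)))) =
      ex (fun z : Fin L → Fin k → Ω => ∏ l : Fin L, H (z l)) :=
    ex_snd (A := Ω) (fun z : Fin L → Fin k → Ω => ∏ l : Fin L, H (z l))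
  rw [h1, ex_prod (fun (_ : Fin L) => H), Finset.prod_const, Finset.card_univ, Fintype.card_fin]

theorem ind_forall {ι : Type*} [Fintype ι] (P : ι → Prop) : ind (∀ i, P i) = ∏ i, ind (P i) := by
  by_cases h : ∀ i, P i
  · have h1 : ∀ i, ind (P i) = 1 := fun i => if_pos (h i)
    rw [Finset.prod_congr rfl fun i _ => h1 i, Finset.prod_const_one]
    exact if_pos h
  · have h2 := h
    push Not at h2
    obtain ⟨i, hi⟩ := h2
    rw [Finset.prod_eq_zero (Finset.mem_univ i) (if_neg hi)]
    exact if_neg h

theorem ind_not (p : Prop) : ind (¬ p) = 1 - ind p := by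
  unfold ind
  by_cases hp : p <;> simp [hp]

theorem ind_nonneg (p : Prop) : 0 ≤ ind p := by
  unfold ind
  split_ifs <;> norm_num

theorem ind_le_one (p : Prop) : ind p ≤ 1 := by
  unfold ind
  split_ifs <;> norm_num

omit [Fintype Y] in
theorem bad_prob (T : Ω → Y) (cl : Y → Fin k) (p0 : ℝ) (h0 : 0 < p0) (hp : ∀ i, p0 ≤ cp T cl i) :
    ex (fun y : JJ L k → Ω => ind (bad cl (fun j => T (y j)))) ≤ (1 - p0 ^ k) ^ L := by
  have e : (fun y : JJ L k → Ω => ind (bad cl (fun j => T (y j)))) =
      fun y => ∏ l : Fin L, (fun z : Fin k → Ω => 1 - ∑ π : Equiv.Perm (Fin k), ∏ i, ind (cl (T (z i)) = π i))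
        (fun i => y (some (l, i))) := by
    funext y
    unfold bad
    rw [ind_forall]
    refine Finset.prod_congr rfl fun l _ => ?_
    rw [ind_not, good_expand]
  rw [e, ex_blocks (fun z : Fin k → Ω => 1 - ∑ π : Equiv.Perm (Fin k), ∏ i, ind (cl (T (z i)) = π i))]
  by_cases hL : L = 0
  · subst hL
    simp
  obtain ⟨l⟩ : Nonempty (Fin L) := ⟨⟨0, Nat.pos_of_ne_zero hL⟩⟩
  have hnn : 0 ≤ ex (fun z : Fin k → Ω => 1 - ∑ π : Equiv.Perm (Fin k), ∏ i, ind (cl (T (z i)) = π i)) := by
    refine ex_nonneg fun z => ?_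
    obtain ⟨ω⟩ := (inferInstance : Nonempty Ω)
    have h1 := good_expand cl l (fun o : JJ L k => o.elim (T ω) (fun a => T (z a.2)))
    have h2 : ∑ π : Equiv.Perm (Fin k), ∏ i, ind (cl (T (z i)) = π i) ≤ 1 := by
      refine le_trans (le_of_eq ?_) (ind_le_one (good cl l (fun o : JJ L k => o.elim (T ω) (fun a => T (z a.2)))))
      rw [h1]
      rfl
    linarith
  refine pow_le_pow_left₀ hnn ?_ L
  rw [ex_sub, ex_const, ex_sum]
  have h3 : ∀ π : Equiv.Perm (Fin k), ex (fun z : Fin k → Ω => ∏ i, ind (cl (T (z i)) = π i)) =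
      ∏ i, cp T cl (π i) := fun π => ex_prod (fun i ω => ind (cl (T ω) = π i))
  rw [Finset.sum_congr rfl fun π _ => h3 π]
  have h4 : ∏ i, cp T cl ((1 : Equiv.Perm (Fin k)) i) ≤ ∑ π : Equiv.Perm (Fin k), ∏ i, cp T cl (π i) :=
    Finset.single_le_sum (f := fun π : Equiv.Perm (Fin k) => ∏ i, cp T cl (π i))
      (fun π _ => Finset.prod_nonneg fun i _ => h0.le.trans (hp (π i))) (Finset.mem_univ 1)
  have h5 : p0 ^ k ≤ ∏ i, cp T cl ((1 : Equiv.Perm (Fin k)) i) := by
    calc p0 ^ k = ∏ _i : Fin k, p0 := by rw [Finset.prod_const, Finset.card_univ, Fintype.card_fin]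
      _ ≤ _ := Finset.prod_le_prod (fun _ _ => h0.le) fun i _ => hp _
  linarith

/-- swapping two coordinates of a block -/
theorem swap_some (l : Fin L) (a b : Fin k) (j : Fin k) :
    Equiv.swap (some (l, a) : JJ L k) (some (l, b)) (some (l, j)) = some (l, Equiv.swap a b j) := by
  rw [Equiv.swap_apply_def, Equiv.swap_apply_def]
  simp only [Option.some.injEq, Prod.mk.injEq, true_and]
  split_ifs <;> rfl

omit [Fintype Y] in
theorem dt_swap (cl : Y → Fin k) (l : Fin L) (v : JJ L k → Y) {a b : Fin k} (hab : a ≠ b) :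
    dt cl l (fun j => v (Equiv.swap (some (l, a)) (some (l, b)) j)) = - dt cl l v := by
  unfold dt
  have h1 : (Matrix.of fun (i j : Fin k) => ind (cl (v (Equiv.swap (some (l, a)) (some (l, b)) (some (l, j)))) = i)) =
      (Matrix.of fun (i j : Fin k) => ind (cl (v (some (l, j))) = i)).submatrix id (Equiv.swap a b) := by
    ext i j
    simp only [Matrix.of_apply, Matrix.submatrix_apply, id_eq, swap_some]
  rw [h1, Matrix.det_permute', Equiv.Perm.sign_swap hab]
  simp

omit [Fintype Y] [Nonempty Ω] in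
/-- the sign of the first good block is balanced given everything outside -/
theorem dm_sign (hk : 2 ≤ k) (T : Ω → Y) (cl : Y → Fin k) (l : Fin L) (G : (JJ L k → Ω) → ℝ)
    (hG : ∀ y y' : JJ L k → Ω, (∀ j : JJ L k, (∀ i, j ≠ some (l, i)) → y j = y' j) → G y = G y') :
    ex (fun y : JJ L k → Ω => G y * dt cl l (fun j => T (y j))) = 0 := by
  have hab : (⟨0, by omega⟩ : Fin k) ≠ ⟨1, by omega⟩ := by
    intro h
    simp only [Fin.mk.injEq] at h
    omega
  generalize (⟨0, by omega⟩ : Fin k) = a at hab
  generalize (⟨1, by omega⟩ : Fin k) = b at hab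
  have h1 := ex_equiv (Equiv.arrowCongr (Equiv.swap (some (l, a) : JJ L k) (some (l, b))) (Equiv.refl Ω))
    (fun y : JJ L k → Ω => G y * dt cl l (fun j => T (y j)))
  have h2 : (fun y : JJ L k → Ω => (fun y : JJ L k → Ω => G y * dt cl l (fun j => T (y j)))
      ((Equiv.arrowCongr (Equiv.swap (some (l, a) : JJ L k) (some (l, b))) (Equiv.refl Ω)) y)) =
      fun y => (-1) * (G y * dt cl l (fun j => T (y j))) := by
    funext y
    have h3 : (Equiv.arrowCongr (Equiv.swap (some (l, a) : JJ L k) (some (l, b))) (Equiv.refl Ω)) y =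
        fun j => y (Equiv.swap (some (l, a)) (some (l, b)) j) := by
      funext j
      simp [Equiv.arrowCongr]
    rw [h3]
    have h4 : G (fun j => y (Equiv.swap (some (l, a)) (some (l, b)) j)) = G y := by
      apply hG
      intro j hj
      rw [Equiv.swap_apply_of_ne_of_ne (hj a) (hj b)]
    have h5 := dt_swap cl l (fun j => T (y j)) hab
    change G (fun j => y (Equiv.swap (some (l, a)) (some (l, b)) j)) *
      dt cl l (fun j => T (y (Equiv.swap (some (l, a)) (some (l, b)) j))) = _
    rw [h4, h5]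
    ring
  rw [h2, ex_mul_left] at h1
  linarith

omit [Nonempty Ω] in
theorem rr_bal (hk : 2 ≤ k) (T : Ω → Y) (cl : Y → Fin k) :
    ∑ w : Sig L k Y, |ex (fun y : JJ L k → Ω => ind (sig cl (fun j => T (y j)) = w) * val (sgn cl (fun j => T (y j))))|
      ≤ ex (fun y : JJ L k → Ω => ind (bad cl (fun j => T (y j)))) := by
  rw [ex_fiber (fun y : JJ L k → Ω => sig cl (fun j => T (y j)))
    (fun y : JJ L k → Ω => ind (bad cl (fun j => T (y j))))]
  refine Finset.sum_le_sum fun w _ => ?_
  have e : (fun y : JJ L k → Ω => ind (sig cl (fun j => T (y j)) = w) * val (sgn cl (fun j => T (y j)))) =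
      fun y => ind (sig cl (fun j => T (y j)) = w) * ind (bad cl (fun j => T (y j))) +
        ∑ l, (ind (ovw (some l) (fun j => T (y j)) = w) * ind (nob cl l (fun j => T (y j)))) *
          dt cl l (fun j => T (y j)) := by
    funext y
    have h1 := dm_split cl (fun j => T (y j))
      (ind (sig cl (fun j => T (y j)) = w) * val (sgn cl (fun j => T (y j))))
      (ind (sig cl (fun j => T (y j)) = w))
      (fun l => ind (ovw (some l) (fun j => T (y j)) = w) * dt cl l (fun j => T (y j)))
      (fun hb => by rw [sgn_of_bad hb, mul_one])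
      (fun l hl => by rw [sig_of_first hl, sgn_of_first hl])
    rw [h1]
    congr 1
    · ring
    · refine Finset.sum_congr rfl fun l _ => ?_
      rw [ind_isFirst]
      by_cases hg : good cl l (fun j => T (y j))
      · have : ind (good cl l (fun j => T (y j))) = 1 := if_pos hg
        rw [this]
        ring
      · rw [dt_eq_zero hg]
        ring
  rw [e, ex_add, ex_sum]
  have h2 : ∑ l, ex (fun y : JJ L k → Ω => (ind (ovw (some l) (fun j => T (y j)) = w) *
      ind (nob cl l (fun j => T (y j)))) * dt cl l (fun j => T (y j))) = 0 := by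
    refine Finset.sum_eq_zero fun l _ => ?_
    refine dm_sign hk T cl l (fun y => ind (ovw (some l) (fun j => T (y j)) = w) *
      ind (nob cl l (fun j => T (y j)))) ?_
    intro y y' hy
    have h2 : ∀ j : JJ L k, (∀ i, j ≠ some (l, i)) → T (y j) = T (y' j) := fun j hj => by rw [hy j hj]
    rw [ovw_congr h2, show nob cl l (fun j => T (y j)) = nob cl l (fun j => T (y' j)) from
      propext (nob_congr h2)]
  rw [h2, add_zero, abs_of_nonneg]
  exact ex_nonneg fun y => mul_nonneg (ind_nonneg _) (ind_nonneg _)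

end

end P047X
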