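import Vale.Agent.P047X.DevMom

/-!
Second part of module DEVMOM: second moments of the super-block (`rr_sq`, `rr_sq_le`).
-/

open scoped BigOperators
open Finset Classical

namespace P047X

noncomputable section

variable {Y : Type} [Fintype Y] {L k : ℕ} {Ω : Type} [Finite Ω] [Nonempty Ω]

theorem dm2_ind_mul_self (p : Prop) : ind p * ind p = ind p := by
  unfold ind; split_ifs <;> simp

theorem dm2_ind_nonneg (p : Prop) : 0 ≤ ind p := by
  unfold ind; split_ifs <;> norm_num

theorem dm2_ind_and (p q : Prop) : ind (p ∧ q) = ind p * ind q := by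
  unfold ind; by_cases hp : p <;> by_cases hq : q <;> simp [hp, hq]

/-- class variance (unnormalised) -/
def dm2_q (T : Ω → Y) (μ : Y → ℝ) (cl : Y → Fin k) (i : Fin k) : ℝ :=
  ex (fun ω => (μ (T ω) - cm T μ cl i) ^ 2 * ind (cl (T ω) = i))

theorem dm2_q_nonneg (T : Ω → Y) (μ : Y → ℝ) (cl : Y → Fin k) (i : Fin k) : 0 ≤ dm2_q T μ cl i :=
  ex_nonneg fun _ => mul_nonneg (sq_nonneg _) (dm2_ind_nonneg _)

/-- centred class functional has mean zero -/
theorem dm2_centred (T : Ω → Y) (μ : Y → ℝ) (cl : Y → Fin k) (i : Fin k) (hp : 0 < cp T cl i) :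
    ex (fun ω => (μ (T ω) - cm T μ cl i) * ind (cl (T ω) = i)) = 0 := by
  have h1 : ex (fun ω => (μ (T ω) - cm T μ cl i) * ind (cl (T ω) = i)) =
      ex (fun ω => μ (T ω) * ind (cl (T ω) = i)) - cm T μ cl i * cp T cl i := by
    unfold cp
    rw [← ex_mul_left, ← ex_sub]
    congr 1; funext ω; ring
  rw [h1]
  unfold cm
  rw [div_mul_cancel₀ _ hp.ne']; ring

theorem dm2_q_le (T : Ω → Y) (μ : Y → ℝ) (cl : Y → Fin k) (i : Fin k) (hp : 0 < cp T cl i) (c : ℝ) :
    dm2_q T μ cl i ≤ ex (fun ω => (μ (T ω) - c) ^ 2 * ind (cl (T ω) = i)) := by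
  have h1 : ex (fun ω => (μ (T ω) - c) ^ 2 * ind (cl (T ω) = i)) =
      dm2_q T μ cl i + (2 * (cm T μ cl i - c)) *
        ex (fun ω => (μ (T ω) - cm T μ cl i) * ind (cl (T ω) = i)) +
        (cm T μ cl i - c) ^ 2 * cp T cl i := by
    unfold dm2_q cp
    rw [← ex_mul_left, ← ex_mul_left, ← ex_add, ← ex_add]
    congr 1; funext ω; ring
  rw [h1, dm2_centred T μ cl i hp]
  have := mul_nonneg (sq_nonneg (cm T μ cl i - c)) hp.le
  linarith

/-- no good block before `l` -/
def dm2_N (cl : Y → Fin k) (l : Fin L) (y : JJ L k → Y) : Prop := ∀ l' : Fin L, l' < l → ¬ good cl l' y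

theorem dm2_isFirst (cl : Y → Fin k) (l : Fin L) (y : JJ L k → Y) :
    ind (isFirst cl l y) = ind (good cl l y) * ind (dm2_N cl l y) := by
  rw [← dm2_ind_and]; rfl

theorem dm2_N_congr (cl : Y → Fin k) (l : Fin L) {y y' : JJ L k → Y}
    (h : ∀ j, (∀ i : Fin k, j ≠ some (l, i)) → y j = y' j) : dm2_N cl l y = dm2_N cl l y' := by
  have hc : ∀ l' : Fin L, l' < l → ∀ i : Fin k, y (some (l', i)) = y' (some (l', i)) := by
    intro l' hl' i
    apply h
    intro i' he
    simp only [Option.some.injEq, Prod.mk.injEq] at he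
    exact absurd he.1 hl'.ne
  have hg : ∀ l' : Fin L, l' < l → (good cl l' y ↔ good cl l' y') := by
    intro l' hl'
    unfold good
    simp only [hc l' hl']
  unfold dm2_N
  apply propext
  exact ⟨fun H l' hl' hh => H l' hl' ((hg l' hl').2 hh), fun H l' hl' hh => H l' hl' ((hg l' hl').1 hh)⟩

theorem dm2_bad_congr (cl : Y → Fin k) {y y' : JJ L k → Y}
    (h : ∀ j, j ≠ none → y j = y' j) : bad cl y = bad cl y' := by
  unfold bad good
  have h2 : ∀ (l : Fin L) (i : Fin k), y (some (l, i)) = y' (some (l, i)) := fun l i => h _ (by simp)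
  simp [h2]

/-- the bad part -/
theorem dm2_bad (T : Ω → Y) (μ : Y → ℝ) (cl : Y → Fin k) (V : ℝ) (hV : ex (fun ω => (μ (T ω)) ^ 2) = V) :
    ex (fun y : JJ L k → Ω => ind (bad cl (fun j => T (y j))) * (μ (T (y none))) ^ 2) =
      V * ex (fun y : JJ L k → Ω => ind (bad cl (fun j => T (y j)))) := by
  have h := ex_eval_mul_indep (Ω := Ω) (none : JJ L k) (fun ω => (μ (T ω)) ^ 2 - V)
    (by rw [ex_sub (Ω := Ω) (fun ω => (μ (T ω)) ^ 2) (fun _ => V), hV, ex_const]; ring)
    (fun y : JJ L k → Ω => ind (bad cl (fun j => T (y j))))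
    (by
      intro y y' hy
      rw [dm2_bad_congr cl (fun j hj => by rw [hy j hj])])
  rw [← ex_mul_left, ← sub_eq_zero, ← ex_sub, ← h]
  congr 1; funext y; ring

/-- product of the class indicators of block `l` for the permutation `π` -/
def dm2_P (T : Ω → Y) (cl : Y → Fin k) (l : Fin L) (π : Equiv.Perm (Fin k)) (y : JJ L k → Ω) : ℝ :=
  ∏ j, ind (cl (T (y (some (l, j)))) = π j)

theorem dm2_cross (T : Ω → Y) (μ : Y → ℝ) (cl : Y → Fin k) (hp : ∀ i, 0 < cp T cl i) (l : Fin L)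
    (π : Equiv.Perm (Fin k)) (j j' : Fin k) (hj : j ≠ j') :
    ex (fun y : JJ L k → Ω => dm2_P T cl l π y * ind (dm2_N cl l (fun j => T (y j))) *
      ((μ (T (y (some (l, j)))) - cm T μ cl (π j)) * (μ (T (y (some (l, j')))) - cm T μ cl (π j')))) = 0 := by
  have h := ex_eval_mul_indep (Ω := Ω) (some (l, j) : JJ L k)
    (fun ω => (μ (T ω) - cm T μ cl (π j)) * ind (cl (T ω) = π j)) (dm2_centred T μ cl (π j) (hp _))
    (fun y : JJ L k → Ω => (∏ i ∈ univ.erase j, ind (cl (T (y (some (l, i)))) = π i)) *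
      ind (dm2_N cl l (fun j => T (y j))) * (μ (T (y (some (l, j')))) - cm T μ cl (π j')))
    (by
      intro y y' hy
      have h1 : ∀ i ∈ univ.erase j, y (some (l, i)) = y' (some (l, i)) := by
        intro i hi
        apply hy
        intro he
        simp only [Option.some.injEq, Prod.mk.injEq, true_and] at he
        exact (Finset.mem_erase.1 hi).1 he
      have h2 : dm2_N cl l (fun j => T (y j)) = dm2_N cl l (fun j => T (y' j)) :=
        dm2_N_congr cl l (fun i hi => by rw [hy i (hi j)])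
      have h3 : y (some (l, j')) = y' (some (l, j')) :=
        h1 j' (Finset.mem_erase.2 ⟨hj.symm, Finset.mem_univ _⟩)
      have h4 : (∏ i ∈ univ.erase j, ind (cl (T (y (some (l, i)))) = π i)) =
          ∏ i ∈ univ.erase j, ind (cl (T (y' (some (l, i)))) = π i) :=
        Finset.prod_congr rfl (fun i hi => by rw [h1 i hi])
      simp only [h2, h3, h4])
  rw [← h]
  congr 1; funext y
  unfold dm2_P
  rw [← Finset.mul_prod_erase univ (fun i => ind (cl (T (y (some (l, i)))) = π i)) (Finset.mem_univ j)]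
  ring

theorem dm2_diag (T : Ω → Y) (μ : Y → ℝ) (cl : Y → Fin k) (hp : ∀ i, 0 < cp T cl i) (l : Fin L)
    (π : Equiv.Perm (Fin k)) (j : Fin k) :
    ex (fun y : JJ L k → Ω => dm2_P T cl l π y * ind (dm2_N cl l (fun j => T (y j))) *
      ((μ (T (y (some (l, j)))) - cm T μ cl (π j)) * (μ (T (y (some (l, j)))) - cm T μ cl (π j)))) =
      dm2_q T μ cl (π j) / cp T cl (π j) *
        ex (fun y : JJ L k → Ω => dm2_P T cl l π y * ind (dm2_N cl l (fun j => T (y j)))) := by
  have hm : ex (fun ω => (μ (T ω) - cm T μ cl (π j)) ^ 2 * ind (cl (T ω) = π j) -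
      dm2_q T μ cl (π j) / cp T cl (π j) * ind (cl (T ω) = π j)) = 0 := by
    rw [ex_sub (Ω := Ω) (fun ω => (μ (T ω) - cm T μ cl (π j)) ^ 2 * ind (cl (T ω) = π j))
      (fun ω => dm2_q T μ cl (π j) / cp T cl (π j) * ind (cl (T ω) = π j)), ex_mul_left]
    have e1 : ex (fun ω => ind (cl (T ω) = π j)) = cp T cl (π j) := rfl
    have e2 : ex (fun ω => (μ (T ω) - cm T μ cl (π j)) ^ 2 * ind (cl (T ω) = π j)) =
      dm2_q T μ cl (π j) := rfl
    rw [e1, e2, div_mul_cancel₀ _ (hp (π j)).ne']; ring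
  have h := ex_eval_mul_indep (Ω := Ω) (some (l, j) : JJ L k)
    (fun ω => (μ (T ω) - cm T μ cl (π j)) ^ 2 * ind (cl (T ω) = π j) -
      dm2_q T μ cl (π j) / cp T cl (π j) * ind (cl (T ω) = π j)) hm
    (fun y : JJ L k → Ω => (∏ i ∈ univ.erase j, ind (cl (T (y (some (l, i)))) = π i)) *
      ind (dm2_N cl l (fun j => T (y j))))
    (by
      intro y y' hy
      have h1 : ∀ i ∈ univ.erase j, y (some (l, i)) = y' (some (l, i)) := by
        intro i hi
        apply hy
        intro he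
        simp only [Option.some.injEq, Prod.mk.injEq, true_and] at he
        exact (Finset.mem_erase.1 hi).1 he
      have h2 : dm2_N cl l (fun j => T (y j)) = dm2_N cl l (fun j => T (y' j)) :=
        dm2_N_congr cl l (fun i hi => by rw [hy i (hi j)])
      have h4 : (∏ i ∈ univ.erase j, ind (cl (T (y (some (l, i)))) = π i)) =
          ∏ i ∈ univ.erase j, ind (cl (T (y' (some (l, i)))) = π i) :=
        Finset.prod_congr rfl (fun i hi => by rw [h1 i hi])
      simp only [h2, h4])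
  rw [← ex_mul_left, ← sub_eq_zero, ← ex_sub, ← h]
  congr 1; funext y
  unfold dm2_P
  rw [← Finset.mul_prod_erase univ (fun i => ind (cl (T (y (some (l, i)))) = π i)) (Finset.mem_univ j)]
  ring

/-- one permutation -/
theorem dm2_perm (T : Ω → Y) (μ : Y → ℝ) (cl : Y → Fin k) (hp : ∀ i, 0 < cp T cl i) (l : Fin L)
    (π : Equiv.Perm (Fin k)) :
    ex (fun y : JJ L k → Ω => dm2_P T cl l π y * ind (dm2_N cl l (fun j => T (y j))) *
      ((∑ j, μ (T (y (some (l, j))))) - ∑ i, cm T μ cl i) ^ 2) =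
      (∑ i, dm2_q T μ cl i / cp T cl i) *
        ex (fun y : JJ L k → Ω => dm2_P T cl l π y * ind (dm2_N cl l (fun j => T (y j)))) := by
  have h1 : ∀ y : JJ L k → Ω, dm2_P T cl l π y * ind (dm2_N cl l (fun j => T (y j))) *
      ((∑ j, μ (T (y (some (l, j))))) - ∑ i, cm T μ cl i) ^ 2 =
      ∑ j, ∑ j', dm2_P T cl l π y * ind (dm2_N cl l (fun j => T (y j))) *
      ((μ (T (y (some (l, j)))) - cm T μ cl (π j)) * (μ (T (y (some (l, j')))) - cm T μ cl (π j'))) := by
    intro y
    have e : (∑ j, μ (T (y (some (l, j))))) - ∑ i, cm T μ cl i =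
        ∑ j, (μ (T (y (some (l, j)))) - cm T μ cl (π j)) := by
      rw [Finset.sum_sub_distrib, Equiv.sum_comp π (fun i => cm T μ cl i)]
    rw [e, sq, Finset.sum_mul_sum, Finset.mul_sum]
    exact Finset.sum_congr rfl fun j _ => Finset.mul_sum _ _ _
  simp only [h1]
  rw [ex_sum]
  have h2 : ∀ j : Fin k, ex (fun y : JJ L k → Ω => ∑ j', dm2_P T cl l π y * ind (dm2_N cl l (fun j => T (y j))) *
      ((μ (T (y (some (l, j)))) - cm T μ cl (π j)) * (μ (T (y (some (l, j')))) - cm T μ cl (π j')))) =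
      dm2_q T μ cl (π j) / cp T cl (π j) *
        ex (fun y : JJ L k → Ω => dm2_P T cl l π y * ind (dm2_N cl l (fun j => T (y j)))) := by
    intro j
    rw [ex_sum, Finset.sum_eq_single j]
    · exact dm2_diag T μ cl hp l π j
    · intro j' _ hj'
      exact dm2_cross T μ cl hp l π j j' hj'.symm
    · intro h; exact absurd (Finset.mem_univ _) h
  rw [Finset.sum_congr rfl fun j _ => h2 j, ← Finset.sum_mul]
  congr 1
  exact Equiv.sum_comp π (fun i => dm2_q T μ cl i / cp T cl i)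

/-- one block -/
theorem dm2_block (T : Ω → Y) (μ : Y → ℝ) (cl : Y → Fin k) (hp : ∀ i, 0 < cp T cl i) (l : Fin L) :
    ex (fun y : JJ L k → Ω => ind (isFirst cl l (fun j => T (y j))) *
      ((∑ j, μ (T (y (some (l, j))))) - ∑ i, cm T μ cl i) ^ 2) =
      (∑ i, dm2_q T μ cl i / cp T cl i) *
        ex (fun y : JJ L k → Ω => ind (isFirst cl l (fun j => T (y j)))) := by
  have h1 : ∀ y : JJ L k → Ω, ind (isFirst cl l (fun j => T (y j))) =
      ∑ π : Equiv.Perm (Fin k), dm2_P T cl l π y * ind (dm2_N cl l (fun j => T (y j))) := by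
    intro y
    rw [dm2_isFirst, good_expand, Finset.sum_mul]; rfl
  have h2 : ∀ y : JJ L k → Ω, ind (isFirst cl l (fun j => T (y j))) *
      ((∑ j, μ (T (y (some (l, j))))) - ∑ i, cm T μ cl i) ^ 2 =
      ∑ π : Equiv.Perm (Fin k), dm2_P T cl l π y * ind (dm2_N cl l (fun j => T (y j))) *
      ((∑ j, μ (T (y (some (l, j))))) - ∑ i, cm T μ cl i) ^ 2 := by
    intro y
    rw [h1, Finset.sum_mul]
  simp only [h2]
  rw [ex_sum, Finset.sum_congr rfl fun π _ => dm2_perm T μ cl hp l π, ← Finset.mul_sum, ← ex_sum]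
  simp only [h1]

theorem dm2_pointwise (μ : Y → ℝ) (cl : Y → Fin k) (cb : Fin k → ℝ) (v : JJ L k → Y) :
    ((∑ j, μ (v j)) - RR μ cb (sig cl v)) ^ 2 =
      ind (bad cl v) * (μ (v none)) ^ 2 +
        ∑ l, ind (isFirst cl l v) * ((∑ j, μ (v (some (l, j)))) - ∑ i, cb i) ^ 2 := by
  rcases hf : first cl v with _ | l
  · have hb : bad cl v := (first_eq_none_iff cl v).1 hf
    have hi : ∀ l, ¬ isFirst cl l v := fun l hl => hb l hl.1
    have e1 : ind (bad cl v) = 1 := by unfold ind; rw [if_pos hb]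
    have e2 : ∀ l, ind (isFirst cl l v) = 0 := fun l => by unfold ind; rw [if_neg (hi l)]
    simp only [e1, e2]
    have e3 : (∑ j, μ (v j)) - RR μ cb (sig cl v) = μ (v none) := by
      unfold RR sig
      rw [hf]
      simp only [Fintype.sum_option]
      simp [masked]
    rw [e3]; simp
  · have hi : isFirst cl l v := (first_eq_some_iff cl v l).1 hf
    have hb : ¬ bad cl v := fun h => h l hi.1
    have e1 : ind (bad cl v) = 0 := by unfold ind; rw [if_neg hb]
    have e2 : ∀ l', ind (isFirst cl l' v) = if l' = l then 1 else 0 := by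
      intro l'
      by_cases h : l' = l
      · subst h; unfold ind; rw [if_pos hi]; simp
      · have : ¬ isFirst cl l' v := fun h' => h (by
          have := (first_eq_some_iff cl v l').2 h'
          rw [hf] at this; exact (Option.some.inj this).symm)
        unfold ind; rw [if_neg this, if_neg h]
    simp only [e1, e2]
    have e3 : (∑ j, μ (v j)) - RR μ cb (sig cl v) = (∑ j, μ (v (some (l, j)))) - ∑ i, cb i := by
      have m1 : ∀ (l' : Fin L) (j : Fin k), masked (some l) (some (l', j)) ↔ l' = l := fun _ _ => Iff.rfl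
      have m0 : ¬ masked (some l) (none : JJ L k) := id
      have e4 : ∀ l' : Fin L, (∑ j : Fin k, ((if masked (some l) (some (l', j)) then none else
          some (v (some (l', j)))) : Option Y).elim 0 μ) =
          (∑ j, μ (v (some (l', j)))) - if l' = l then ∑ j, μ (v (some (l', j))) else 0 := by
        intro l'
        by_cases h : l' = l
        · subst h
          have : ∀ j : Fin k, masked (some l') (some (l', j)) := fun j => (m1 l' j).2 rfl
          simp [this]
        · have : ∀ j : Fin k, ¬ masked (some l) (some (l', j)) := fun j hh => h ((m1 l' j).1 hh)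
          simp [h, this]
      unfold RR sig
      rw [hf]
      rw [Fintype.sum_option, Fintype.sum_option, Fintype.sum_prod_type, Fintype.sum_prod_type]
      simp only [e4, Finset.sum_sub_distrib]
      simp [m0]
      ring
    rw [e3]
    simp

/-- the conditional mean is orthogonal to the error -/
theorem dm2_orth (T : Ω → Y) (μ : Y → ℝ) (cl : Y → Fin k) (h0 : ex (fun ω => μ (T ω)) = 0)
    (hp : ∀ i, 0 < cp T cl i) (V : ℝ) (hV : ex (fun ω => (μ (T ω)) ^ 2) = V) :
    ex (fun y : JJ L k → Ω => (RR μ (cm T μ cl) (sig cl (fun j => T (y j)))) ^ 2) +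
      ex (fun y : JJ L k → Ω => ((∑ j, μ (T (y j))) - RR μ (cm T μ cl) (sig cl (fun j => T (y j)))) ^ 2) =
      (L * k + 1 : ℝ) * V := by
  have h1 := rr_cal (L := L) T μ cl h0 hp (fun w => RR μ (cm T μ cl) w)
  have h2 : ex (fun y : JJ L k → Ω => (∑ j, μ (T (y j))) ^ 2) = (L * k + 1 : ℝ) * V := by
    rw [ex_sum_sq (J := JJ L k) (fun (_ : JJ L k) (ω : Ω) => μ (T ω)) (fun _ => h0)]
    simp only [hV, Finset.sum_const, Finset.card_univ, Fintype.card_option, Fintype.card_prod,
      Fintype.card_fin, nsmul_eq_mul]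
    push_cast; ring
  have h3 : ∀ y : JJ L k → Ω, (RR μ (cm T μ cl) (sig cl (fun j => T (y j)))) ^ 2 +
      ((∑ j, μ (T (y j))) - RR μ (cm T μ cl) (sig cl (fun j => T (y j)))) ^ 2 =
      (∑ j, μ (T (y j))) ^ 2 - 2 * (((∑ j, μ (T (y j))) - RR μ (cm T μ cl) (sig cl (fun j => T (y j)))) *
        RR μ (cm T μ cl) (sig cl (fun j => T (y j)))) := by
    intro y; ring
  rw [← ex_add]
  simp only [h3]
  rw [ex_sub, ex_mul_left, h1, h2]; ring

theorem dm2_err (T : Ω → Y) (μ : Y → ℝ) (cl : Y → Fin k)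
    (hp : ∀ i, 0 < cp T cl i) (V : ℝ) (hV : ex (fun ω => (μ (T ω)) ^ 2) = V) :
    ex (fun y : JJ L k → Ω => ((∑ j, μ (T (y j))) - RR μ (cm T μ cl) (sig cl (fun j => T (y j)))) ^ 2) =
      V * ex (fun y : JJ L k → Ω => ind (bad cl (fun j => T (y j)))) +
      (∑ i, dm2_q T μ cl i / cp T cl i) *
        (1 - ex (fun y : JJ L k → Ω => ind (bad cl (fun j => T (y j))))) := by
  have h1 : ∀ y : JJ L k → Ω, ((∑ j, μ (T (y j))) - RR μ (cm T μ cl) (sig cl (fun j => T (y j)))) ^ 2 =
      ind (bad cl (fun j => T (y j))) * (μ (T (y none))) ^ 2 +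
        ∑ l, ind (isFirst cl l (fun j => T (y j))) *
          ((∑ j, μ (T (y (some (l, j))))) - ∑ i, cm T μ cl i) ^ 2 :=
    fun y => dm2_pointwise μ cl (cm T μ cl) (fun j => T (y j))
  simp only [h1]
  rw [ex_add, dm2_bad T μ cl V hV, ex_sum, Finset.sum_congr rfl fun l _ => dm2_block T μ cl hp l,
    ← Finset.mul_sum]
  congr 2
  have h2 : ex (fun y : JJ L k → Ω => ind (bad cl (fun j => T (y j))) +
      ∑ l, ind (isFirst cl l (fun j => T (y j)))) = 1 := by
    simp only [first_partition]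
    exact ex_const 1
  rw [ex_add, ex_sum] at h2
  linarith

theorem rr_sq_le (T : Ω → Y) (μ : Y → ℝ) (cl : Y → Fin k) (h0 : ex (fun ω => μ (T ω)) = 0) (hp : ∀ i, 0 < cp T cl i)
    (V : ℝ) (hV : ex (fun ω => (μ (T ω)) ^ 2) = V) :
    ex (fun y : JJ L k → Ω => (RR μ (cm T μ cl) (sig cl (fun j => T (y j)))) ^ 2) ≤ (L * k + 1 : ℝ) * V := by
  have h1 := dm2_orth (L := L) T μ cl h0 hp V hV
  have h2 : 0 ≤ ex (fun y : JJ L k → Ω =>
      ((∑ j, μ (T (y j))) - RR μ (cm T μ cl) (sig cl (fun j => T (y j)))) ^ 2) :=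
    ex_nonneg fun _ => sq_nonneg _
  linarith

/-- lower bound of the captured variance of the super-block -/
theorem rr_sq (T : Ω → Y) (μ : Y → ℝ) (cl : Y → Fin k) (h0 : ex (fun ω => μ (T ω)) = 0) (p0 : ℝ) (hp0 : 0 < p0)
    (hp : ∀ i, p0 ≤ cp T cl i) (hL : (1 - p0 ^ k) ^ L ≤ 1 / 16) (V : ℝ) (hV : ex (fun ω => (μ (T ω)) ^ 2) = V)
    (cc : Fin k → ℝ)
    (hvar : ∑ i, ex (fun ω => (μ (T ω) - cc i) ^ 2 * ind (cl (T ω) = i)) / cp T cl i ≤ 3 / 8 * V) :
    ((L * k + 1 : ℝ) - 7 / 16) * V ≤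
      ex (fun y : JJ L k → Ω => (RR μ (cm T μ cl) (sig cl (fun j => T (y j)))) ^ 2) := by
  have hp' : ∀ i, 0 < cp T cl i := fun i => hp0.trans_le (hp i)
  have h1 := dm2_orth (L := L) T μ cl h0 hp' V hV
  have h2 := dm2_err (L := L) T μ cl hp' V hV
  have hb := (bad_prob (L := L) T cl p0 hp0 hp).trans hL
  have hb0 : 0 ≤ ex (fun y : JJ L k → Ω => ind (bad cl (fun j => T (y j)))) :=
    ex_nonneg fun _ => dm2_ind_nonneg _
  have hV0 : 0 ≤ V := hV ▸ ex_nonneg fun _ => sq_nonneg _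
  have hQ : ∑ i, dm2_q T μ cl i / cp T cl i ≤ 3 / 8 * V :=
    (Finset.sum_le_sum fun i _ => div_le_div_of_nonneg_right (dm2_q_le T μ cl i (hp' i) (cc i)) (hp' i).le).trans hvar
  have hQ0 : 0 ≤ ∑ i, dm2_q T μ cl i / cp T cl i :=
    Finset.sum_nonneg fun i _ => div_nonneg (dm2_q_nonneg T μ cl i) (hp' i).le
  set b := ex (fun y : JJ L k → Ω => ind (bad cl (fun j => T (y j))))
  set Q := ∑ i, dm2_q T μ cl i / cp T cl i
  have h3 : V * b ≤ V * (1 / 16) := mul_le_mul_of_nonneg_left hb hV0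
  have h4 : Q * (1 - b) ≤ Q := by nlinarith
  nlinarith

end

end P047X
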