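import Vale.Agent.P047.Defs
import Vale.Agent.P047X.Boost

/-!
Module FINAL: from schemes to Boolean functions. `M` copies of `S`, `f x = sign (∑_j μ(Ψ(sl x j)))` (sign 0 = 1),
`linearSum f = ex (f * sm) = ex |∑_j μ|` (calibration), `≥ (1/2) √(M V)` for `M` large by `clt` with `g = |z|` and `gauss_abs`.
Transport to `Fin n` by `Fintype.equivFin` (`Deg.equiv`, `Deg.orth`).
-/

open scoped BigOperators
open Finset

namespace P047X

/-- degree from `Deg` -/
theorem degree_le_of_deg {n d : ℕ} {f : (Fin n → ℤˣ) → ℝ} (h : Deg d f) :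
    Vale.Agent.P047.degree f ≤ d := by
  classical
  unfold Vale.Agent.P047.degree
  refine Finset.sup_le fun S hS => ?_
  by_contra hcon
  push Not at hcon
  have h1 := h.orth hcon
  rw [Finset.mem_filter] at hS
  apply hS.2
  unfold Vale.Agent.P047.fourier
  have h2 : ∑ x : Fin n → ℤˣ, f x * ∏ i ∈ S, ((x i : ℤ) : ℝ) = 0 := by
    rw [← h1]
    refine Finset.sum_congr rfl fun x _ => ?_
    simp only [val]
  rw [h2, zero_div]

theorem linearSum_eq_ex {n : ℕ} (f : (Fin n → ℤˣ) → ℝ) :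
    Vale.Agent.P047.linearSum f = ex (fun x => f x * sm x) := by
  unfold Vale.Agent.P047.linearSum Vale.Agent.P047.fourier
  rw [ex_eq]
  have hc : (Fintype.card (Fin n → ℤˣ) : ℝ) = 2 ^ n := by
    rw [Fintype.card_fun, Fintype.card_units_int, Fintype.card_fin]
    norm_num
  rw [hc, ← Finset.sum_div, Finset.sum_comm]
  congr 1
  refine Finset.sum_congr rfl fun x _ => ?_
  rw [← Finset.mul_sum]
  congr 1
  unfold sm
  refine Finset.sum_congr rfl fun i _ => ?_
  simp [val]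

/-- the sign of the sum of the scores -/
noncomputable def sgf {J : Type} [Fintype J] {Y : Type} (μ : Y → ℝ) (v : J → Y) : ℝ :=
  if 0 ≤ ∑ j, μ (v j) then 1 else -1

theorem sgf_mul {J : Type} [Fintype J] {Y : Type} (μ : Y → ℝ) (v : J → Y) :
    sgf μ v * ∑ j, μ (v j) = |∑ j, μ (v j)| := by
  unfold sgf
  split_ifs with h
  · rw [one_mul, abs_of_nonneg h]
  · push Not at h
    rw [abs_of_neg h]; ring

open Vale.Agent.P047 in
theorem extract {ι Y : Type} [Fintype ι] [Fintype Y] (S : Scheme ι Y) (hV : 0 < S.V) :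
    ∃ (n M : ℕ) (f : (Fin n → ℤˣ) → ℝ), 1 ≤ n ∧ 1 ≤ M ∧ IsBoolean f ∧ degree f ≤ M * S.δ ∧
      1 / 2 * Real.sqrt (M * S.V) ≤ linearSum f := by
  classical
  have hsV : 0 < Real.sqrt S.V := Real.sqrt_pos.2 hV
  have hmu0 : ex (fun ω => S.μ (S.Ψ ω)) = 0 := by
    have h1 := S.cal (fun _ => 1)
    simp only [mul_one] at h1
    rw [ex_sub, ex_sm] at h1
    linarith
  -- the normalized score
  set X : (ι → ℤˣ) → ℝ := fun ω => (Real.sqrt S.V)⁻¹ * S.μ (S.Ψ ω) with hX
  have hX1 : ex X = 0 := by rw [hX, ex_mul_left, hmu0, mul_zero]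
  have hX2 : ex (fun ω => (X ω) ^ 2) = 1 := by
    have : (fun ω => (X ω) ^ 2) = fun ω => S.V⁻¹ * (S.μ (S.Ψ ω)) ^ 2 := by
      funext ω
      simp only [hX]
      rw [mul_pow, inv_pow, Real.sq_sqrt hV.le]
    rw [this, ex_mul_left]
    exact inv_mul_cancel₀ hV.ne'
  have hlim := clt X hX1 hX2 (fun z => |z|) continuous_abs 1 (by
    intro z
    rw [abs_abs, one_mul]
    nlinarith [sq_nonneg (|z| - 1), sq_abs z, abs_nonneg z])
  have hev := (hlim.eventually (lt_mem_nhds gauss_abs)).and (Filter.eventually_ge_atTop 1)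
  obtain ⟨M, hM, hM1⟩ := hev.exists
  have hM0 : (0 : ℝ) < M := by exact_mod_cast hM1
  -- the block function
  set f0 : (Fin M × ι → ℤˣ) → ℝ := fun x => sgf S.μ (fun j => S.Ψ (sl x j)) with hf0
  have hcal := cal_symbols (J := Fin M) S (sgf S.μ)
  have hsum : ex (fun x : Fin M × ι → ℤˣ => f0 x * sm x) =
      ex (fun x : Fin M × ι → ℤˣ => |∑ j, S.μ (S.Ψ (sl x j))|) := by
    have h2 : (fun x : Fin M × ι → ℤˣ => f0 x * sm x) =
        fun x => (∑ j, (sm (sl x j) - S.μ (S.Ψ (sl x j)))) * sgf S.μ (fun j => S.Ψ (sl x j)) +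
          |∑ j, S.μ (S.Ψ (sl x j))| := by
      funext x
      rw [← sgf_mul S.μ (fun j => S.Ψ (sl x j)), sm_sl, Finset.sum_sub_distrib]
      simp only [hf0]
      ring
    rw [h2, ex_add, hcal, zero_add]
  have habs : ex (fun x : Fin M × ι → ℤˣ => |∑ j, S.μ (S.Ψ (sl x j))|) =
      Real.sqrt (M * S.V) * ex (fun y : Fin M → (ι → ℤˣ) => |zn X M y|) := by
    rw [ex_sl (J := Fin M) (fun y : Fin M → (ι → ℤˣ) => |∑ j, S.μ (S.Ψ (y j))|), ← ex_mul_left]
    congr 1
    funext y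
    have hs : Real.sqrt (M * S.V) = Real.sqrt M * Real.sqrt S.V := Real.sqrt_mul hM0.le _
    have hsM : 0 < Real.sqrt M := Real.sqrt_pos.2 hM0
    have h3 : zn X M y = (Real.sqrt (M * S.V))⁻¹ * ∑ j, S.μ (S.Ψ (y j)) := by
      unfold zn
      simp only [hX]
      rw [← Finset.mul_sum, hs, mul_inv]
      ring
    rw [h3, abs_mul, abs_of_pos (inv_pos.2 (Real.sqrt_pos.2 (mul_pos hM0 hV))), ← mul_assoc,
      mul_inv_cancel₀ (Real.sqrt_pos.2 (mul_pos hM0 hV)).ne', one_mul]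
  have hge : 1 / 2 * Real.sqrt (M * S.V) ≤ ex (fun x : Fin M × ι → ℤˣ => f0 x * sm x) := by
    rw [hsum, habs, mul_comm]
    exact mul_le_mul_of_nonneg_left hM.le (Real.sqrt_nonneg _)
  -- degree
  have hdeg : Deg (M * S.δ) f0 := by
    have h4 : f0 = fun x => ∑ w : Fin M → Y, sgf S.μ w * ∏ j, ind (S.Ψ (sl x j) = w j) := by
      funext x
      exact expand_ind (sgf S.μ) (fun j => S.Ψ (sl x j))
    rw [h4]
    refine Deg.sum _ fun w _ => Deg.smul _ ?_
    have h5 := Deg.prod_sl (J := Fin M) (ι := ι) (d := fun _ => S.δ)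
      (g := fun j ω => ind (S.Ψ ω = w j)) (fun j => S.deg (fun y => ind (y = w j)))
    simpa using h5
  -- transport
  have hι : Nonempty ι := by
    by_contra hne
    rw [not_nonempty_iff] at hne
    have h6 := S.cal S.μ
    have h7 : (fun x : ι → ℤˣ => (sm x - S.μ (S.Ψ x)) * S.μ (S.Ψ x)) =
        fun x => (-1) * (S.μ (S.Ψ x)) ^ 2 := by
      funext x
      have : sm x = 0 := by simp [sm]
      rw [this]; ring
    rw [h7, ex_mul_left] at h6
    have : S.V = 0 := by unfold Scheme.V; linarith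
    linarith
  let e : Fin M × ι ≃ Fin (Fintype.card (Fin M × ι)) := Fintype.equivFin _
  refine ⟨Fintype.card (Fin M × ι), M, fun x => f0 (fun p => x (e p)), ?_, hM1, ?_, ?_, ?_⟩
  · have : Nonempty (Fin M × ι) := ⟨(⟨0, hM1⟩, Classical.arbitrary ι)⟩
    exact Fintype.card_pos
  · intro x
    simp only [hf0, sgf]
    split_ifs <;> simp
  · exact degree_le_of_deg (Deg.equiv e hdeg)
  · rw [linearSum_eq_ex]
    refine hge.trans (le_of_eq ?_)
    let E : (Fin (Fintype.card (Fin M × ι)) → ℤˣ) ≃ (Fin M × ι → ℤˣ) :=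
      { toFun := fun x p => x (e p)
        invFun := fun y q => y (e.symm q)
        left_inv := fun x => by funext q; simp
        right_inv := fun y => by funext p; simp }
    rw [← ex_equiv E (fun x : Fin M × ι → ℤˣ => f0 x * sm x)]
    congr 1
    funext x
    have h8 : sm (E x) = sm x := by
      unfold sm
      exact Equiv.sum_comp e (fun q => val (x q))
    rw [h8]
    rfl

open Vale.Agent.P047 in
/-- the weak form of the Gopalan–Servedio conjecture is false -/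
theorem weak_false : ¬ ∃ C : ℝ, ∀ (n : ℕ) (f : (Fin n → ℤˣ) → ℝ), IsBoolean f →
    linearSum f ≤ C * Real.sqrt (degree f) := by
  rintro ⟨C, hC⟩
  obtain ⟨ι, Y, i1, i2, S, hV, hS⟩ := unbounded (4 * C ^ 2 + 1)
  obtain ⟨n, M, f, hn, hM, hB, hd, hl⟩ := extract S hV
  have h1 := hl.trans (hC n f hB)
  have hM0 : (0 : ℝ) < M := by exact_mod_cast hM
  have hδ : (0 : ℝ) < S.δ := by exact_mod_cast delta_pos S hV
  have h2 : 0 ≤ 1 / 2 * Real.sqrt (M * S.V) := by positivity
  have h3 : (1 / 2 * Real.sqrt (M * S.V)) ^ 2 ≤ (C * Real.sqrt (degree f)) ^ 2 := by gcongr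
  rw [mul_pow, mul_pow, Real.sq_sqrt (by positivity), Real.sq_sqrt (by positivity)] at h3
  have h4 : (degree f : ℝ) ≤ M * S.δ := by exact_mod_cast hd
  have h5 : C ^ 2 * (degree f : ℝ) ≤ C ^ 2 * (M * S.δ) := by gcongr
  have h6 : M * S.V ≤ M * (4 * C ^ 2 * S.δ) := by nlinarith
  have h7 : S.V ≤ 4 * C ^ 2 * S.δ := le_of_mul_le_mul_left h6 hM0
  nlinarith

end P047X
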