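import Mathlib

/-!
# A low degree partition of unity on `[-1,1]` (Jackson kernel)

For every `n` there are finitely many points `c y ∈ [-1,1]` and polynomials `p y` of degree at most
`n`, nonnegative on `[-1,1]`, with sum `1` and `∑_y p_y(u) (u - c_y)² ≤ π² / (n+2)²`.
-/

open Finset Polynomial

namespace Vale.Agent.P047X

namespace Jack

/-- `cos` sums over a full set of equally spaced angles. -/
theorem sum_cos {N : ℕ} {m : ℤ} (hm : m ≠ 0) (hN : |m| < N) (t : ℝ) :
    ∑ y ∈ range N, Real.cos (m * (t - 2 * Real.pi * y / N)) = 0 := by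
  have hN0 : (0 : ℤ) < N := lt_of_le_of_lt (abs_nonneg m) hN
  have hN1 : (N : ℂ) ≠ 0 := by
    have : N ≠ 0 := by rintro rfl; simp at hN0
    exact_mod_cast this
  set w : ℂ := Complex.exp (-(2 * Real.pi * Complex.I) * m / N) with hw
  have hw1 : w ≠ 1 := by
    rw [hw, Ne, Complex.exp_eq_one_iff]
    rintro ⟨k, hk⟩
    have h2 : (2 * Real.pi * Complex.I : ℂ) ≠ 0 := by
      simp [Real.pi_ne_zero, Complex.I_ne_zero]
    have h3 : (-m : ℂ) = k * N := by
      have h4 : (2 * Real.pi * Complex.I : ℂ) * (-m) = (2 * Real.pi * Complex.I : ℂ) * (k * N) := by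
        field_simp at hk
        linear_combination (2 * Real.pi * Complex.I : ℂ) * hk
      exact mul_left_cancel₀ h2 h4
    have h5 : -m = k * N := by exact_mod_cast h3
    have h6 : (N : ℤ) ∣ m := by
      have : (N : ℤ) ∣ -m := ⟨k, by rw [h5]; ring⟩
      exact (dvd_neg).1 this
    have h7 := Int.eq_zero_of_abs_lt_dvd h6 hN
    exact hm h7
  have hwN : w ^ N = 1 := by
    rw [hw, ← Complex.exp_nat_mul, Complex.exp_eq_one_iff]
    refine ⟨-m, ?_⟩
    push_cast
    field_simp
  have hgeo : ∑ y ∈ range N, w ^ y = 0 := by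
    have h := geom_sum_mul w N
    rw [hwN, sub_self] at h
    rcases mul_eq_zero.1 h with h | h
    · exact h
    · exact absurd (sub_eq_zero.1 h) hw1
  have hterm : ∀ y : ℕ, Real.cos (m * (t - 2 * Real.pi * y / N)) =
      (Complex.exp (Complex.I * m * t) * w ^ y).re := by
    intro y
    rw [hw, ← Complex.exp_nat_mul, ← Complex.exp_add]
    have e : Complex.I * m * t + y * (-(2 * Real.pi * Complex.I) * m / N) =
        ((m * (t - 2 * Real.pi * y / N) : ℝ) : ℂ) * Complex.I := by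
      push_cast
      ring
    rw [e, Complex.exp_ofReal_mul_I_re]
  rw [sum_congr rfl fun y _ => hterm y, ← Complex.re_sum, ← mul_sum, hgeo, mul_zero]
  rfl

/-- The coefficients of the kernel. -/
noncomputable def a (n : ℕ) (j : ℕ) : ℝ := Real.sin ((j + 1) * (Real.pi / (n + 2)))

/-- The kernel. -/
noncomputable def F (n : ℕ) (φ : ℝ) : ℝ :=
  (∑ j ∈ range (n + 1), a n j * Real.cos (j * φ)) ^ 2 +
    (∑ j ∈ range (n + 1), a n j * Real.sin (j * φ)) ^ 2

theorem F_nonneg (n : ℕ) (φ : ℝ) : 0 ≤ F n φ := by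
  unfold F
  positivity

theorem F_neg (n : ℕ) (φ : ℝ) : F n (-φ) = F n φ := by
  unfold F
  simp only [mul_neg, Real.cos_neg, Real.sin_neg, sum_neg_distrib]
  ring

theorem F_eq (n : ℕ) (φ : ℝ) : F n φ = ∑ j ∈ range (n + 1), ∑ k ∈ range (n + 1),
    a n j * a n k * Real.cos (((j : ℤ) - k : ℤ) * φ) := by
  unfold F
  rw [sq, sq, sum_mul_sum, sum_mul_sum, ← sum_add_distrib]
  refine sum_congr rfl fun j _ => ?_
  rw [← sum_add_distrib]
  refine sum_congr rfl fun k _ => ?_
  push_cast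
  rw [sub_mul, Real.cos_sub]
  ring

/-- The normalisation. -/
noncomputable def A (n : ℕ) : ℝ := ∑ j ∈ range (n + 1), a n j ^ 2

theorem a_pos {n j : ℕ} (hj : j < n + 1) : 0 < a n j := by
  unfold a
  apply Real.sin_pos_of_pos_of_lt_pi
  · positivity
  · have h2 : (0 : ℝ) < n + 2 := by positivity
    rw [← mul_div_assoc, div_lt_iff₀ h2, mul_comm Real.pi]
    have h3 : (j : ℝ) + 1 < n + 2 := by
      have : (j : ℝ) < n + 1 := by exact_mod_cast hj
      linarith
    exact mul_lt_mul_of_pos_right h3 Real.pi_pos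

theorem A_pos (n : ℕ) : 0 < A n := by
  unfold A
  refine sum_pos (fun j hj => ?_) ⟨0, by simp⟩
  rw [mem_range] at hj
  exact pow_pos (a_pos hj) 2

/-- `∑ a_k a_{k+1} = cos(π/(n+2)) ∑ a_k²`. -/
theorem corr (n : ℕ) : ∑ k ∈ range n, a n k * a n (k + 1) =
    Real.cos (Real.pi / (n + 2)) * A n := by
  set x := Real.pi / ((n : ℝ) + 2) with hx
  have h2 : ∀ k : ℕ, 2 * (Real.cos x * a n k ^ 2) =
      a n k * Real.sin ((k + 2) * x) + a n k * Real.sin (k * x) := by
    intro k
    have e1 : Real.sin ((k + 2) * x) = Real.sin ((k + 1) * x + x) := by congr 1; ring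
    have e2 : Real.sin (k * x) = Real.sin ((k + 1) * x - x) := by congr 1; ring
    rw [e1, e2, Real.sin_add, Real.sin_sub]
    unfold a
    rw [← hx]
    ring
  have hend : Real.sin (((n : ℝ) + 2) * x) = 0 := by
    have h3 : ((n : ℝ) + 2) * x = Real.pi := by
      rw [hx]
      field_simp
    rw [h3, Real.sin_pi]
  have e3 : ∑ k ∈ range (n + 1), a n k * Real.sin ((k + 2) * x) =
      ∑ k ∈ range n, a n k * a n (k + 1) := by
    rw [sum_range_succ, hend, mul_zero, add_zero]
    refine sum_congr rfl fun k _ => ?_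
    unfold a
    rw [← hx]
    push_cast
    ring_nf
  have e4 : ∑ k ∈ range (n + 1), a n k * Real.sin (k * x) =
      ∑ k ∈ range n, a n k * a n (k + 1) := by
    rw [sum_range_succ']
    simp only [Nat.cast_zero, zero_mul, Real.sin_zero, mul_zero, add_zero]
    refine sum_congr rfl fun k _ => ?_
    unfold a
    rw [← hx]
    push_cast
    ring
  have e5 : 2 * (Real.cos x * A n) = 2 * ∑ k ∈ range n, a n k * a n (k + 1) := by
    unfold A
    rw [mul_sum, mul_sum, sum_congr rfl fun k _ => h2 k, sum_add_distrib, e3, e4]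
    ring
  linarith

theorem sum_cos' {N : ℕ} {m : ℤ} (hN : |m| < N) (t : ℝ) :
    ∑ y ∈ range N, Real.cos (m * (t - 2 * Real.pi * y / N)) = if m = 0 then (N : ℝ) else 0 := by
  by_cases hm : m = 0
  · subst hm
    simp
  · rw [if_neg hm]
    exact sum_cos hm hN t

theorem abs_sub_le {n j k : ℕ} (hj : j < n + 1) (hk : k < n + 1) : |(j : ℤ) - k| ≤ n := by
  rw [abs_le]
  constructor <;> omega

theorem sum_F {n N : ℕ} (hN : n < N) (t : ℝ) :
    ∑ y ∈ range N, F n (t - 2 * Real.pi * y / N) = N * A n := by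
  simp_rw [F_eq]
  rw [sum_comm]
  unfold A
  rw [mul_sum]
  refine sum_congr rfl fun j hj => ?_
  rw [mem_range] at hj
  rw [sum_comm]
  have e : ∀ k ∈ range (n + 1), ∑ y ∈ range N, a n j * a n k *
      Real.cos (((j : ℤ) - k : ℤ) * (t - 2 * Real.pi * y / N)) =
      if j = k then N * a n j ^ 2 else 0 := by
    intro k hk
    rw [mem_range] at hk
    have h1 := abs_sub_le hj hk
    rw [← mul_sum, sum_cos' (by omega)]
    by_cases hjk : j = k
    · subst hjk
      simp
      ring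
    · rw [if_neg (by omega), if_neg hjk, mul_zero]
  rw [sum_congr rfl e, sum_ite_eq, if_pos (mem_range.2 hj)]

theorem sum_shift (n : ℕ) (c : ℝ) :
    ∑ j ∈ range (n + 1), ∑ k ∈ range (n + 1),
      (if (j : ℤ) - k = 1 then a n j * a n k * c else 0) =
      c * ∑ k ∈ range n, a n k * a n (k + 1) := by
  rw [sum_comm, sum_range_succ, mul_sum]
  have e1 : ∑ j ∈ range (n + 1), (if (j : ℤ) - n = 1 then a n j * a n n * c else 0) = 0 := by
    refine sum_eq_zero fun j hj => ?_
    rw [mem_range] at hj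
    rw [if_neg (by omega)]
  rw [e1, add_zero]
  refine sum_congr rfl fun k hk => ?_
  rw [mem_range] at hk
  have e2 : ∀ j ∈ range (n + 1), (if (j : ℤ) - k = 1 then a n j * a n k * c else 0) =
      if k + 1 = j then a n j * a n k * c else 0 := by
    intro j _
    by_cases h : k + 1 = j
    · rw [if_pos h, if_pos (by omega)]
    · rw [if_neg h, if_neg (by omega)]
  rw [sum_congr rfl e2, sum_ite_eq, if_pos (mem_range.2 (by omega))]
  ring

theorem sum_F_cos {n N : ℕ} (hN : n + 1 < N) (t : ℝ) :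
    ∑ y ∈ range N, F n (t - 2 * Real.pi * y / N) * Real.cos (t - 2 * Real.pi * y / N) =
      N * (Real.cos (Real.pi / (n + 2)) * A n) := by
  have e0 : ∀ y : ℕ, F n (t - 2 * Real.pi * y / N) * Real.cos (t - 2 * Real.pi * y / N) =
      ∑ j ∈ range (n + 1), ∑ k ∈ range (n + 1),
        (a n j * a n k / 2 * Real.cos ((((j : ℤ) - k + 1 : ℤ) : ℝ) * (t - 2 * Real.pi * y / N)) +
        a n j * a n k / 2 * Real.cos ((((j : ℤ) - k - 1 : ℤ) : ℝ) * (t - 2 * Real.pi * y / N))) := by
    intro y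
    rw [F_eq, sum_mul]
    refine sum_congr rfl fun j _ => ?_
    rw [sum_mul]
    refine sum_congr rfl fun k _ => ?_
    generalize t - 2 * Real.pi * y / N = φ
    have e1 : ((((j : ℤ) - k + 1 : ℤ) : ℝ)) * φ = (((j : ℤ) - k : ℤ) : ℝ) * φ + φ := by
      push_cast; ring
    have e2 : ((((j : ℤ) - k - 1 : ℤ) : ℝ)) * φ = (((j : ℤ) - k : ℤ) : ℝ) * φ - φ := by
      push_cast; ring
    rw [e1, e2, Real.cos_add, Real.cos_sub]
    ring
  rw [sum_congr rfl fun y _ => e0 y, sum_comm]
  have e3 : ∀ j ∈ range (n + 1), ∑ y ∈ range N, ∑ k ∈ range (n + 1),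
        (a n j * a n k / 2 * Real.cos ((((j : ℤ) - k + 1 : ℤ) : ℝ) * (t - 2 * Real.pi * y / N)) +
        a n j * a n k / 2 * Real.cos ((((j : ℤ) - k - 1 : ℤ) : ℝ) * (t - 2 * Real.pi * y / N))) =
      ∑ k ∈ range (n + 1), ((if (k : ℤ) - j = 1 then a n k * a n j * (N / 2) else 0) +
        if (j : ℤ) - k = 1 then a n j * a n k * (N / 2) else 0) := by
    intro j hj
    rw [mem_range] at hj
    rw [sum_comm]
    refine sum_congr rfl fun k hk => ?_
    rw [mem_range] at hk
    have h1 : |(j : ℤ) - k + 1| < N := by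
      rw [abs_lt]; constructor <;> omega
    have h2 : |(j : ℤ) - k - 1| < N := by
      rw [abs_lt]; constructor <;> omega
    rw [sum_add_distrib, ← mul_sum, ← mul_sum, sum_cos' h1, sum_cos' h2]
    congr 1
    · by_cases h : (k : ℤ) - j = 1
      · rw [if_pos h, if_pos (by omega)]; ring
      · rw [if_neg h, if_neg (by omega), mul_zero]
    · by_cases h : (j : ℤ) - k = 1
      · rw [if_pos h, if_pos (by omega)]; ring
      · rw [if_neg h, if_neg (by omega), mul_zero]
  rw [sum_congr rfl e3]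
  simp_rw [sum_add_distrib]
  rw [sum_shift n (N / 2)]
  have e4 : ∑ j ∈ range (n + 1), ∑ k ∈ range (n + 1),
      (if (k : ℤ) - j = 1 then a n k * a n j * ((N : ℝ) / 2) else 0) =
      (N / 2) * ∑ k ∈ range n, a n k * a n (k + 1) := by
    rw [sum_comm]
    exact sum_shift n (N / 2)
  rw [e4, corr]
  ring

/-- The polynomials. -/
noncomputable def p (n N : ℕ) (y : ℕ) : ℝ[X] :=
  C (1 / (N * A n)) * ∑ j ∈ range (n + 1), ∑ k ∈ range (n + 1),
    C (a n j * a n k * Real.cos ((((j : ℤ) - k : ℤ) : ℝ) * (2 * Real.pi * y / N))) *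
      Chebyshev.T ℝ ((j : ℤ) - k)

theorem natDegree_p (n N y : ℕ) : (p n N y).natDegree ≤ n := by
  unfold p
  refine (natDegree_C_mul_le _ _).trans ?_
  refine natDegree_sum_le_of_forall_le _ _ fun j hj => ?_
  refine natDegree_sum_le_of_forall_le _ _ fun k hk => ?_
  rw [mem_range] at hj hk
  refine (natDegree_C_mul_le _ _).trans ?_
  rw [Chebyshev.natDegree_T]
  have := abs_sub_le hj hk
  omega

theorem eval_p (n N y : ℕ) (t : ℝ) : (p n N y).eval (Real.cos t) =
    (F n (t - 2 * Real.pi * y / N) + F n (t + 2 * Real.pi * y / N)) / (2 * (N * A n)) := by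
  have key : F n (t - 2 * Real.pi * y / N) + F n (t + 2 * Real.pi * y / N) =
      2 * ∑ j ∈ range (n + 1), ∑ k ∈ range (n + 1),
        a n j * a n k * Real.cos ((((j : ℤ) - k : ℤ) : ℝ) * (2 * Real.pi * y / N)) *
          Real.cos ((((j : ℤ) - k : ℤ) : ℝ) * t) := by
    rw [F_eq, F_eq, ← sum_add_distrib, mul_sum]
    refine sum_congr rfl fun j _ => ?_
    rw [← sum_add_distrib, mul_sum]
    refine sum_congr rfl fun k _ => ?_
    rw [mul_sub, mul_add, Real.cos_sub, Real.cos_add]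
    ring
  rw [key]
  unfold p
  rw [eval_mul, eval_C, eval_finsetSum]
  have e : ∀ j ∈ range (n + 1), eval (Real.cos t) (∑ k ∈ range (n + 1),
      C (a n j * a n k * Real.cos ((((j : ℤ) - k : ℤ) : ℝ) * (2 * Real.pi * y / N))) *
        Chebyshev.T ℝ ((j : ℤ) - k)) = ∑ k ∈ range (n + 1),
        a n j * a n k * Real.cos ((((j : ℤ) - k : ℤ) : ℝ) * (2 * Real.pi * y / N)) *
          Real.cos ((((j : ℤ) - k : ℤ) : ℝ) * t) := by
    intro j _
    rw [eval_finsetSum]
    refine sum_congr rfl fun k _ => ?_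
    rw [eval_mul, eval_C, Chebyshev.T_real_cos]
  rw [sum_congr rfl e, mul_div_mul_left _ _ two_ne_zero, one_div, inv_mul_eq_div]

theorem eval_p_nonneg (n N y : ℕ) {u : ℝ} (hu : |u| ≤ 1) : 0 ≤ (p n N y).eval u := by
  obtain ⟨h1, h2⟩ := abs_le.1 hu
  rw [← Real.cos_arccos h1 h2, eval_p]
  have := A_pos n
  have := F_nonneg n (Real.arccos u - 2 * Real.pi * y / N)
  have := F_nonneg n (Real.arccos u + 2 * Real.pi * y / N)
  positivity

theorem sum_p {n N : ℕ} (hN : n < N) : ∑ y ∈ range N, p n N y = 1 := by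
  have hA := A_pos n
  have hN0 : (0 : ℝ) < N := by
    have : 0 < N := by omega
    exact_mod_cast this
  have h1 : ∀ j ∈ range (n + 1), ∑ y ∈ range N, ∑ k ∈ range (n + 1),
      C (a n j * a n k * Real.cos ((((j : ℤ) - k : ℤ) : ℝ) * (2 * Real.pi * y / N))) *
        Chebyshev.T ℝ ((j : ℤ) - k) = C (N * a n j ^ 2) := by
    intro j hj
    rw [mem_range] at hj
    rw [sum_comm]
    have e : ∀ k ∈ range (n + 1), ∑ y ∈ range N,
        C (a n j * a n k * Real.cos ((((j : ℤ) - k : ℤ) : ℝ) * (2 * Real.pi * y / N))) *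
          Chebyshev.T ℝ ((j : ℤ) - k) = if j = k then C (N * a n j ^ 2) else 0 := by
      intro k hk
      rw [mem_range] at hk
      have h2 := abs_sub_le hj hk
      rw [← sum_mul, ← map_sum, ← mul_sum]
      have h3 : ∑ y ∈ range N, Real.cos ((((j : ℤ) - k : ℤ) : ℝ) * (2 * Real.pi * y / N)) =
          if (j : ℤ) - k = 0 then (N : ℝ) else 0 := by
        have h4 := sum_cos' (N := N) (m := (j : ℤ) - k) (by omega) 0
        rw [← h4]
        refine sum_congr rfl fun y _ => ?_
        rw [zero_sub, mul_neg, Real.cos_neg]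
      rw [h3]
      by_cases hjk : j = k
      · subst hjk
        rw [if_pos (sub_self _), if_pos rfl, sub_self, Chebyshev.T_zero, mul_one]
        congr 1
        ring
      · rw [if_neg (by omega), if_neg hjk, mul_zero, C_0, zero_mul]
    rw [sum_congr rfl e, sum_ite_eq, if_pos (mem_range.2 hj)]
  unfold p
  rw [← mul_sum, sum_comm, sum_congr rfl h1, ← map_sum, ← mul_sum, ← C_mul]
  have h5 : 1 / (N * A n) * (N * ∑ j ∈ range (n + 1), a n j ^ 2) = 1 := by
    change 1 / (N * A n) * (N * A n) = 1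
    have : (N : ℝ) * A n ≠ 0 := by positivity
    field_simp
  rw [h5, C_1]

theorem sq_le_cos (t θ : ℝ) : (Real.cos t - Real.cos θ) ^ 2 ≤ 2 - 2 * Real.cos (t - θ) ∧
    (Real.cos t - Real.cos θ) ^ 2 ≤ 2 - 2 * Real.cos (t + θ) := by
  rw [Real.cos_sub, Real.cos_add]
  have h1 := Real.sin_sq_add_cos_sq t
  have h2 := Real.sin_sq_add_cos_sq θ
  constructor
  · nlinarith [sq_nonneg (Real.sin t - Real.sin θ)]
  · nlinarith [sq_nonneg (Real.sin t + Real.sin θ)]

theorem sum_sq {n N : ℕ} (hN : n + 1 < N) {u : ℝ} (hu : |u| ≤ 1) :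
    ∑ y ∈ range N, (p n N y).eval u * (u - Real.cos (2 * Real.pi * y / N)) ^ 2 ≤
      Real.pi ^ 2 / ((n : ℝ) + 2) ^ 2 := by
  obtain ⟨h1, h2⟩ := abs_le.1 hu
  set t := Real.arccos u with ht
  have hut : u = Real.cos t := (Real.cos_arccos h1 h2).symm
  have hA := A_pos n
  have hN0 : (0 : ℝ) < N := by
    have : 0 < N := by omega
    exact_mod_cast this
  have e1 : ∀ y ∈ range N, (p n N y).eval u * (u - Real.cos (2 * Real.pi * y / N)) ^ 2 ≤
      (F n (t - 2 * Real.pi * y / N) * (2 - 2 * Real.cos (t - 2 * Real.pi * y / N)) +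
        F n (-t - 2 * Real.pi * y / N) * (2 - 2 * Real.cos (-t - 2 * Real.pi * y / N))) /
        (2 * (N * A n)) := by
    intro y _
    rw [hut, eval_p]
    have e2 : F n (-t - 2 * Real.pi * y / N) = F n (t + 2 * Real.pi * y / N) := by
      rw [← F_neg n (t + 2 * Real.pi * y / N)]
      congr 1
      ring
    have e3 : Real.cos (-t - 2 * Real.pi * y / N) = Real.cos (t + 2 * Real.pi * y / N) := by
      rw [← Real.cos_neg (t + 2 * Real.pi * y / N)]
      congr 1
      ring
    rw [e2, e3, div_mul_eq_mul_div]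
    refine div_le_div_of_nonneg_right ?_ (by positivity)
    obtain ⟨k1, k2⟩ := sq_le_cos t (2 * Real.pi * y / N)
    have k3 := mul_le_mul_of_nonneg_left k1 (F_nonneg n (t - 2 * Real.pi * y / N))
    have k4 := mul_le_mul_of_nonneg_left k2 (F_nonneg n (t + 2 * Real.pi * y / N))
    linarith
  refine (sum_le_sum e1).trans ?_
  rw [← sum_div, sum_add_distrib]
  have e4 : ∀ τ : ℝ, ∑ y ∈ range N, F n (τ - 2 * Real.pi * y / N) *
      (2 - 2 * Real.cos (τ - 2 * Real.pi * y / N)) =
      2 * (N * A n) * (1 - Real.cos (Real.pi / (n + 2))) := by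
    intro τ
    have e5 : ∀ y ∈ range N, F n (τ - 2 * Real.pi * y / N) *
        (2 - 2 * Real.cos (τ - 2 * Real.pi * y / N)) = 2 * F n (τ - 2 * Real.pi * y / N) -
        2 * (F n (τ - 2 * Real.pi * y / N) * Real.cos (τ - 2 * Real.pi * y / N)) := by
      intro y _
      ring
    rw [sum_congr rfl e5, sum_sub_distrib, ← mul_sum, ← mul_sum, sum_F (by omega), sum_F_cos hN]
    ring
  rw [e4, e4]
  have e6 : (2 * (N * A n) * (1 - Real.cos (Real.pi / (n + 2))) +
      2 * (N * A n) * (1 - Real.cos (Real.pi / (n + 2)))) / (2 * (N * A n)) =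
      2 * (1 - Real.cos (Real.pi / (n + 2))) := by
    have : (N : ℝ) * A n ≠ 0 := by positivity
    field_simp
    ring
  rw [e6]
  have e7 := Real.one_sub_sq_div_two_le_cos (x := Real.pi / ((n : ℝ) + 2))
  rw [div_pow] at e7
  linarith

end Jack

/-- **Low degree partition of unity.** -/
theorem jackson (n : ℕ) : ∃ (N : ℕ) (c : Fin N → ℝ) (p : Fin N → ℝ[X]), 0 < N ∧
    (∀ y, |c y| ≤ 1) ∧ (∀ y, (p y).natDegree ≤ n) ∧ (∀ y u, |u| ≤ 1 → 0 ≤ (p y).eval u) ∧
    (∑ y, p y = 1) ∧ ∀ u, |u| ≤ 1 →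
      ∑ y, (p y).eval u * (u - c y) ^ 2 ≤ Real.pi ^ 2 / ((n : ℝ) + 2) ^ 2 := by
  refine ⟨n + 2, fun y => Real.cos (2 * Real.pi * (y : ℕ) / (n + 2 : ℕ)),
    fun y => Jack.p n (n + 2) y, by omega, fun y => Real.abs_cos_le_one _,
    fun y => Jack.natDegree_p _ _ _, fun y u hu => Jack.eval_p_nonneg _ _ _ hu, ?_,
    fun u hu => ?_⟩
  · have h := Jack.sum_p (n := n) (N := n + 2) (by omega)
    rw [Finset.sum_range] at h
    exact h
  · have h := Jack.sum_sq (n := n) (N := n + 2) (by omega) hu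
    rw [Finset.sum_range] at h
    exact h

end Vale.Agent.P047X
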