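import Vale.Agent.P047X.Defs
import Vale.Agent.P047X.Jackson

/-!
Module KER: Jackson-type positive polynomial kernel.
`a_j = sin (π (j+1)/(n+2))`, `j = 0..n`, `F φ = |∑ a_j e^{ijφ}|² / ∑ a_j² = ∑_{|l| ≤ n} ρ_l cos (l φ)`, `ρ_0 = 1`,
`ρ_1 = cos (π/(n+2))` (because `a_{j-1} + a_{j+1} = 2 cos(π/(n+2)) a_j`, `a_{-1} = a_{n+1} = 0`).
`N ≥ n+3`, `θ_y = 2π y/N`, `c_y = cos θ_y`, `p_y = (1/N) ∑_{|l| ≤ n} ρ_l cos (l θ_y) T_|l|` (Chebyshev), so that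
`p_y (cos t) = (F (t-θ_y) + F (t+θ_y)) / (2N) ≥ 0`. `∑_y cos (l θ_y) = 0` for `0 < l < N`.
`∑_y p_y(cos t) (cos t - c_y)² ≤ 2(1-ρ_1) ≤ π²/(n+2)²` because
`(cos t - cos θ)² ≤ |e^{it} - e^{±iθ}|² = 2 - 2 cos (t ∓ θ)`.
-/

open scoped BigOperators
open Finset

namespace P047X

theorem ker (n : ℕ) : ∃ (N : ℕ) (c : Fin N → ℝ) (p : Fin N → Polynomial ℝ), 0 < N ∧
    (∀ y, |c y| ≤ 1) ∧ (∀ y, (p y).natDegree ≤ n) ∧
    ∀ u : ℝ, |u| ≤ 1 →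
      (∀ y, 0 ≤ (p y).eval u) ∧ ∑ y, (p y).eval u = 1 ∧
      ∑ y, (p y).eval u * (u - c y) ^ 2 ≤ 10 / ((n : ℝ) + 1) ^ 2 := by
  obtain ⟨N, c, p, h0, h1, h2, h3, h4, h5⟩ := Vale.Agent.P047X.jackson n
  refine ⟨N, c, p, h0, h1, h2, fun u hu => ⟨fun y => h3 y u hu, ?_, ?_⟩⟩
  · rw [← Polynomial.eval_finsetSum, h4, Polynomial.eval_one]
  · refine (h5 u hu).trans ?_
    have hpi : Real.pi ^ 2 ≤ 10 := by
      have := Real.pi_lt_d2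
      have := Real.pi_pos
      nlinarith
    refine div_le_div₀ (by norm_num) hpi (by positivity) ?_
    exact pow_le_pow_left₀ (by positivity) (by linarith) 2

end P047X
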