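import Vale.Agent.P047X.Classes

/-!
Module POW: powers of schemes, and the existence of a power with good classes.
`pow S m`: `Ψ x j = S.Ψ (sl x j)`, `μ y = ∑ j, S.μ (y j)`, `δ = m * S.δ`. (Degree: expand `c` in products of indicators, `Deg.prod_sl`.)
`good_power`: apply `classes` to `X = S.μ ∘ S.Ψ / √V` on `Ω = cube`.
-/

open scoped BigOperators
open Finset

namespace P047X

noncomputable section

variable {ι Y : Type} [Fintype ι] [Fintype Y]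

/-- calibration of all coordinates against functions of the symbols -/
private theorem pow_cal_symbols {J ι Y : Type} [Fintype J] [DecidableEq J] [Fintype ι] [Fintype Y]
    (S : Scheme ι Y) (F : (J → Y) → ℝ) :
    ex (fun x : J × ι → ℤˣ => (∑ j, (sm (sl x j) - S.μ (S.Ψ (sl x j)))) *
      F (fun j => S.Ψ (sl x j))) = 0 := by
  have h1 : (fun x : J × ι → ℤˣ => (∑ j, (sm (sl x j) - S.μ (S.Ψ (sl x j)))) *
      F (fun j => S.Ψ (sl x j))) =
      fun x => ∑ j, ∑ w : J → Y, F w * ∏ i, (if i = j then (sm (sl x i) - S.μ (S.Ψ (sl x i))) *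
        ind (S.Ψ (sl x i) = w i) else ind (S.Ψ (sl x i) = w i)) := by
    funext x
    rw [Finset.sum_mul]
    refine Finset.sum_congr rfl fun j _ => ?_
    rw [expand_ind F (fun j => S.Ψ (sl x j)), Finset.mul_sum]
    refine Finset.sum_congr rfl fun w _ => ?_
    have h2 : ∏ i, (if i = j then (sm (sl x i) - S.μ (S.Ψ (sl x i))) *
        ind (S.Ψ (sl x i) = w i) else ind (S.Ψ (sl x i) = w i)) =
        (∏ i, (if i = j then (sm (sl x i) - S.μ (S.Ψ (sl x i))) else 1)) *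
          ∏ i, ind (S.Ψ (sl x i) = w i) := by
      rw [← Finset.prod_mul_distrib]
      refine Finset.prod_congr rfl fun i _ => ?_
      split_ifs <;> ring
    rw [h2, Finset.prod_ite_eq' Finset.univ j, if_pos (Finset.mem_univ j)]
    ring
  rw [h1, ex_sum]
  refine Finset.sum_eq_zero fun j _ => ?_
  rw [ex_sum]
  refine Finset.sum_eq_zero fun w _ => ?_
  rw [ex_mul_left]
  have h3 := ex_prod_sl (J := J) (ι := ι) (fun i ω => if i = j then
    (sm ω - S.μ (S.Ψ ω)) * ind (S.Ψ ω = w i) else ind (S.Ψ ω = w i))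
  rw [h3, Finset.prod_eq_zero (Finset.mem_univ j), mul_zero]
  simp only [if_true]
  exact S.cal (fun y => ind (y = w j))

/-- power of a scheme -/
def Scheme.pow (S : Scheme ι Y) (m : ℕ) : Scheme (Fin m × ι) (Fin m → Y) where
  Ψ := fun x j => S.Ψ (sl x j)
  μ := fun y => ∑ j, S.μ (y j)
  δ := m * S.δ
  deg := by
    intro c
    have h1 : (fun x : Fin m × ι → ℤˣ => c (fun j => S.Ψ (sl x j))) =
        fun x => ∑ w : Fin m → Y, c w * ∏ j, ind (S.Ψ (sl x j) = w j) := by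
      funext x
      exact expand_ind c (fun j => S.Ψ (sl x j))
    rw [h1]
    refine Deg.sum _ fun w _ => Deg.smul (c w) ?_
    have h2 := Deg.prod_sl (J := Fin m) (ι := ι) (d := fun _ => S.δ)
      (g := fun j x => ind (S.Ψ x = w j)) (fun j => S.deg (fun y => ind (y = w j)))
    simpa using h2
  cal := by
    intro c
    have h := pow_cal_symbols (J := Fin m) S c
    have e : (fun x : Fin m × ι → ℤˣ => (sm x - ∑ j, S.μ (S.Ψ (sl x j))) *
        c (fun j => S.Ψ (sl x j))) = fun x : Fin m × ι → ℤˣ =>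
          (∑ j, (sm (sl x j) - S.μ (S.Ψ (sl x j)))) * c (fun j => S.Ψ (sl x j)) := by
      funext x
      rw [sm_sl, Finset.sum_sub_distrib]
    rw [← e] at h
    exact h

theorem Scheme.ex_mu (S : Scheme ι Y) : ex (fun x => S.μ (S.Ψ x)) = 0 := by
  have h1 := S.cal (fun _ => 1)
  simp only [mul_one] at h1
  rw [ex_sub, ex_sm] at h1
  linarith

theorem Scheme.V_nonneg (S : Scheme ι Y) : 0 ≤ S.V := ex_nonneg fun _ => sq_nonneg _

theorem Scheme.V_pow (S : Scheme ι Y) (m : ℕ) : (S.pow m).V = m * S.V := by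
  have h1 : (S.pow m).V = ex (fun y : Fin m → (ι → ℤˣ) => (∑ j, S.μ (S.Ψ (y j))) ^ 2) :=
    ex_sl (J := Fin m) (fun y : Fin m → (ι → ℤˣ) => (∑ j, S.μ (S.Ψ (y j))) ^ 2)
  rw [h1, ex_sum_sq (fun _ ω => S.μ (S.Ψ ω)) (fun _ => S.ex_mu)]
  simp [Scheme.V]

theorem good_power : ∃ (k : ℕ) (p0 : ℝ), 2 ≤ k ∧ 0 < p0 ∧
    ∀ (ι Y : Type) [Fintype ι] [Fintype Y] (S : Scheme ι Y), 0 < S.V →
      ∃ (m : ℕ) (cl : (Fin m → Y) → Fin k) (c : Fin k → ℝ), 1 ≤ m ∧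
        (∀ i, p0 ≤ ex (fun x => ind (cl ((S.pow m).Ψ x) = i))) ∧
        ∑ i, ex (fun x => ((S.pow m).μ ((S.pow m).Ψ x) - c i) ^ 2 * ind (cl ((S.pow m).Ψ x) = i)) /
            ex (fun x => ind (cl ((S.pow m).Ψ x) = i)) ≤ 3 / 8 * (S.pow m).V := by
  obtain ⟨k, p0, hk, hp0, H⟩ := classes
  refine ⟨k, p0, hk, hp0, ?_⟩
  intro ι Y _ _ S hV
  have hs : 0 < Real.sqrt S.V := Real.sqrt_pos.2 hV
  have hss : Real.sqrt S.V * Real.sqrt S.V = S.V := Real.mul_self_sqrt hV.le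
  let X : (ι → ℤˣ) → ℝ := fun ω => (Real.sqrt S.V)⁻¹ * S.μ (S.Ψ ω)
  have hX1 : ex X = 0 := by
    show ex (fun ω => (Real.sqrt S.V)⁻¹ * S.μ (S.Ψ ω)) = 0
    rw [ex_mul_left, S.ex_mu, mul_zero]
  have hX2 : ex (fun ω => (X ω) ^ 2) = 1 := by
    have e : (fun ω => (X ω) ^ 2) = fun ω => (S.V)⁻¹ * (S.μ (S.Ψ ω)) ^ 2 := by
      funext ω
      show ((Real.sqrt S.V)⁻¹ * S.μ (S.Ψ ω)) ^ 2 = _
      rw [mul_pow, inv_pow, Real.sq_sqrt hV.le]
    rw [e, ex_mul_left]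
    exact inv_mul_cancel₀ hV.ne'
  obtain ⟨m, cl, c, hm, hp, hvar⟩ := H (ι → ℤˣ) X hX1 hX2
  have hm0 : (0 : ℝ) < m := by exact_mod_cast hm
  have hsm : 0 < Real.sqrt m := Real.sqrt_pos.2 hm0
  have hz : ∀ y : Fin m → (ι → ℤˣ),
      zn X m y = (Real.sqrt m)⁻¹ * ((Real.sqrt S.V)⁻¹ * ∑ j, S.μ (S.Ψ (y j))) := by
    intro y
    show (Real.sqrt m)⁻¹ * ∑ j, (Real.sqrt S.V)⁻¹ * S.μ (S.Ψ (y j)) = _
    rw [← Finset.mul_sum]
  have hP : ∀ i, ex (fun x : Fin m × ι → ℤˣ =>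
      ind (cl ((Real.sqrt m)⁻¹ * ((Real.sqrt S.V)⁻¹ * ∑ j, S.μ ((S.pow m).Ψ x j))) = i)) =
      ex (fun y : Fin m → (ι → ℤˣ) => ind (cl (zn X m y) = i)) := by
    intro i
    simp only [hz]
    exact ex_sl (J := Fin m) (fun y : Fin m → (ι → ℤˣ) =>
      ind (cl ((Real.sqrt m)⁻¹ * ((Real.sqrt S.V)⁻¹ * ∑ j, S.μ (S.Ψ (y j)))) = i))
  refine ⟨m, fun w => cl ((Real.sqrt m)⁻¹ * ((Real.sqrt S.V)⁻¹ * ∑ j, S.μ (w j))),
    fun i => Real.sqrt m * (Real.sqrt S.V * c i), hm, ?_, ?_⟩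
  · intro i
    rw [hP i]
    exact hp i
  · rw [S.V_pow]
    have hQ : ∀ i, ex (fun x : Fin m × ι → ℤˣ =>
        ((S.pow m).μ ((S.pow m).Ψ x) - Real.sqrt m * (Real.sqrt S.V * c i)) ^ 2 *
          ind (cl ((Real.sqrt m)⁻¹ * ((Real.sqrt S.V)⁻¹ * ∑ j, S.μ ((S.pow m).Ψ x j))) = i)) =
        (m * S.V) * ex (fun y : Fin m → (ι → ℤˣ) => (zn X m y - c i) ^ 2 *
          ind (cl (zn X m y) = i)) := by
      intro i
      rw [← ex_mul_left]
      have e : (fun y : Fin m → (ι → ℤˣ) => ((m : ℝ) * S.V) * ((zn X m y - c i) ^ 2 *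
          ind (cl (zn X m y) = i))) = fun y =>
          (∑ j, S.μ (S.Ψ (y j)) - Real.sqrt m * (Real.sqrt S.V * c i)) ^ 2 *
          ind (cl ((Real.sqrt m)⁻¹ * ((Real.sqrt S.V)⁻¹ * ∑ j, S.μ (S.Ψ (y j)))) = i) := by
        funext y
        rw [hz y, ← mul_assoc]
        congr 1
        have h3 : ((m : ℝ) * S.V) = (Real.sqrt m * Real.sqrt S.V) ^ 2 := by
          rw [mul_pow, Real.sq_sqrt hm0.le, Real.sq_sqrt hV.le]
        rw [h3, ← mul_pow]
        congr 1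
        field_simp
      rw [e]
      exact ex_sl (J := Fin m) (fun y : Fin m → (ι → ℤˣ) =>
        (∑ j, S.μ (S.Ψ (y j)) - Real.sqrt m * (Real.sqrt S.V * c i)) ^ 2 *
          ind (cl ((Real.sqrt m)⁻¹ * ((Real.sqrt S.V)⁻¹ * ∑ j, S.μ (S.Ψ (y j)))) = i))
    have hsum : ∑ i, ex (fun x : Fin m × ι → ℤˣ =>
        ((S.pow m).μ ((S.pow m).Ψ x) - Real.sqrt m * (Real.sqrt S.V * c i)) ^ 2 *
          ind (cl ((Real.sqrt m)⁻¹ * ((Real.sqrt S.V)⁻¹ * ∑ j, S.μ ((S.pow m).Ψ x j))) = i)) /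
        ex (fun x : Fin m × ι → ℤˣ =>
          ind (cl ((Real.sqrt m)⁻¹ * ((Real.sqrt S.V)⁻¹ * ∑ j, S.μ ((S.pow m).Ψ x j))) = i)) =
        (m * S.V) * ∑ i, ex (fun y : Fin m → (ι → ℤˣ) => (zn X m y - c i) ^ 2 *
          ind (cl (zn X m y) = i)) / ex (fun y : Fin m → (ι → ℤˣ) => ind (cl (zn X m y) = i)) := by
      rw [Finset.mul_sum]
      refine Finset.sum_congr rfl fun i _ => ?_
      rw [hP i, hQ i, mul_div_assoc]
    have hfin : (m * S.V) * ∑ i, ex (fun y : Fin m → (ι → ℤˣ) => (zn X m y - c i) ^ 2 *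
          ind (cl (zn X m y) = i)) / ex (fun y : Fin m → (ι → ℤˣ) => ind (cl (zn X m y) = i)) ≤
        (m * S.V) * (3 / 8) := mul_le_mul_of_nonneg_left hvar (by positivity)
    calc _ = _ := hsum
      _ ≤ _ := hfin
      _ = _ := by ring

end

end P047X
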